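import Crest.Agent.R010.Elim

/-!
# Row 10, Theorem A (characteristic two), step 0: `ψ(a,b) = S(a+b; a², b²)`

Letters of `FA F2 (Fin 3)`: `0 = X`, `1 = Y`, `2 = Z`.
-/

set_option autoImplicit false

noncomputable section

namespace Crest.Agent.R010

theorem add_self_F2 {V : Type} [AddCommGroup V] [Module F2 V] (x : V) : x + x = 0 := by
  rw [← two_smul F2 x, show (2 : F2) = 0 from rfl, zero_smul]

theorem neg_eq_F2 {V : Type} [AddCommGroup V] [Module F2 V] (x : V) : -x = x :=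
  neg_eq_of_add_eq_zero_left (add_self_F2 x)

theorem sub_eq_add_F2 {V : Type} [AddCommGroup V] [Module F2 V] (x y : V) : x - y = x + y := by
  rw [sub_eq_add_neg, neg_eq_F2]

/-- Weights of `X, Y` in `F⟨X,Y⟩`. -/
def wt2 : Fin 2 → ℕ := ![1, 2]

/-- Swap `Y` and `Z`. -/
def tau3 : FA F2 (Fin 3) →ₐ[F2] FA F2 (Fin 3) := ev3 (gen 0) (gen 2) (gen 1)

/-- `ad a` on the image of `κ₀`. -/
def delA : Module.End F2 (FA F2 (Fin 3)) :=
  der ![gen 0 * gen 0 + gen 1 + gen 2, 0, ⁅(gen 0 : FA F2 (Fin 3)), gen 2⁆]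

/-- `ad b` on the image of `κ₀`. -/
def delB : Module.End F2 (FA F2 (Fin 3)) :=
  der ![gen 0 * gen 0 + gen 1 + gen 2, ⁅(gen 0 : FA F2 (Fin 3)), gen 1⁆, 0]

private theorem a0_eq_of_two {V : Type} [AddCommGroup V] [Module F2 V] {x y : V} (c : V)
    (h : x = y + (c + c)) : x = y := by
  rw [h, add_self_F2, add_zero]

private theorem a0_kap0_X : kap0 (gen 0) = gX + gY := ev_gen _ _
private theorem a0_kap0_Y : kap0 (gen 1) = gX * gX := ev_gen _ _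
private theorem a0_kap0_Z : kap0 (gen 2) = gY * gY := ev_gen _ _
private theorem a0_rho0_a : rho0 gX = !![0, gen 1; 1, 0] := ev_gen _ _
private theorem a0_rho0_b : rho0 gY = !![gen 0, gen 0 * gen 0 + gen 2; 1, gen 0] := ev_gen _ _

private theorem a0_rho_gen (c : Fin 3) :
    rho0 (kap0 (gen c)) 0 0 = gen c ∧ rho0 (kap0 (gen c)) 1 0 = 0 := by
  fin_cases c
  · change rho0 (kap0 (gen 0)) 0 0 = gen 0 ∧ rho0 (kap0 (gen 0)) 1 0 = 0
    rw [a0_kap0_X, map_add, a0_rho0_a, a0_rho0_b]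
    refine ⟨by simp, ?_⟩
    simpa using add_self_F2 (1 : FA F2 (Fin 3))
  · change rho0 (kap0 (gen 1)) 0 0 = gen 1 ∧ rho0 (kap0 (gen 1)) 1 0 = 0
    rw [a0_kap0_Y, map_mul, a0_rho0_a]
    simp [Matrix.mul_apply, Fin.sum_univ_two]
  · change rho0 (kap0 (gen 2)) 0 0 = gen 2 ∧ rho0 (kap0 (gen 2)) 1 0 = 0
    rw [a0_kap0_Z, map_mul, a0_rho0_b]
    constructor
    · simp only [Matrix.mul_apply, Fin.sum_univ_two, Matrix.of_apply, Matrix.cons_val', Matrix.cons_val_zero,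
        Matrix.cons_val_one, Matrix.cons_val_fin_one, mul_one]
      rw [← add_assoc, add_self_F2, zero_add]
    · simp only [Matrix.mul_apply, Fin.sum_univ_two, Matrix.of_apply, Matrix.cons_val', Matrix.cons_val_zero,
        Matrix.cons_val_one, Matrix.cons_val_fin_one, mul_one, one_mul]
      exact add_self_F2 _

/-- The first column of `rho0 (κ₀ g)` is `(g, 0)`: true for `X, Y, Z` and stable under
products (`induction_left`). -/
theorem rho0_kap0 (g : FA F2 (Fin 3)) : rho0 (kap0 g) 0 0 = g ∧ rho0 (kap0 g) 1 0 = 0 := by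
  induction g using induction_left with
  | h1 => simp
  | h0 => simp
  | hgen c a ih =>
    rw [map_mul, map_mul, Matrix.mul_apply, Matrix.mul_apply, Fin.sum_univ_two, Fin.sum_univ_two,
      ih.1, ih.2, (a0_rho_gen c).1, (a0_rho_gen c).2]
    simp
  | hadd a b iha ihb =>
    rw [map_add, map_add, Matrix.add_apply, Matrix.add_apply, iha.1, iha.2, ihb.1, ihb.2]
    simp
  | hsmul c a ih =>
    rw [map_smul, map_smul, Matrix.smul_apply, Matrix.smul_apply, ih.1, ih.2]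
    simp

@[simp] theorem sec0_kap0 (g : FA F2 (Fin 3)) : sec0 (kap0 g) = g := (rho0_kap0 g).1

theorem kap0_injective : Function.Injective kap0 :=
  Function.LeftInverse.injective sec0_kap0

@[simp] theorem Qmap_kap0 (g : FA F2 (Fin 3)) : Qmap (kap0 g) = killZ g := by
  simp [Qmap]

theorem kap0_delA (g : FA F2 (Fin 3)) : kap0 (delA g) = ⁅(gX : FA F2 (Fin 2)), kap0 g⁆ := by
  have := (isDer_der _).intertwine (isDer_adm (k := F2) (gX : FA F2 (Fin 2))) kap0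
    (D := delA) (fun c => ?_) g
  · rw [this, adm_apply]
  · rw [adm_apply, delA, der_gen]
    fin_cases c
    · change kap0 (gen 0 * gen 0 + gen 1 + gen 2) = ⁅(gX : FA F2 (Fin 2)), kap0 (gen 0)⁆
      rw [map_add, map_add, map_mul, a0_kap0_X, a0_kap0_Y, a0_kap0_Z, lie_def']
      refine a0_eq_of_two (gY * gX + gX * gX + gY * gY) ?_
      noncomm_ring
    · change kap0 0 = ⁅(gX : FA F2 (Fin 2)), kap0 (gen 1)⁆
      rw [map_zero, a0_kap0_Y, lie_def']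
      noncomm_ring
    · change kap0 ⁅(gen 0 : FA F2 (Fin 3)), gen 2⁆ = ⁅(gX : FA F2 (Fin 2)), kap0 (gen 2)⁆
      rw [map_lie', a0_kap0_X, a0_kap0_Z, lie_def', lie_def']
      noncomm_ring

theorem kap0_delB (g : FA F2 (Fin 3)) : kap0 (delB g) = ⁅(gY : FA F2 (Fin 2)), kap0 g⁆ := by
  have := (isDer_der _).intertwine (isDer_adm (k := F2) (gY : FA F2 (Fin 2))) kap0
    (D := delB) (fun c => ?_) g
  · rw [this, adm_apply]
  · rw [adm_apply, delB, der_gen]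
    fin_cases c
    · change kap0 (gen 0 * gen 0 + gen 1 + gen 2) = ⁅(gY : FA F2 (Fin 2)), kap0 (gen 0)⁆
      rw [map_add, map_add, map_mul, a0_kap0_X, a0_kap0_Y, a0_kap0_Z, lie_def']
      refine a0_eq_of_two (gX * gY + gX * gX + gY * gY) ?_
      noncomm_ring
    · change kap0 ⁅(gen 0 : FA F2 (Fin 3)), gen 1⁆ = ⁅(gY : FA F2 (Fin 2)), kap0 (gen 1)⁆
      rw [map_lie', a0_kap0_X, a0_kap0_Y, lie_def', lie_def']
      noncomm_ring
    · change kap0 0 = ⁅(gY : FA F2 (Fin 2)), kap0 (gen 2)⁆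
      rw [map_zero, a0_kap0_Z, lie_def']
      noncomm_ring

private theorem a0_sq_lie {w : FA F2 (Fin 3)} (hw : w ∈ LieS F2 (Fin 3)) :
    ⁅(gen 0 * gen 0 + gen 1 + gen 2 : FA F2 (Fin 3)), w⁆ ∈ LieD F2 (Fin 3) := by
  have e : ⁅(gen 0 * gen 0 + gen 1 + gen 2 : FA F2 (Fin 3)), w⁆ =
      ⁅(gen 0 : FA F2 (Fin 3)), ⁅(gen 0 : FA F2 (Fin 3)), w⁆⁆ + ⁅(gen 1 : FA F2 (Fin 3)), w⁆ +
        ⁅(gen 2 : FA F2 (Fin 3)), w⁆ := by
    simp only [lie_def']
    refine a0_eq_of_two (gen 0 * w * gen 0 - w * gen 0 * gen 0) ?_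
    noncomm_ring
  rw [e]
  exact add_mem (add_mem (lie_mem_LieD (gen_mem_LieS 0) (lie_mem_LieS (gen_mem_LieS 0) hw))
    (lie_mem_LieD (gen_mem_LieS 1) hw)) (lie_mem_LieD (gen_mem_LieS 2) hw)

private theorem a0_der_mem_LieD {D : Module.End F2 (FA F2 (Fin 3))} (h : IsDer D)
    (hd : ∀ c, ∀ w ∈ LieS F2 (Fin 3), ⁅D (gen c), w⁆ ∈ LieD F2 (Fin 3))
    {g : FA F2 (Fin 3)} (hg : g ∈ LieD F2 (Fin 3)) : D g ∈ LieD F2 (Fin 3) := by
  have lieq : ∀ a b : FA F2 (Fin 3), a ∈ LieS F2 (Fin 3) → b ∈ LieS F2 (Fin 3) →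
      (∀ w ∈ LieS F2 (Fin 3), ⁅D a, w⁆ ∈ LieD F2 (Fin 3)) →
      (∀ w ∈ LieS F2 (Fin 3), ⁅D b, w⁆ ∈ LieD F2 (Fin 3)) → D ⁅a, b⁆ ∈ LieD F2 (Fin 3) := by
    intro a b ha hb ha' hb'
    have e : ⁅a, D b⁆ = -⁅D b, a⁆ := by simp only [lie_def', neg_sub]
    rw [h.map_lie, e]
    exact add_mem (ha' b hb) (neg_mem (hb' a ha))
  have key : ∀ a ∈ LieS F2 (Fin 3), ∀ w ∈ LieS F2 (Fin 3), ⁅D a, w⁆ ∈ LieD F2 (Fin 3) := by
    intro a ha
    refine LieS_induction ha hd (fun x y hx hy hx' hy' w hw => ?_) (fun w _ => ?_)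
      (fun x y _ _ hx hy w hw => ?_) fun c x _ hx w hw => ?_
    · exact lie_mem_LieD (lieq x y hx hy hx' hy').1 hw
    · rw [map_zero, lie_def', zero_mul, mul_zero, sub_zero]
      exact zero_mem _
    · have e : ⁅D (x + y), w⁆ = ⁅D x, w⁆ + ⁅D y, w⁆ := by
        simp only [map_add, lie_def']
        noncomm_ring
      rw [e]
      exact add_mem (hx w hw) (hy w hw)
    · have e : ⁅D (c • x), w⁆ = c • ⁅D x, w⁆ := by
        simp only [map_smul, lie_def', mul_smul_comm, smul_mul_assoc, smul_sub]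
      rw [e]
      exact Submodule.smul_mem _ c (hx w hw)
  refine LieD_induction hg (fun a b ha hb => lieq a b ha hb (key a ha) (key b hb)) ?_
    (fun a b ha hb => ?_) fun c a ha => ?_
  · rw [map_zero]; exact zero_mem _
  · rw [map_add]; exact add_mem ha hb
  · rw [map_smul]; exact Submodule.smul_mem _ c ha

/-- `δ` maps Lie polynomials to `Lie + F·X²`, and `⁅X², w⁆ = ⁅X, ⁅X, w⁆⁆`. -/
theorem delA_mem_LieD {g : FA F2 (Fin 3)} (hg : g ∈ LieD F2 (Fin 3)) :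
    delA g ∈ LieD F2 (Fin 3) := by
  refine a0_der_mem_LieD (isDer_der _) (fun c w hw => ?_) hg
  rw [der_gen]
  fin_cases c
  · exact a0_sq_lie hw
  · change ⁅(0 : FA F2 (Fin 3)), w⁆ ∈ _
    rw [lie_def', zero_mul, mul_zero, sub_zero]
    exact zero_mem _
  · exact lie_mem_LieD (lie_mem_LieS (gen_mem_LieS 0) (gen_mem_LieS 2)) hw

theorem delB_mem_LieD {g : FA F2 (Fin 3)} (hg : g ∈ LieD F2 (Fin 3)) :
    delB g ∈ LieD F2 (Fin 3) := by
  refine a0_der_mem_LieD (isDer_der _) (fun c w hw => ?_) hg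
  rw [der_gen]
  fin_cases c
  · exact a0_sq_lie hw
  · exact lie_mem_LieD (lie_mem_LieS (gen_mem_LieS 0) (gen_mem_LieS 1)) hw
  · change ⁅(0 : FA F2 (Fin 3)), w⁆ ∈ _
    rw [lie_def', zero_mul, mul_zero, sub_zero]
    exact zero_mem _

/-- `ev2_mem_of_stable3` with `W = κ₀(LieD)`; `⁅a,⁅a,b⁆⁆ = κ₀ ⁅Y,X⁆`, `⁅b,⁅a,b⁆⁆ = κ₀ ⁅Z,X⁆`. -/
theorem exists_S {ψ : FA F2 (Fin 2)} (h : ψ ∈ LieS F2 (Fin 2)) (h3 : ψ ∈ fil (one (Fin 2)) 3) :
    ∃ S ∈ LieD F2 (Fin 3), kap0 S = ψ := by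
  have := ev2_mem_of_stable3 ((LieD F2 (Fin 3)).map kap0.toLinearMap)
    (p := (gX : FA F2 (Fin 2))) (q := gY) ?_ ?_ ?_ ?_ h h3
  · rw [ev2_self] at this
    obtain ⟨S, hS, e⟩ := this
    exact ⟨S, hS, e⟩
  · rintro _ ⟨g, hg, rfl⟩
    exact ⟨delA g, delA_mem_LieD hg, kap0_delA g⟩
  · rintro _ ⟨g, hg, rfl⟩
    exact ⟨delB g, delB_mem_LieD hg, kap0_delB g⟩
  · refine ⟨⁅(gen 1 : FA F2 (Fin 3)), gen 0⁆, lie_mem_LieD (gen_mem_LieS 1) (gen_mem_LieS 0), ?_⟩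
    change kap0 ⁅(gen 1 : FA F2 (Fin 3)), gen 0⁆ = _
    rw [map_lie', a0_kap0_X, a0_kap0_Y]
    simp only [lie_def']
    refine a0_eq_of_two (gX * gY * gX - gY * gX * gX) ?_
    noncomm_ring
  · refine ⟨⁅(gen 2 : FA F2 (Fin 3)), gen 0⁆, lie_mem_LieD (gen_mem_LieS 2) (gen_mem_LieS 0), ?_⟩
    change kap0 ⁅(gen 2 : FA F2 (Fin 3)), gen 0⁆ = _
    rw [map_lie', a0_kap0_X, a0_kap0_Z]
    simp only [lie_def']
    refine a0_eq_of_two (gY * gY * gX - gY * gX * gY) ?_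
    noncomm_ring

theorem mem_hom_of_kap0 {S : FA F2 (Fin 3)} {n : ℕ} (h : kap0 S ∈ hom (one (Fin 2)) n) :
    S ∈ hom wt3 n := by
  have hv : ∀ c, (![gX + gY, gX * gX, gY * gY] : Fin 3 → FA F2 (Fin 2)) c ∈
      hom (one (Fin 2)) (wt3 c) := fun c => by
    fin_cases c
    · exact add_mem (gen_mem_hom _ 0) (gen_mem_hom _ 1)
    · exact mul_mem_hom (gen_mem_hom (one (Fin 2)) 0) (gen_mem_hom (one (Fin 2)) 0)
    · exact mul_mem_hom (gen_mem_hom (one (Fin 2)) 1) (gen_mem_hom (one (Fin 2)) 1)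
  have e : proj (one (Fin 2)) n (kap0 S) = kap0 (proj wt3 n S) := proj_ev hv n S
  rw [proj_of_hom h] at e
  rw [kap0_injective e]
  exact proj_mem_hom _ _ _

private theorem a0_ev2_kap0 {R : Type} [Ring R] [Algebra F2 R] (p q : R) (S : FA F2 (Fin 3)) :
    ev2 p q (kap0 S) = ev3 (p + q) (p * p) (q * q) S := by
  have hx : ev2 (k := F2) p q gX = p := ev_gen _ _
  have hy : ev2 (k := F2) p q gY = q := ev_gen _ _
  rw [kap0, map_ev3, map_add, map_mul, map_mul, hx, hy]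

theorem tau3_of_antiD {S : FA F2 (Fin 3)} (h : antiD (kap0 S) = 0) : tau3 S = S := by
  apply kap0_injective
  have e : kap0 (tau3 S) = ev2 gY gX (kap0 S) := by
    rw [a0_ev2_kap0, tau3, map_ev3, a0_kap0_X, a0_kap0_Y, a0_kap0_Z, add_comm]
  rw [antiD, ← e] at h
  rw [← neg_eq_F2 (kap0 S)]
  exact eq_neg_of_add_eq_zero_right h

theorem ev2_kap0 {R : Type} [Ring R] [Algebra F2 R] (p q : R) (S : FA F2 (Fin 3)) :
    ev2 p q (kap0 S) = ev3 (p + q) (p * p) (q * q) S := by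
  exact a0_ev2_kap0 p q S

theorem killZ_mem_LieD {S : FA F2 (Fin 3)} (h : S ∈ LieD F2 (Fin 3)) :
    killZ S ∈ LieD F2 (Fin 2) := by
  refine ev_mem_LieD (fun c => ?_) h
  fin_cases c
  · exact gen_mem_LieS 0
  · exact gen_mem_LieS 1
  · exact zero_mem _

theorem killZ_mem_hom {S : FA F2 (Fin 3)} {n : ℕ} (h : S ∈ hom wt3 n) : killZ S ∈ hom wt2 n := by
  refine ev_mem_hom (fun c => ?_) h
  fin_cases c
  · exact gen_mem_hom wt2 0
  · exact gen_mem_hom wt2 1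
  · exact zero_mem _

theorem proj_killZ (d : ℕ) (S : FA F2 (Fin 3)) :
    proj dep d (killZ S) = killZ (proj dep3 d S) := by
  refine proj_ev (fun c => ?_) d S
  fin_cases c
  · exact gen_mem_hom dep 0
  · exact gen_mem_hom dep 1
  · exact zero_mem _

theorem eOdd_eq (j : ℕ) : eOdd j = sL F2 (2 * j + 1) := rfl

theorem eOdd_mem_hom_dep (j : ℕ) : eOdd j ∈ hom dep 1 := by
  have := sL_mem_hom (k := F2) dep (2 * j + 1)
  rwa [show (2 * j + 1) * dep 0 + dep 1 = 1 from by simp [dep]] at this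

theorem eOdd_mem_hom_wt2 (j : ℕ) : eOdd j ∈ hom wt2 (wt j) := by
  have := sL_mem_hom (k := F2) wt2 (2 * j + 1)
  rwa [show (2 * j + 1) * wt2 0 + wt2 1 = wt j from by simp [wt2, wt]] at this

theorem Qmap_mem_fil_one {ψ : FA F2 (Fin 2)} (h : ψ ∈ LieS F2 (Fin 2))
    (h3 : ψ ∈ fil (one (Fin 2)) 3) : Qmap ψ ∈ fil dep 1 := by
  obtain ⟨S, hS, rfl⟩ := exists_S h h3
  rw [Qmap_kap0]
  exact mem_fil_dep_one (killZ_mem_LieD hS)

private theorem a0_wdeg_wt2 (w : FreeMonoid (Fin 2)) :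
    wdeg wt2 w = wdeg (one (Fin 2)) w + wdeg dep w := by
  induction w using FreeMonoid.inductionOn' with
  | one => simp
  | of_mul c w ih =>
    rw [wdeg_mul, wdeg_mul, wdeg_mul, wdeg_of, wdeg_of, wdeg_of, ih]
    have : wt2 c = one (Fin 2) c + dep c := by fin_cases c <;> rfl
    omega

/-- The depth-one part of `Q ψ` is Lie of `wt2`-weight `2j+3`, i.e. of length `2j+2`
(`exists_depth_one`). -/
theorem exists_lead {j : ℕ} {ψ : FA F2 (Fin 2)} (h : ψ ∈ LieW F2 (one (Fin 2)) (wt j)) :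
    ∃ c : F2, proj dep 1 (Qmap ψ) = c • eOdd j := by
  obtain ⟨S, hS, rfl⟩ := exists_S h.1 (mem_fil_of_hom h.2 (by simp [wt]))
  rw [Qmap_kap0]
  have h1 : proj dep 1 (killZ S) ∈ hom dep 1 := proj_mem_hom _ _ _
  have h2 : proj dep 1 (killZ S) ∈ hom wt2 (wt j) :=
    proj_mem_hom_of 1 (killZ_mem_hom (mem_hom_of_kap0 h.2))
  refine exists_depth_one (proj_mem_LieS _ _ (killZ_mem_LieD hS).1) h1 fun w hw => ?_
  by_cases hd : wdeg dep w = 1
  · refine h2 w fun h' => hw ?_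
    have h3 : wdeg wt2 w = 2 * j + 3 := h'
    have h4 := a0_wdeg_wt2 w
    change wdeg (one (Fin 2)) w = 2 * j + 1 + 1
    omega
  · exact h1 w hd

end Crest.Agent.R010
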