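import Crest.Agent.R010.A0

/-!
# Row 10, Theorem A, step 1: the pentagon in `B' = F⟨X,Y,Z,s,t⟩`

Letters of `B5`: `0 = X = a+b`, `1 = Y = a²`, `2 = Z = b²`, `3 = s = ⁅a,t⁆`, `4 = t`.
-/

set_option autoImplicit false

noncomputable section

namespace Crest.Agent.R010

/-- The even subalgebra of `M`, abstractly. -/
abbrev B5 : Type := FA F2 (Fin 5)

abbrev bX : B5 := gen 0
abbrev bY : B5 := gen 1
abbrev bZ : B5 := gen 2
abbrev bs : B5 := gen 3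
abbrev bt : B5 := gen 4
/-- `s'' = ⁅b,t⁆ = s + ⁅X,t⁆`. -/
def bs2 : B5 := bs + ⁅bX, bt⁆

/-- The embedding into `M = F⟨a,b,t⟩`. -/
def kap1 : B5 →ₐ[F2] FA F2 (Fin 3) :=
  ev ![gen 0 + gen 1, gen 0 * gen 0, gen 1 * gen 1, ⁅(gen 0 : FA F2 (Fin 3)), gen 2⁆, gen 2]

/-- `opA` on `B'`. -/
def dA : Module.End F2 B5 := der ![bs, ⁅bY, bt⁆, 0, ⁅bs + bY, bt⁆, bs]
/-- `opB` on `B'`. -/
def dB : Module.End F2 B5 := der ![bs2, 0, ⁅bZ, bt⁆, ⁅bZ, bt⁆ + ⁅bX, bs2⁆, bs2]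

/-- Noncommutative polynomial identities in characteristic two. -/
macro "a1_nc" : tactic => `(tactic| (
  simp only [lie_def', mul_add, add_mul, mul_sub, sub_mul, mul_assoc, mul_zero, zero_mul, mul_one,
    one_mul]
  refine (one_smul F2 _).symm.trans ?_
  match_scalars <;> decide))

theorem a1_kX : kap1 bX = gen 0 + gen 1 := ev_gen _ _
theorem a1_kY : kap1 bY = gen 0 * gen 0 := ev_gen _ _
theorem a1_kZ : kap1 bZ = gen 1 * gen 1 := ev_gen _ _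
theorem a1_ks : kap1 bs = ⁅(gen 0 : FA F2 (Fin 3)), gen 2⁆ := ev_gen _ _
theorem a1_kt : kap1 bt = gen 2 := ev_gen _ _
theorem a1_ks2 : kap1 bs2 = ⁅(gen 1 : FA F2 (Fin 3)), gen 2⁆ := by
  rw [bs2, map_add, map_lie', a1_ks, a1_kX, a1_kt]
  a1_nc

theorem a1_AX : dA bX = bs := der_gen _ _
theorem a1_AY : dA bY = ⁅bY, bt⁆ := der_gen _ _
theorem a1_AZ : dA bZ = 0 := der_gen _ _
theorem a1_As : dA bs = ⁅bs + bY, bt⁆ := der_gen _ _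
theorem a1_At : dA bt = bs := der_gen _ _
theorem a1_BX : dB bX = bs2 := der_gen _ _
theorem a1_BY : dB bY = 0 := der_gen _ _
theorem a1_BZ : dB bZ = ⁅bZ, bt⁆ := der_gen _ _
theorem a1_Bs : dB bs = ⁅bZ, bt⁆ + ⁅bX, bs2⁆ := der_gen _ _
theorem a1_Bt : dB bt = bs2 := der_gen _ _

theorem a1_opA0 : opA F2 (gen 0) = ⁅(gen 0 : FA F2 (Fin 3)), gen 2⁆ := der_gen _ _
theorem a1_opA1 : opA F2 (gen 1) = 0 := der_gen _ _
theorem a1_opA2 : opA F2 (gen 2) = ⁅(gen 2 : FA F2 (Fin 3)), gen 0⁆ := der_gen _ _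
theorem a1_opB0 : opB F2 (gen 0) = 0 := der_gen _ _
theorem a1_opB1 : opB F2 (gen 1) = ⁅(gen 1 : FA F2 (Fin 3)), gen 2⁆ := der_gen _ _
theorem a1_opB2 : opB F2 (gen 2) = ⁅(gen 2 : FA F2 (Fin 3)), gen 1⁆ := der_gen _ _
theorem a1_derA : IsDer (opA F2) := isDer_der _
theorem a1_derB : IsDer (opB F2) := isDer_der _

theorem a1_forall5 {p : Fin 5 → Prop} (h0 : p 0) (h1 : p 1) (h2 : p 2) (h3 : p 3) (h4 : p 4)
    (c : Fin 5) : p c := by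
  fin_cases c <;> assumption

theorem a1_forall3 {p : Fin 3 → Prop} (h0 : p 0) (h1 : p 1) (h2 : p 2) (c : Fin 3) : p c := by
  fin_cases c <;> assumption

theorem a1_forall2 {p : Fin 2 → Prop} (h0 : p 0) (h1 : p 1) (c : Fin 2) : p c := by
  fin_cases c <;> assumption

/-- The `2 × 2` matrix representation. -/
def a1_rho : FA F2 (Fin 3) →ₐ[F2] Matrix (Fin 2) (Fin 2) B5 :=
  ev3 !![0, bY; 1, 0] !![bX, bX * bX + bZ; 1, bX] !![bt, bs; 0, bt]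

theorem a1_rho0 : a1_rho (gen 0) = !![0, bY; 1, 0] := ev_gen _ _
theorem a1_rho1 : a1_rho (gen 1) = !![bX, bX * bX + bZ; 1, bX] := ev_gen _ _
theorem a1_rho2 : a1_rho (gen 2) = !![bt, bs; 0, bt] := ev_gen _ _

theorem a1_rho_gen (c : Fin 5) :
    a1_rho (kap1 (gen c)) 0 0 = gen c ∧ a1_rho (kap1 (gen c)) 1 0 = 0 := by
  refine a1_forall5 (p := fun c => a1_rho (kap1 (gen c)) 0 0 = gen c ∧
    a1_rho (kap1 (gen c)) 1 0 = 0) ?_ ?_ ?_ ?_ ?_ c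
  · rw [a1_kX, map_add, a1_rho0, a1_rho1]
    simp [add_self_F2]
  · rw [a1_kY, map_mul, a1_rho0]
    simp
  · rw [a1_kZ, map_mul, a1_rho1]
    simp [add_self_F2, ← add_assoc]
  · rw [a1_ks, map_lie', a1_rho0, a1_rho2, lie_def']
    simp [neg_eq_F2]
  · rw [a1_kt, a1_rho2]
    simp

theorem a1_rho_kap1 (g : B5) : a1_rho (kap1 g) 0 0 = g ∧ a1_rho (kap1 g) 1 0 = 0 := by
  induction g using induction_left with
  | h1 => simp
  | h0 => simp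
  | hgen c a ih =>
    rw [map_mul, map_mul, Matrix.mul_apply, Matrix.mul_apply, Fin.sum_univ_two, Fin.sum_univ_two,
      ih.1, ih.2, (a1_rho_gen c).1, (a1_rho_gen c).2]
    simp
  | hadd a b ha hb => simp [ha.1, ha.2, hb.1, hb.2]
  | hsmul c a ha => simp [ha.1, ha.2]

/-- Use the `2 × 2` matrix representation over `B5` (columns = images of the basis `1, a`):
`a ↦ !![0, Y; 1, 0]`, `b ↦ !![X, X² + Z; 1, X]`, `t ↦ !![t, s; 0, t]`; the first column of the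
image of `kap1 g` is `(g, 0)`. -/
theorem kap1_injective : Function.Injective kap1 := by
  intro g g' h
  rw [← (a1_rho_kap1 g).1, h, (a1_rho_kap1 g').1]

theorem kap1_dA (g : B5) : kap1 (dA g) = opA F2 (kap1 g) := by
  refine IsDer.intertwine (D := dA) (isDer_der _) a1_derA kap1
    (a1_forall5 (p := fun c => kap1 (dA (gen c)) = opA F2 (kap1 (gen c))) ?_ ?_ ?_ ?_ ?_) g
  · rw [a1_AX, a1_ks, a1_kX, map_add, a1_opA0, a1_opA1, add_zero]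
  · rw [a1_AY, map_lie', a1_kY, a1_kt, a1_derA, a1_opA0]
    a1_nc
  · rw [a1_AZ, map_zero, a1_kZ, a1_derA, a1_opA1]
    simp
  · rw [a1_As, map_lie', map_add, a1_kY, a1_kt, a1_ks, a1_derA.map_lie, a1_opA0, a1_opA2]
    a1_nc
  · rw [a1_At, a1_ks, a1_kt, a1_opA2]
    a1_nc
theorem kap1_dB (g : B5) : kap1 (dB g) = opB F2 (kap1 g) := by
  refine IsDer.intertwine (D := dB) (isDer_der _) a1_derB kap1
    (a1_forall5 (p := fun c => kap1 (dB (gen c)) = opB F2 (kap1 (gen c))) ?_ ?_ ?_ ?_ ?_) g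
  · rw [a1_BX, a1_ks2, a1_kX, map_add, a1_opB0, a1_opB1, zero_add]
  · rw [a1_BY, map_zero, a1_kY, a1_derB, a1_opB0]
    simp
  · rw [a1_BZ, map_lie', a1_kZ, a1_kt, a1_derB, a1_opB1]
    a1_nc
  · rw [a1_Bs, map_add, map_lie', map_lie', a1_kZ, a1_kt, a1_kX, a1_ks2, a1_ks, a1_derB.map_lie,
      a1_opB0, a1_opB2]
    a1_nc
  · rw [a1_Bt, a1_ks2, a1_kt, a1_opB2]
    a1_nc

theorem isDer_dA : IsDer dA := isDer_der _
theorem isDer_dB : IsDer dB := isDer_der _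
theorem isDer_dA2 : IsDer (dA * dA) := isDer_dA.sq add_self_F2
theorem isDer_dB2 : IsDer (dB * dB) := isDer_dB.sq add_self_F2

/-- Values of `a₁ + b₁`, `a₁²`, `b₁²` on the letters. -/
theorem dAB_gen : (dA + dB) bX = ⁅bX, bt⁆ ∧ (dA + dB) bY = ⁅bY, bt⁆ ∧ (dA + dB) bZ = ⁅bZ, bt⁆ ∧
    (dA + dB) bs = ⁅bs + bY + bZ, bt⁆ + ⁅bX, bs2⁆ ∧ (dA + dB) bt = ⁅bX, bt⁆ := by
  simp only [LinearMap.add_apply, a1_AX, a1_AY, a1_AZ, a1_As, a1_At, a1_BX, a1_BY, a1_BZ, a1_Bs,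
    a1_Bt]
  refine ⟨?_, by simp, by simp, ?_, ?_⟩
  · rw [bs2]; a1_nc
  · a1_nc
  · rw [bs2]; a1_nc
theorem dA2_gen : (dA * dA) bX = ⁅bs + bY, bt⁆ ∧ (dA * dA) bY = ⁅⁅bY, bt⁆, bt⁆ + ⁅bY, bs⁆ ∧
    (dA * dA) bZ = 0 ∧ (dA * dA) bs = ⁅⁅bs, bt⁆, bt⁆ + ⁅bY, bs⁆ ∧
    (dA * dA) bt = ⁅bs + bY, bt⁆ := by
  simp only [Module.End.mul_apply, a1_AX, a1_AY, a1_AZ, a1_As, a1_At, isDer_dA.map_lie, map_add,
    map_zero]
  refine ⟨trivial, trivial, trivial, ?_, trivial⟩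
  a1_nc
theorem a1_Bs2 : dB bs2 = ⁅bs2 + bZ, bt⁆ := by
  conv_lhs => rw [bs2, map_add, isDer_dB.map_lie, a1_Bs, a1_BX, a1_Bt]
  a1_nc
theorem dB2_gen : (dB * dB) bX = ⁅bs2 + bZ, bt⁆ ∧ (dB * dB) bY = 0 ∧
    (dB * dB) bZ = ⁅⁅bZ, bt⁆, bt⁆ + ⁅bZ, bs2⁆ ∧
    (dB * dB) bs = ⁅⁅bs2, bt⁆, bt⁆ + ⁅bZ, bs2⁆ + ⁅⁅bs2 + bZ, bt⁆, bt⁆ + ⁅bX, ⁅bs2 + bZ, bt⁆⁆ ∧
    (dB * dB) bt = ⁅bs2 + bZ, bt⁆ := by
  simp only [Module.End.mul_apply, a1_BX, a1_BY, a1_BZ, a1_Bs, a1_Bt, a1_Bs2, isDer_dB.map_lie,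
    map_add, map_zero]
  refine ⟨trivial, trivial, trivial, ?_, trivial⟩
  a1_nc

/-- `ψ(t02 + t12, t23) · 1`. -/
def termA (S : FA F2 (Fin 3)) : B5 := ev3 (bX + bt) (bY + bs + bt * bt) bZ S
/-- `ψ(t01, t12 + t13) · 1`. -/
def termB (S : FA F2 (Fin 3)) : B5 :=
  (ev3 (dA + dB + Lm bt) (dA * dA) (dB * dB + Lm (bs2 + bt * bt)) S : Module.End F2 B5) 1
/-- `ψ(t01 + t02, t13 + t23) · 1`. -/
def termC (S : FA F2 (Fin 3)) : B5 :=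
  (ev3 (dA + dB + Lm bX) (dA * dA + Lm (bY + bs)) (dB * dB + Lm (bZ + bs2)) S :
    Module.End F2 B5) 1
/-- `ψ(t01, t12) · 1`. -/
def termN (S : FA F2 (Fin 3)) : B5 :=
  (ev3 (dA + Lm bt) (dA * dA) (Lm (bt * bt)) S : Module.End F2 B5) 1

/-- The pentagon identity pulled back to `B'`. -/
structure Pull (n : ℕ) (S : FA F2 (Fin 3)) : Prop where
  ex : ∃ T₁ ∈ LieD F2 (Fin 3), ∃ T₂ ∈ LieD F2 (Fin 3), T₂ ∈ hom wt3 n ∧
    termN S = ev3 bt bs bY T₂ ∧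
    termA S + termB S + termC S + ev3 bt bs2 bZ T₁ + ev3 bt bs bY T₂ = 0

/-- `ψ(t, b)` lies in `kap1 (LieD(t, s'', Z))`: `ev2_mem_of_stable3`; `ad b` acts on `t, s'', Z` by
the derivation `t ↦ s''`, `s'' ↦ ⁅Z,t⁆`, `Z ↦ 0`; `⁅t,b⁆ = s''`, `⁅b,⁅t,b⁆⁆ = ⁅Z,t⁆`. -/
theorem exists_T1 {ψ : FA F2 (Fin 2)} (h : ψ ∈ LieS F2 (Fin 2)) (h3 : ψ ∈ fil (one (Fin 2)) 3) :
    ∃ T₁ ∈ LieD F2 (Fin 3), ev2 (gen 2 : FA F2 (Fin 3)) (gen 1) ψ = kap1 (ev3 bt bs2 bZ T₁) := by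
  set φ : FA F2 (Fin 3) →ₐ[F2] FA F2 (Fin 3) := kap1.comp (ev3 bt bs2 bZ) with hφ
  have e0 : φ (gen 0) = gen 2 := by
    rw [hφ, AlgHom.comp_apply, ev_gen]; exact a1_kt
  have e1 : φ (gen 1) = ⁅(gen 1 : FA F2 (Fin 3)), gen 2⁆ := by
    rw [hφ, AlgHom.comp_apply, ev_gen]; exact a1_ks2
  have e2 : φ (gen 2) = gen 1 * gen 1 := by
    rw [hφ, AlgHom.comp_apply, ev_gen]; exact a1_kZ
  set D : Module.End F2 (FA F2 (Fin 3)) :=
    der ![gen 1, ⁅(gen 2 : FA F2 (Fin 3)), gen 0⁆, 0] with hD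
  have d0 : D (gen 0) = gen 1 := der_gen _ _
  have d1 : D (gen 1) = ⁅(gen 2 : FA F2 (Fin 3)), gen 0⁆ := der_gen _ _
  have d2 : D (gen 2) = 0 := der_gen _ _
  have hint : ∀ f, φ (D f) = (adm (gen 1) : Module.End F2 (FA F2 (Fin 3))) (φ f) := by
    refine IsDer.intertwine (isDer_der _) (isDer_adm _) φ (a1_forall3 (p := fun c =>
      φ (D (gen c)) = (adm (gen 1) : Module.End F2 (FA F2 (Fin 3))) (φ (gen c))) ?_ ?_ ?_)
    · rw [d0, e0, e1, adm_apply]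
    · rw [d1, map_lie', e0, e1, e2, adm_apply]
      a1_nc
    · rw [d2, map_zero, e2, adm_apply]
      a1_nc
  have key := ev2_mem_of_stable3 ((LieD F2 (Fin 3)).map φ.toLinearMap)
    (p := (gen 2 : FA F2 (Fin 3))) (q := gen 1) ?_ ?_ ?_ ?_ h h3
  · obtain ⟨T, hT, hT'⟩ := key
    exact ⟨T, hT, hT'.symm⟩
  · rintro _ ⟨T, hT, rfl⟩
    refine ⟨⁅(gen 0 : FA F2 (Fin 3)), T⁆, lie_mem_LieD (gen_mem_LieS _) hT.1, ?_⟩
    rw [AlgHom.toLinearMap_apply, AlgHom.toLinearMap_apply, map_lie', e0]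
  · rintro _ ⟨T, hT, rfl⟩
    refine ⟨D T, IsDer.mem_LieD (isDer_der _) (a1_forall3 (p := fun c =>
      D (gen c) ∈ LieS F2 (Fin 3)) ?_ ?_ ?_) hT, ?_⟩
    · rw [d0]; exact gen_mem_LieS _
    · rw [d1]; exact lie_mem_LieS (gen_mem_LieS _) (gen_mem_LieS _)
    · rw [d2]; exact zero_mem _
    · rw [AlgHom.toLinearMap_apply, AlgHom.toLinearMap_apply, hint, adm_apply]
  · refine ⟨⁅(gen 0 : FA F2 (Fin 3)), gen 1⁆, lie_mem_LieD (gen_mem_LieS _) (gen_mem_LieS _), ?_⟩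
    rw [AlgHom.toLinearMap_apply, map_lie', e0, e1]
    a1_nc
  · refine ⟨⁅(gen 2 : FA F2 (Fin 3)), gen 0⁆, lie_mem_LieD (gen_mem_LieS _) (gen_mem_LieS _), ?_⟩
    rw [AlgHom.toLinearMap_apply, map_lie', e0, e2]
    a1_nc

/-- Weights on `B5`. -/
def a1_wt : Fin 5 → ℕ := ![1, 2, 2, 2, 1]

theorem a1_wY : bY ∈ hom a1_wt 2 := gen_mem_hom a1_wt 1
theorem a1_ws : bs ∈ hom a1_wt 2 := gen_mem_hom a1_wt 3
theorem a1_wt' : bt ∈ hom a1_wt 1 := gen_mem_hom a1_wt 4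

theorem a1_dA_hom {j : ℕ} {x : B5} (hx : x ∈ hom a1_wt j) : dA x ∈ hom a1_wt (j + 1) := by
  refine isDer_dA.mem_hom (a1_forall5 (p := fun c => dA (gen c) ∈ hom a1_wt (a1_wt c + 1))
    ?_ ?_ ?_ ?_ ?_) hx
  · rw [a1_AX]; exact a1_ws
  · rw [a1_AY]; exact lie_mem_hom a1_wY a1_wt'
  · rw [a1_AZ]; exact zero_mem _
  · rw [a1_As]; exact lie_mem_hom (add_mem a1_ws a1_wY) a1_wt'
  · rw [a1_At]; exact a1_ws

/-- `ψ(dA, L_t) = L_w` with `w ∈ LieD(t, s, Y)`: `ev2_mem_of_stable3` in `End B5`;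
`⁅dA, L_t⁆ = L_s`, and `dA` acts on `t, s, Y` by `t ↦ s`, `s ↦ ⁅s+Y,t⁆`, `Y ↦ ⁅Y,t⁆`.
Homogeneity: `B5` is graded by `![1,2,2,2,1]`, `dA` and `L_t` have degree one; replace `T₂` by
`proj wt3 n T₂`. -/
theorem exists_T2 {n : ℕ} (hn : 3 ≤ n) {ψ : FA F2 (Fin 2)} (h : ψ ∈ LieW F2 (one (Fin 2)) n) :
    ∃ T₂ ∈ LieD F2 (Fin 3), T₂ ∈ hom wt3 n ∧
      (ev2 dA (Lm bt) ψ : Module.End F2 B5) 1 = ev3 bt bs bY T₂ := by
  set φ : FA F2 (Fin 3) →ₐ[F2] Module.End F2 B5 :=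
    (Algebra.lmul F2 B5).comp (ev3 bt bs bY) with hφ
  have e : ∀ f, φ f = Lm (ev3 bt bs bY f) := fun f => rfl
  have v0 : ev3 bt bs bY (gen 0 : FA F2 (Fin 3)) = bt := ev_gen _ _
  have v1 : ev3 bt bs bY (gen 1 : FA F2 (Fin 3)) = bs := ev_gen _ _
  have v2 : ev3 bt bs bY (gen 2 : FA F2 (Fin 3)) = bY := ev_gen _ _
  set D : Module.End F2 (FA F2 (Fin 3)) := der ![gen 1, ⁅(gen 1 + gen 2 : FA F2 (Fin 3)), gen 0⁆,
    ⁅(gen 2 : FA F2 (Fin 3)), gen 0⁆] with hD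
  have d0 : D (gen 0) = gen 1 := der_gen _ _
  have d1 : D (gen 1) = ⁅(gen 1 + gen 2 : FA F2 (Fin 3)), gen 0⁆ := der_gen _ _
  have d2 : D (gen 2) = ⁅(gen 2 : FA F2 (Fin 3)), gen 0⁆ := der_gen _ _
  have hint : ∀ f, ⁅dA, φ f⁆ = φ (D f) := by
    refine IsDer.lie_rep (isDer_der _) φ dA (a1_forall3 (p := fun c =>
      ⁅dA, φ (gen c)⁆ = φ (D (gen c))) ?_ ?_ ?_)
    · rw [d0, e, e, isDer_dA.lie_Lm, v0, v1, a1_At]
    · rw [d1, e, e, isDer_dA.lie_Lm, map_lie', map_add, v0, v1, v2, a1_As]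
    · rw [d2, e, e, isDer_dA.lie_Lm, map_lie', v0, v2, a1_AY]
  have e0 : φ (gen 0) = Lm bt := by rw [e, v0]
  have hL1 : ⁅(gen 1 + gen 2 : FA F2 (Fin 3)), gen 0⁆ ∈ LieD F2 (Fin 3) :=
    lie_mem_LieD (add_mem (gen_mem_LieS _) (gen_mem_LieS _)) (gen_mem_LieS _)
  have key := ev2_mem_of_stable3 ((LieD F2 (Fin 3)).map φ.toLinearMap)
    (p := dA) (q := Lm bt) ?_ ?_ ?_ ?_ h.1 (mem_fil_of_hom h.2 hn)
  · obtain ⟨T, hT, hT'⟩ := key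
    have h1 : (ev2 dA (Lm bt) ψ : Module.End F2 B5) 1 = ev3 bt bs bY T := by
      rw [← hT', AlgHom.toLinearMap_apply, e, LinearMap.mulLeft_apply, mul_one]
    have h2 : (ev2 dA (Lm bt) ψ : Module.End F2 B5) 1 ∈ hom a1_wt (0 + n) := by
      refine ev_op_mem_graded (fun j => hom a1_wt j) (one (Fin 2)) _ (a1_forall2 (p := fun c =>
        ∀ j, ∀ x ∈ hom a1_wt j, (![dA, Lm bt] c : Module.End F2 B5) x ∈ hom a1_wt (j + 1))
        (fun j x hx => a1_dA_hom hx) fun j x hx => ?_) h.2 (one_mem_hom _)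
      rw [add_comm]
      exact mul_mem_hom a1_wt' hx
    rw [zero_add] at h2
    refine ⟨proj wt3 n T, proj_mem_LieD _ _ hT, proj_mem_hom _ _ _, ?_⟩
    rw [← proj_ev (δ' := a1_wt) (a1_forall3 (p := fun c => ![bt, bs, bY] c ∈ hom a1_wt (wt3 c))
      a1_wt' a1_ws a1_wY), ← h1, proj_of_hom h2]
  · rintro _ ⟨T, hT, rfl⟩
    refine ⟨D T, IsDer.mem_LieD (isDer_der _) (a1_forall3 (p := fun c =>
      D (gen c) ∈ LieS F2 (Fin 3)) ?_ ?_ ?_) hT, (hint T).symm⟩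
    · rw [d0]; exact gen_mem_LieS _
    · rw [d1]; exact hL1.1
    · rw [d2]; exact lie_mem_LieS (gen_mem_LieS _) (gen_mem_LieS _)
  · rintro _ ⟨T, hT, rfl⟩
    refine ⟨⁅(gen 0 : FA F2 (Fin 3)), T⁆, lie_mem_LieD (gen_mem_LieS _) hT.1, ?_⟩
    rw [AlgHom.toLinearMap_apply, AlgHom.toLinearMap_apply, map_lie', e0]
  · refine ⟨_, hL1, ?_⟩
    rw [AlgHom.toLinearMap_apply, ← e0, hint, hint, d0, d1]
  · refine ⟨⁅(gen 0 : FA F2 (Fin 3)), gen 1⁆, lie_mem_LieD (gen_mem_LieS _) (gen_mem_LieS _), ?_⟩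
    rw [AlgHom.toLinearMap_apply, map_lie', ← e0, hint, d0]

/-- `kap1` intertwines the two operators. -/
def a1_I (p : Module.End F2 B5) (p' : Module.End F2 (FA F2 (Fin 3))) : Prop :=
  ∀ x, kap1 (p x) = p' (kap1 x)

theorem a1_I.add {p q : Module.End F2 B5} {p' q' : Module.End F2 (FA F2 (Fin 3))}
    (h : a1_I p p') (h' : a1_I q q') : a1_I (p + q) (p' + q') := fun x => by
  rw [LinearMap.add_apply, LinearMap.add_apply, map_add, h, h']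

theorem a1_I.mul {p q : Module.End F2 B5} {p' q' : Module.End F2 (FA F2 (Fin 3))}
    (h : a1_I p p') (h' : a1_I q q') : a1_I (p * q) (p' * q') := fun x => by
  rw [Module.End.mul_apply, Module.End.mul_apply, h, h']

theorem a1_IL {a : B5} {a' : FA F2 (Fin 3)} (h : kap1 a = a') : a1_I (Lm a) (Lm a') := fun x => by
  rw [LinearMap.mulLeft_apply, LinearMap.mulLeft_apply, map_mul, h]

theorem a1_IA : a1_I dA (opA F2) := kap1_dA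
theorem a1_IB : a1_I dB (opB F2) := kap1_dB

theorem a1_I_ev3 {p q r : Module.End F2 B5} {p' q' r' : Module.End F2 (FA F2 (Fin 3))}
    (hp : a1_I p p') (hq : a1_I q q') (hr : a1_I r r') (S : FA F2 (Fin 3)) :
    kap1 ((ev3 p q r S : Module.End F2 B5) 1) =
      (ev3 p' q' r' S : Module.End F2 (FA F2 (Fin 3))) 1 := by
  have := ev_intertwine kap1.toLinearMap ![p, q, r] ![p', q', r'] (a1_forall3 (p := fun c =>
    ∀ x, kap1.toLinearMap (![p, q, r] c x) = ![p', q', r'] c (kap1.toLinearMap x)) hp hq hr) S 1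
  rwa [AlgHom.toLinearMap_apply, AlgHom.toLinearMap_apply, map_one kap1] at this

theorem a1_Lm_add {R : Type} [Ring R] [Algebra F2 R] (a b : R) :
    (Lm a + Lm b : Module.End F2 R) = Lm (a + b) := by
  ext x; simp [add_mul]

theorem a1_Lm_mul {R : Type} [Ring R] [Algebra F2 R] (a b : R) :
    (Lm a * Lm b : Module.End F2 R) = Lm (a * b) := by
  ext x; simp

theorem a1_ev2_Lm {R : Type} [Ring R] [Algebra F2 R] (a b : R) (f : FA F2 (Fin 2)) :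
    (ev2 (Lm a) (Lm b) f : Module.End F2 R) 1 = ev2 a b f := by
  have h := ev_Lm ![a, b] f
  rw [ev_congr (v' := ![(Lm a : Module.End F2 R), Lm b]) (a1_forall2 (p := fun c =>
    (Lm (![a, b] c) : Module.End F2 R) = ![(Lm a : Module.End F2 R), Lm b] c) rfl rfl)] at h
  rw [h, LinearMap.mulLeft_apply, mul_one]

/-- Apply `kap1` (injective) and compare with the five terms of `Pmod (κ₀ S)` using `ev2_kap0`,
`IsDer.add_Lm_sq`, `ev_intertwine`, `ev_Lm`. -/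
theorem pull {n : ℕ} (hn : 3 ≤ n) {S : FA F2 (Fin 3)} (h : kap0 S ∈ LieW F2 (one (Fin 2)) n)
    (hP : Pmod (kap0 S) = 0) : Pull n S := by
  obtain ⟨T₁, hT₁, e₁⟩ := exists_T1 h.1 (mem_fil_of_hom h.2 hn)
  obtain ⟨T₂, hT₂, hT₂', e₂⟩ := exists_T2 hn h
  have hN : termN S = ev3 bt bs bY T₂ := by
    rw [← e₂, ev2_kap0, a1_Lm_mul, termN]
  refine ⟨T₁, hT₁, T₂, hT₂, hT₂', hN, kap1_injective ?_⟩
  have hA : kap1 (termA S) = (ev2 (Lm (gen 0) + Lm (gen 2)) (Lm (gen 1)) (kap0 S) :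
      Module.End F2 (FA F2 (Fin 3))) 1 := by
    rw [a1_Lm_add, a1_ev2_Lm, ev2_kap0, termA, map_ev3, map_add, map_add, map_add, map_mul, a1_kX,
      a1_kY, a1_kZ, a1_ks, a1_kt]
    congr 2
    · abel
    · a1_nc
  have hB : kap1 (termB S) = (ev2 (opA F2) (Lm (gen 2) + opB F2) (kap0 S) :
      Module.End F2 (FA F2 (Fin 3))) 1 := by
    rw [ev2_kap0, add_comm (Lm (gen 2)), a1_derB.add_Lm_sq add_self_F2, ← add_assoc, termB]
    refine a1_I_ev3 ((a1_IA.add a1_IB).add (a1_IL a1_kt)) (a1_IA.mul a1_IA)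
      ((a1_IB.mul a1_IB).add (a1_IL ?_)) S
    rw [map_add, map_mul, a1_ks2, a1_kt, a1_opB2]
    a1_nc
  have hC : kap1 (termC S) = (ev2 (opA F2 + Lm (gen 0)) (opB F2 + Lm (gen 1)) (kap0 S) :
      Module.End F2 (FA F2 (Fin 3))) 1 := by
    rw [ev2_kap0, a1_derA.add_Lm_sq add_self_F2, a1_derB.add_Lm_sq add_self_F2, add_add_add_comm,
      a1_Lm_add, termC]
    refine a1_I_ev3 ((a1_IA.add a1_IB).add (a1_IL a1_kX)) ((a1_IA.mul a1_IA).add (a1_IL ?_))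
      ((a1_IB.mul a1_IB).add (a1_IL ?_)) S
    · rw [map_add, a1_kY, a1_ks, a1_opA0, add_comm]
    · rw [map_add, a1_kZ, a1_ks2, a1_opB1, add_comm]
  have hN' : kap1 (ev3 bt bs bY T₂) = (ev2 (opA F2) (Lm (gen 2)) (kap0 S) :
      Module.End F2 (FA F2 (Fin 3))) 1 := by
    rw [← hN, ev2_kap0, a1_Lm_mul, termN]
    refine a1_I_ev3 (a1_IA.add (a1_IL a1_kt)) (a1_IA.mul a1_IA) (a1_IL ?_) S
    rw [map_mul, a1_kt]
  have h1 : kap1 (ev3 bt bs2 bZ T₁) = (ev2 (Lm (gen 2)) (Lm (gen 1)) (kap0 S) :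
      Module.End F2 (FA F2 (Fin 3))) 1 := by
    rw [a1_ev2_Lm, e₁]
  have hP' : (ev2 (opA F2) (Lm (gen 2) + opB F2) (kap0 S) +
      ev2 (Lm (gen 0) + Lm (gen 2)) (Lm (gen 1)) (kap0 S) -
      ev2 (Lm (gen 2)) (Lm (gen 1)) (kap0 S) -
      ev2 (opA F2 + Lm (gen 0)) (opB F2 + Lm (gen 1)) (kap0 S) -
      ev2 (opA F2) (Lm (gen 2)) (kap0 S) : Module.End F2 (FA F2 (Fin 3))) 1 = 0 := hP
  rw [LinearMap.sub_apply, LinearMap.sub_apply, LinearMap.sub_apply, LinearMap.add_apply,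
    ← hA, ← hB, ← hC, ← hN', ← h1, sub_eq_add_F2, sub_eq_add_F2, sub_eq_add_F2] at hP'
  rw [map_add, map_add, map_add, map_add, map_zero, ← hP']
  abel

end Crest.Agent.R010
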