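import Crest.Agent.R010.A1

/-!
# Row 10, Theorem A, step 2: reduction modulo `(t, Z)`

The quotient `B'/(t,Z) = F⟨X,Y,s⟩` is again `FA F2 (Fin 3)`, the letter `2` being `s`.
-/

set_option autoImplicit false

noncomputable section

namespace Crest.Agent.R010

abbrev cX : FA F2 (Fin 3) := gen 0
abbrev cY : FA F2 (Fin 3) := gen 1
abbrev cZ : FA F2 (Fin 3) := gen 2

/-- `t ↦ 0`, `Z ↦ 0`, `s ↦` the letter `2`. -/
def pi0 : B5 →ₐ[F2] FA F2 (Fin 3) := ev ![cX, cY, 0, cZ, 0]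

def DX : Module.End F2 (FA F2 (Fin 3)) := der ![0, 0, ⁅cX, cZ⁆]
def DY : Module.End F2 (FA F2 (Fin 3)) := der ![0, 0, ⁅cY, cZ⁆]
def D2 : Module.End F2 (FA F2 (Fin 3)) := der ![0, ⁅cY, cZ⁆, ⁅cY, cZ⁆]

/-- The image of the term `B`. -/
def Eop (f : FA F2 (Fin 3)) : FA F2 (Fin 3) :=
  (ev3 DX D2 (Lm cZ) f : Module.End F2 (FA F2 (Fin 3))) 1

theorem a2_lie_zero {R : Type} [Ring R] (a : R) : ⁅a, (0 : R)⁆ = 0 := by simp [lie_def']
theorem a2_zero_lie {R : Type} [Ring R] (a : R) : ⁅(0 : R), a⁆ = 0 := by simp [lie_def']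
theorem a2_X : pi0 bX = cX := ev_gen _ _
theorem a2_Y : pi0 bY = cY := ev_gen _ _
theorem a2_Z : pi0 bZ = 0 := ev_gen _ _
theorem a2_s : pi0 bs = cZ := ev_gen _ _
theorem a2_t : pi0 bt = 0 := ev_gen _ _
theorem a2_s2 : pi0 bs2 = cZ := by
  rw [bs2, map_add, map_lie', a2_s, a2_t, a2_lie_zero, add_zero]
theorem a2_DX_X : DX cX = 0 := der_gen _ _
theorem a2_DX_Y : DX cY = 0 := der_gen _ _
theorem a2_DX_Z : DX cZ = ⁅cX, cZ⁆ := der_gen _ _
theorem a2_D2_X : D2 cX = 0 := der_gen _ _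
theorem a2_D2_Y : D2 cY = ⁅cY, cZ⁆ := der_gen _ _
theorem a2_D2_Z : D2 cZ = ⁅cY, cZ⁆ := der_gen _ _

theorem a2_ev2_killZ {R : Type} [Ring R] [Algebra F2 R] (p q : R) (S : FA F2 (Fin 3)) :
    ev2 p q (killZ S) = ev3 p q 0 S := by
  rw [killZ, map_ev3, map_zero, ev_gen, ev_gen]
  rfl

theorem a2_comm {D : Module.End F2 (FA F2 (Fin 3))} (hD : IsDer D) {a z : FA F2 (Fin 3)}
    (h : D z = ⁅a, z⁆) : Commute (Lm z : Module.End F2 (FA F2 (Fin 3))) (D + Lm a) := by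
  refine LinearMap.ext fun x => ?_
  change z * (D x + a * x) = D (z * x) + a * (z * x)
  have h2 := add_self_F2 (a * z * x)
  rw [hD, h, lie_def', sub_eq_add_F2]
  calc z * (D x + a * x) = z * (D x + a * x) + (a * z * x + a * z * x) := by rw [h2, add_zero]
    _ = _ := by noncomm_ring

theorem a2_comm_X : Commute (Lm cZ : Module.End F2 (FA F2 (Fin 3))) (DX + Lm cX) :=
  a2_comm (isDer_der _) a2_DX_Z

theorem a2_comm_Y : Commute (Lm cZ : Module.End F2 (FA F2 (Fin 3))) (D2 + Lm (cY + cZ)) := by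
  refine a2_comm (isDer_der _) (a2_D2_Z.trans ?_)
  rw [lie_def', lie_def']
  noncomm_ring

theorem pi0_dAB (g : B5) : pi0 ((dA + dB) g) = DX (pi0 g) := by
  refine (isDer_dA.add isDer_dB).intertwine (isDer_der _) pi0 (fun c => ?_) g
  obtain ⟨h0, h1, h2, h3, h4⟩ := dAB_gen
  fin_cases c
  · change pi0 ((dA + dB) bX) = DX (pi0 bX)
    rw [h0, map_lie', a2_t, a2_X, a2_lie_zero, a2_DX_X]
  · change pi0 ((dA + dB) bY) = DX (pi0 bY)
    rw [h1, map_lie', a2_t, a2_Y, a2_lie_zero, a2_DX_Y]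
  · change pi0 ((dA + dB) bZ) = DX (pi0 bZ)
    rw [h2, map_lie', a2_t, a2_Z, a2_lie_zero, map_zero]
  · change pi0 ((dA + dB) bs) = DX (pi0 bs)
    rw [h3, map_add, map_lie', map_lie', a2_t, a2_X, a2_s, a2_s2, a2_lie_zero, zero_add, a2_DX_Z]
  · change pi0 ((dA + dB) bt) = DX (pi0 bt)
    rw [h4, map_lie', a2_t, a2_lie_zero, map_zero]
theorem pi0_dA2 (g : B5) : pi0 ((dA * dA) g) = D2 (pi0 g) := by
  refine isDer_dA2.intertwine (isDer_der _) pi0 (fun c => ?_) g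
  obtain ⟨h0, h1, h2, h3, h4⟩ := dA2_gen
  fin_cases c
  · change pi0 ((dA * dA) bX) = D2 (pi0 bX)
    rw [h0, map_lie', a2_t, a2_X, a2_lie_zero, a2_D2_X]
  · change pi0 ((dA * dA) bY) = D2 (pi0 bY)
    rw [h1, map_add, map_lie', map_lie' pi0 bY bs, a2_t, a2_Y, a2_s, a2_lie_zero, zero_add, a2_D2_Y]
  · change pi0 ((dA * dA) bZ) = D2 (pi0 bZ)
    rw [h2, a2_Z, map_zero, map_zero]
  · change pi0 ((dA * dA) bs) = D2 (pi0 bs)
    rw [h3, map_add, map_lie', map_lie' pi0 bY bs, a2_t, a2_Y, a2_s, a2_lie_zero, zero_add, a2_D2_Z]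
  · change pi0 ((dA * dA) bt) = D2 (pi0 bt)
    rw [h4, map_lie', a2_t, a2_lie_zero, map_zero]
theorem pi0_dB2 (g : B5) : pi0 ((dB * dB) g) = 0 := by
  refine isDer_dB2.intertwine (D' := 0) IsDer.zero pi0 (fun c => ?_) g
  obtain ⟨h0, h1, h2, h3, h4⟩ := dB2_gen
  fin_cases c
  · change pi0 ((dB * dB) bX) = 0
    rw [h0, map_lie', a2_t, a2_lie_zero]
  · change pi0 ((dB * dB) bY) = 0
    rw [h1, map_zero]
  · change pi0 ((dB * dB) bZ) = 0
    rw [h2]
    simp only [map_add, map_lie', a2_t, a2_Z, a2_lie_zero, a2_zero_lie, add_zero]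
  · change pi0 ((dB * dB) bs) = 0
    rw [h3]
    simp only [map_add, map_lie', a2_t, a2_Z, a2_lie_zero, a2_zero_lie, add_zero]
  · change pi0 ((dB * dB) bt) = 0
    rw [h4, map_lie', a2_t, a2_lie_zero]

theorem pi0_termA (S : FA F2 (Fin 3)) : pi0 (termA S) = ev2 cX (cY + cZ) (killZ S) := by
  rw [termA, map_ev3, a2_ev2_killZ]
  simp only [map_add, map_mul, a2_X, a2_Y, a2_Z, a2_s, a2_t, add_zero, mul_zero]
theorem pi0_termB (S : FA F2 (Fin 3)) : pi0 (termB S) = Eop S := by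
  have h := ev_intertwine pi0.toLinearMap ![dA + dB + Lm bt, dA * dA, dB * dB + Lm (bs2 + bt * bt)]
    ![DX, D2, Lm cZ] (fun c x => ?_) S 1
  · simpa only [AlgHom.toLinearMap_apply, map_one, termB, Eop] using h
  fin_cases c
  · change pi0 ((dA + dB) x + bt * x) = DX (pi0 x)
    rw [map_add, pi0_dAB, map_mul, a2_t, zero_mul, add_zero]
  · exact pi0_dA2 x
  · change pi0 ((dB * dB) x + (bs2 + bt * bt) * x) = cZ * pi0 x
    rw [map_add, pi0_dB2, map_mul, map_add, map_mul, a2_t, a2_s2, mul_zero, add_zero, zero_add]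
/-- `L_s` commutes with `DX + L_X` and with `D2 + L_(Y+s)`, so it drops out of `S ∈ LieD`
(`ev_add_central`). -/
theorem pi0_termC {S : FA F2 (Fin 3)} (hS : S ∈ LieD F2 (Fin 3)) :
    pi0 (termC S) = (ev2 (DX + Lm cX) (D2 + Lm (cY + cZ)) (killZ S) :
      Module.End F2 (FA F2 (Fin 3))) 1 := by
  have h := ev_intertwine pi0.toLinearMap
    ![dA + dB + Lm bX, dA * dA + Lm (bY + bs), dB * dB + Lm (bZ + bs2)]
    (fun c => ![DX + Lm cX, D2 + Lm (cY + cZ), 0] c + ![0, 0, Lm cZ] c) (fun c x => ?_) S 1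
  · rw [ev_add_central ?_ ?_ hS] at h
    · rw [a2_ev2_killZ]
      simpa only [AlgHom.toLinearMap_apply, map_one, termC] using h
    · intro c c'
      fin_cases c
      · exact Commute.zero_left _
      · exact Commute.zero_left _
      · fin_cases c'
        · exact a2_comm_X
        · exact a2_comm_Y
        · exact Commute.zero_right _
    · intro c c'
      fin_cases c
      · exact Commute.zero_left _
      · exact Commute.zero_left _
      · fin_cases c'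
        · exact Commute.zero_right _
        · exact Commute.zero_right _
        · exact Commute.refl _
  fin_cases c
  · change pi0 ((dA + dB) x + bX * x) = DX (pi0 x) + cX * pi0 x + 0
    rw [map_add, pi0_dAB, map_mul, a2_X, add_zero]
  · change pi0 ((dA * dA) x + (bY + bs) * x) = D2 (pi0 x) + (cY + cZ) * pi0 x + 0
    rw [map_add, pi0_dA2, map_mul, map_add, a2_Y, a2_s, add_zero]
  · change pi0 ((dB * dB) x + (bZ + bs2) * x) = 0 + cZ * pi0 x
    rw [map_add, pi0_dB2, map_mul, map_add, a2_Z, a2_s2, zero_add cZ]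
/-- If `S` does not involve `X`, the operator `dA + L_t` may be replaced by `0`
(`ev_congr_supp`), `pi0` intertwines `dA²` with `D2` and `L_(t²)` with `0`, and `D2` kills `1`. -/
theorem pi0_termN {S : FA F2 (Fin 3)} (hS : S ∈ LieD F2 (Fin 3)) (hX : S ∈ hom ![1, 0, 0] 0) :
    pi0 (termN S) = 0 := by
  have hsupp : S ∈ supp (fun w : FreeMonoid (Fin 3) => ∀ c ∈ w.toList, c ≠ 0) := by
    refine supp_mono (fun w hw c hc h0 => ?_) hX
    have h1 : (![1, 0, 0] : Fin 3 → ℕ) c ≤ wdeg ![1, 0, 0] w :=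
      List.single_le_sum (fun _ _ => Nat.zero_le _) _ (List.mem_map_of_mem hc)
    rw [hw, h0] at h1
    exact absurd h1 (by decide)
  have e : (ev3 (dA + Lm bt) (dA * dA) (Lm (bt * bt)) S : Module.End F2 B5) =
      ev3 0 (dA * dA) (Lm (bt * bt)) S := by
    refine ev_congr_supp (fun c hc => ?_) hsupp
    fin_cases c
    · exact absurd rfl hc
    · rfl
    · rfl
  have h := ev_intertwine pi0.toLinearMap ![0, dA * dA, Lm (bt * bt)] ![0, D2, 0] (fun c x => ?_) S 1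
  · rw [termN, e]
    refine h.trans (ev_apply_eq_zero (fun c => ?_) (LieS_le_fil_one hS.1))
    fin_cases c
    · rfl
    · change D2 (pi0 1) = 0
      rw [map_one, D2, der_one]
    · rfl
  fin_cases c
  · exact map_zero _
  · exact pi0_dA2 x
  · change pi0 ((bt * bt) * x) = 0
    rw [map_mul, map_mul, a2_t, zero_mul, zero_mul]

/-- The identity in the quotient. -/
theorem Pull.quot {n : ℕ} {S : FA F2 (Fin 3)} (hS : S ∈ LieD F2 (Fin 3)) (h : Pull n S) :
    ∃ T₂ : FA F2 (Fin 3), T₂ ∈ hom wt3 n ∧ pi0 (termN S) = ev3 0 cZ cY T₂ ∧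
      ev2 cX (cY + cZ) (killZ S) + Eop S +
        (ev2 (DX + Lm cX) (D2 + Lm (cY + cZ)) (killZ S) : Module.End F2 (FA F2 (Fin 3))) 1
        + ev3 0 cZ cY T₂ = 0 := by
  obtain ⟨T₁, hT₁, T₂, -, hT₂, hN, hsum⟩ := h.ex
  have e2 : pi0 (ev3 bt bs bY T₂) = ev3 0 cZ cY T₂ := by rw [map_ev3, a2_t, a2_s, a2_Y]
  have e1 : pi0 (ev3 bt bs2 bZ T₁) = 0 := by
    rw [map_ev3, a2_t, a2_s2, a2_Z]
    refine ev_eq_zero_of_commute (fun c c' => ?_) hT₁
    fin_cases c
    · exact Commute.zero_left _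
    · fin_cases c'
      · exact Commute.zero_right _
      · exact Commute.refl _
      · exact Commute.zero_right _
    · exact Commute.zero_left _
  refine ⟨T₂, hT₂, by rw [hN, e2], ?_⟩
  have h1 := congrArg pi0 hsum
  rwa [map_add, map_add, map_add, map_add, map_zero, pi0_termA, pi0_termB, pi0_termC hS, e1, e2,
    add_zero] at h1

end Crest.Agent.R010
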