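import Crest.Agent.R010.A2

/-! # Row 10, Theorem A, step 3: `Eop` is injective on the Lie ideal generated by `Z` -/

set_option autoImplicit false

noncomputable section

namespace Crest.Agent.R010

/-- The leading action `X ↦ DX`, `Y ↦ DY`, `Z ↦ L_Z`. -/
def rhoE : FA F2 (Fin 3) →ₐ[F2] Module.End F2 (FA F2 (Fin 3)) := ev3 DX DY (Lm cZ)

theorem a3_lie_zero {R : Type} [Ring R] (a : R) : ⁅a, (0 : R)⁆ = 0 := by
  rw [lie_def', mul_zero, zero_mul, sub_zero]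
theorem a3_zero_lie {R : Type} [Ring R] (a : R) : ⁅(0 : R), a⁆ = 0 := by
  rw [lie_def', mul_zero, zero_mul, sub_zero]
theorem a3_skew {R : Type} [Ring R] (a b : R) : ⁅a, b⁆ = -⁅b, a⁆ := by
  rw [lie_def', lie_def', neg_sub]

theorem a3_DX : IsDer DX := isDer_der _
theorem a3_DY : IsDer DY := isDer_der _
theorem a3_D2 : IsDer D2 := isDer_der _

theorem a3_DX0 : DX cX = 0 := der_gen _ _
theorem a3_DX1 : DX cY = 0 := der_gen _ _
theorem a3_DX2 : DX cZ = ⁅cX, cZ⁆ := der_gen _ _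
theorem a3_DY0 : DY cX = 0 := der_gen _ _
theorem a3_DY1 : DY cY = 0 := der_gen _ _
theorem a3_DY2 : DY cZ = ⁅cY, cZ⁆ := der_gen _ _
theorem a3_D20 : D2 cX = 0 := der_gen _ _
theorem a3_D21 : D2 cY = ⁅cY, cZ⁆ := der_gen _ _
theorem a3_D22 : D2 cZ = ⁅cY, cZ⁆ := der_gen _ _
theorem a3_rho0 : rhoE cX = DX := ev_gen _ _
theorem a3_rho1 : rhoE cY = DY := ev_gen _ _
theorem a3_rho2 : rhoE cZ = Lm cZ := ev_gen _ _

theorem a3_adm_zero : (adm (0 : FA F2 (Fin 3)) : Module.End F2 (FA F2 (Fin 3))) = 0 :=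
  LinearMap.ext fun x => by rw [adm_apply, a3_zero_lie]; rfl

theorem a3_cases {p : Fin 3 → Prop} (h0 : p 0) (h1 : p 1) (h2 : p 2) : ∀ c, p c := by
  intro c
  fin_cases c
  exacts [h0, h1, h2]

theorem a3_cases2 {p : Fin 2 → Prop} (h0 : p 0) (h1 : p 1) : ∀ c, p c := by
  intro c
  fin_cases c
  exacts [h0, h1]

/-- `IsDer.lie_rep` with `E = ad X`: on letters `⁅ad X, DX⁆ = ad (DX X) = 0`,
`⁅ad X, DY⁆ = ad (DY X) = 0`, `⁅ad X, L_Z⁆ = L_⁅X,Z⁆ = ⁅DX, L_Z⁆ = ρ ⁅X,Z⁆`. -/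
theorem rhoE_DX (g : FA F2 (Fin 3)) :
    ⁅(adm cX : Module.End F2 (FA F2 (Fin 3))), rhoE g⁆ = rhoE (DX g) := by
  refine a3_DX.lie_rep rhoE _ (a3_cases ?_ ?_ ?_) g
  · rw [a3_rho0, a3_skew, a3_DX.lie_adm, a3_DX0, a3_adm_zero, map_zero, neg_zero]
  · rw [a3_rho1, a3_skew, a3_DY.lie_adm, a3_DY0, a3_DX1, a3_adm_zero, map_zero, neg_zero]
  · rw [a3_rho2, lie_adm_Lm, a3_DX2, map_lie', a3_rho0, a3_rho2, a3_DX.lie_Lm, a3_DX2]
/-- Here one also needs `⁅ad Y, DX⁆ = ad (DX Y) = 0`. -/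
theorem rhoE_DY (g : FA F2 (Fin 3)) :
    ⁅(adm cY : Module.End F2 (FA F2 (Fin 3))), rhoE g⁆ = rhoE (DY g) := by
  refine a3_DY.lie_rep rhoE _ (a3_cases ?_ ?_ ?_) g
  · rw [a3_rho0, a3_skew, a3_DX.lie_adm, a3_DX1, a3_DY0, a3_adm_zero, map_zero, neg_zero]
  · rw [a3_rho1, a3_skew, a3_DY.lie_adm, a3_DY1, a3_adm_zero, map_zero, neg_zero]
  · rw [a3_rho2, lie_adm_Lm, a3_DY2, map_lie', a3_rho1, a3_rho2, a3_DY.lie_Lm, a3_DY2]

/-- Elements acting by a left multiplication, symmetrically. -/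
def a3W : Submodule F2 (FA F2 (Fin 3)) where
  carrier := {f | ∃ g, rhoE f = Lm g ∧ rhoE g = Lm f}
  add_mem' := by
    rintro a b ⟨g, h1, h2⟩ ⟨g', h1', h2'⟩
    refine ⟨g + g', ?_, ?_⟩
    · rw [map_add, h1, h1']
      exact LinearMap.ext fun x => (add_mul _ _ _).symm
    · rw [map_add, h2, h2']
      exact LinearMap.ext fun x => (add_mul _ _ _).symm
  zero_mem' := ⟨0, by rw [map_zero]; exact LinearMap.ext fun x => (zero_mul _).symm,
    by rw [map_zero]; exact LinearMap.ext fun x => (zero_mul _).symm⟩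
  smul_mem' := by
    rintro c a ⟨g, h1, h2⟩
    refine ⟨c • g, ?_, ?_⟩
    · rw [map_smul, h1]
      exact LinearMap.ext fun x => by simp
    · rw [map_smul, h2]
      exact LinearMap.ext fun x => by simp

theorem a3W_Z : cZ ∈ a3W := ⟨cZ, a3_rho2, a3_rho2⟩

theorem a3W_lie {a b : FA F2 (Fin 3)} (ha : a ∈ a3W) (hb : b ∈ a3W) : ⁅a, b⁆ ∈ a3W := by
  obtain ⟨g, h1, h2⟩ := ha
  obtain ⟨g', h1', h2'⟩ := hb
  exact ⟨⁅g, g'⁆, by rw [map_lie', h1, h1', lie_Lm], by rw [map_lie', h2, h2', lie_Lm]⟩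

theorem a3W_X {a : FA F2 (Fin 3)} (ha : a ∈ a3W) : ⁅cX, a⁆ ∈ a3W := by
  obtain ⟨g, h1, h2⟩ := ha
  exact ⟨DX g, by rw [map_lie', a3_rho0, h1, a3_DX.lie_Lm], by rw [← rhoE_DX, h2, lie_adm_Lm]⟩

theorem a3W_Y {a : FA F2 (Fin 3)} (ha : a ∈ a3W) : ⁅cY, a⁆ ∈ a3W := by
  obtain ⟨g, h1, h2⟩ := ha
  exact ⟨DY g, by rw [map_lie', a3_rho1, h1, a3_DY.lie_Lm], by rw [← rhoE_DY, h2, lie_adm_Lm]⟩

theorem a3W_ev {f a : FA F2 (Fin 3)} (hf : f ∈ LieS F2 (Fin 3)) (ha : a ∈ a3W) :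
    ⁅(ev3 cX cY 0 f : FA F2 (Fin 3)), a⁆ ∈ a3W :=
  lie_ev_mem a3W (v := ![cX, cY, 0]) (a3_cases (fun _ h => a3W_X h) (fun _ h => a3W_Y h)
    fun a _ => by
      show ⁅(0 : FA F2 (Fin 3)), a⁆ ∈ a3W
      rw [a3_zero_lie]
      exact zero_mem _) hf ha

theorem a3W_sub {f : FA F2 (Fin 3)} (hf : f ∈ LieS F2 (Fin 3)) : f - ev3 cX cY 0 f ∈ a3W := by
  refine LieS_induction hf (a3_cases ?_ ?_ ?_) (fun a b ha hb h1 h2 => ?_) ?_
    (fun a b _ _ h1 h2 => ?_) fun c a _ h => ?_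
  · rw [ev_gen]
    show cX - cX ∈ a3W
    rw [sub_self]
    exact zero_mem _
  · rw [ev_gen]
    show cY - cY ∈ a3W
    rw [sub_self]
    exact zero_mem _
  · rw [ev_gen]
    show cZ - 0 ∈ a3W
    rw [sub_zero]
    exact a3W_Z
  · have e : ⁅a, b⁆ - ev3 cX cY 0 ⁅a, b⁆ = ⁅a - ev3 cX cY 0 a, b - ev3 cX cY 0 b⁆ +
        ⁅(ev3 cX cY 0 a : FA F2 (Fin 3)), b - ev3 cX cY 0 b⁆ -
        ⁅(ev3 cX cY 0 b : FA F2 (Fin 3)), a - ev3 cX cY 0 a⁆ := by
      rw [map_lie']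
      simp only [lie_def']
      noncomm_ring
    rw [e]
    exact sub_mem (add_mem (a3W_lie h1 h2) (a3W_ev ha h2)) (a3W_ev hb h1)
  · rw [map_zero, sub_zero]
    exact zero_mem _
  · rw [map_add, add_sub_add_comm]
    exact add_mem h1 h2
  · rw [map_smul, ← smul_sub]
    exact Submodule.smul_mem _ _ h

/-- The set `W` of `f` with `ρ f = L_g`, `ρ g = L_f` for some `g` is a submodule containing `Z`,
closed under brackets and under `ad X` (`g ↦ DX g`), `ad Y`.  For Lie `f`, with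
`r = ev3 X Y 0`, one has `f - r f ∈ W` (Lie induction:
`⁅f,g⁆ - ⁅rf,rg⁆ = ⁅f-rf,g-rg⁆ + ⁅rf,g-rg⁆ + ⁅f-rf,rg⁆`, and `W` is stable under `ad (r f)` by
`lie_ev_mem`). -/
theorem exists_rel {f : FA F2 (Fin 3)} (hf : f ∈ LieS F2 (Fin 3)) (h0 : ev3 cX cY 0 f = 0) :
    ∃ g, rhoE f = Lm g ∧ rhoE g = Lm f := by
  have := a3W_sub hf
  rw [h0, sub_zero] at this
  exact this

theorem eq_zero_of_rhoE {f : FA F2 (Fin 3)} (hf : f ∈ LieS F2 (Fin 3)) (h0 : ev3 cX cY 0 f = 0)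
    (h : rhoE f 1 = 0) : f = 0 := by
  obtain ⟨g, h1, h2⟩ := exists_rel hf h0
  have hg : g = 0 := by
    rw [h1] at h
    simpa using h
  rw [hg, map_zero] at h2
  have := LinearMap.congr_fun h2 1
  simpa using this.symm

theorem a3_lie_hom (δ : Fin 3 → ℕ) (c c' : Fin 3) :
    (⁅(gen c : FA F2 (Fin 3)), (gen c' : FA F2 (Fin 3))⁆ : FA F2 (Fin 3)) ∈ hom δ (δ c + δ c') :=
  lie_mem_hom (gen_mem_hom δ c) (gen_mem_hom δ c')

theorem a3_DX_gen (δ : Fin 3 → ℕ) : ∀ c, DX (gen c) ∈ hom δ (δ c + δ 0) :=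
  a3_cases (by rw [a3_DX0]; exact zero_mem _) (by rw [a3_DX1]; exact zero_mem _)
    (by rw [a3_DX2, add_comm]; exact a3_lie_hom δ 0 2)

theorem a3_DY_gen (δ : Fin 3 → ℕ) : ∀ c, DY (gen c) ∈ hom δ (δ c + δ 1) :=
  a3_cases (by rw [a3_DY0]; exact zero_mem _) (by rw [a3_DY1]; exact zero_mem _)
    (by rw [a3_DY2, add_comm]; exact a3_lie_hom δ 1 2)

theorem a3_D2_gen : ∀ c, D2 (gen c) ∈ hom dep3 (dep3 c + 1) :=
  a3_cases (by rw [a3_D20]; exact zero_mem _) (by rw [a3_D21]; exact a3_lie_hom dep3 1 2)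
    (by rw [a3_D22]; exact a3_lie_hom dep3 1 2)

theorem a3_Lm_hom (δ : Fin 3 → ℕ) {a : FA F2 (Fin 3)} {e : ℕ} (ha : a ∈ hom δ e) (j : ℕ) :
    ∀ x ∈ hom δ j, (Lm a : Module.End F2 (FA F2 (Fin 3))) x ∈ hom δ (j + e) := fun x hx => by
  rw [add_comm]
  exact mul_mem_hom ha hx

theorem a3_Lm_fil (δ : Fin 3 → ℕ) {a : FA F2 (Fin 3)} {e : ℕ} (ha : a ∈ hom δ e) (j : ℕ) :
    ∀ x ∈ fil δ j, (Lm a : Module.End F2 (FA F2 (Fin 3))) x ∈ fil δ (j + e) := fun x hx => by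
  rw [add_comm]
  exact mul_mem_fil (mem_fil_of_hom ha le_rfl) hx

/-- Filter by the number of letters `2` (`δ = ![0,0,1]`): `D2 - DY` raises it by one, so by
`ev_op_lead` the lowest component `f₀` of `f` (Lie, killed by `ev3 X Y 0`) satisfies
`ρ f₀ 1 ∈ fil (j+1)`; it is homogeneous of degree `j`, so it vanishes and `f₀ = 0`. -/
theorem eq_zero_of_Eop {f : FA F2 (Fin 3)} (hf : f ∈ LieS F2 (Fin 3)) (h0 : ev3 cX cY 0 f = 0)
    (h : Eop f = 0) : f = 0 := by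
  by_contra hne
  obtain ⟨n, hn, hne'⟩ := exists_lowest ![0, 0, 1] hne
  have hD : ∀ c, (D2 - DY) (gen c) ∈ fil ![0, 0, 1] (![0, 0, 1] c + 1) := by
    refine a3_cases ?_ ?_ ?_
    · rw [LinearMap.sub_apply, a3_D20, a3_DY0, sub_zero]
      exact zero_mem _
    · rw [LinearMap.sub_apply, a3_D21, a3_DY1, sub_zero]
      exact mem_fil_of_hom (a3_lie_hom ![0, 0, 1] 1 2) le_rfl
    · rw [LinearMap.sub_apply, a3_D22, a3_DY2, sub_self]
      exact zero_mem _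
  have h1 := ev_op_lead (fil ![0, 0, 1]) (fun _ _ h => fil_anti _ h) ![0, 0, 1]
    ![DX, D2, Lm cZ] ![DX, DY, Lm cZ]
    (a3_cases
      (fun j x hx => a3_DX.mem_fil (fun c => mem_fil_of_hom (a3_DX_gen _ c) le_rfl) hx)
      (fun j x hx => a3_DY.mem_fil (fun c => mem_fil_of_hom (a3_DY_gen _ c) le_rfl) hx)
      (a3_Lm_fil _ (gen_mem_hom _ 2)))
    (a3_cases
      (fun j x hx => by
        show DX x - DX x ∈ _
        rw [sub_self]
        exact zero_mem _)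
      (fun j x hx => (a3_D2.sub a3_DY).mem_fil hD hx)
      (fun j x hx => by
        show (Lm cZ : Module.End F2 (FA F2 (Fin 3))) x - (Lm cZ : Module.End F2 _) x ∈ _
        rw [sub_self]
        exact zero_mem _))
    hn (mem_fil_zero _ (1 : FA F2 (Fin 3)))
  have h2 := ev_op_mem_graded (hom ![0, 0, 1]) ![0, 0, 1] ![DX, DY, Lm cZ]
    (a3_cases (fun j x hx => a3_DX.mem_hom (a3_DX_gen _) hx)
      (fun j x hx => a3_DY.mem_hom (a3_DY_gen _) hx) (a3_Lm_hom _ (gen_mem_hom _ 2)))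
    (proj_mem_hom ![0, 0, 1] n f) (one_mem_hom (k := F2) ![0, 0, 1])
  change Eop f - rhoE (proj ![0, 0, 1] n f) 1 ∈ _ at h1
  rw [h, zero_sub, neg_mem_iff] at h1
  refine hne' (eq_zero_of_rhoE (proj_mem_LieS _ _ hf) ?_
    (eq_zero_of_hom_of_fil h2 h1 (Nat.lt_succ_self _)))
  rw [← proj_ev (δ' := ![0, 0, 1]) (v := ![cX, cY, 0])
    (a3_cases (gen_mem_hom _ 0) (gen_mem_hom _ 1) (zero_mem _)), h0, map_zero]

/-- `DX` preserves `dep3`, `D2` and `L_Z` raise it by exactly one (`proj_map`). -/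
theorem proj_Eop (e : ℕ) (f : FA F2 (Fin 3)) : proj dep3 e (Eop f) = Eop (proj dep3 e f) := by
  exact proj_map (δ := dep3) (δ' := dep3) (LinearMap.applyₗ (1 : FA F2 (Fin 3)) ∘ₗ
    (ev3 DX D2 (Lm cZ) : FA F2 (Fin 3) →ₐ[F2] Module.End F2 (FA F2 (Fin 3))).toLinearMap) 0
    (fun n g hg => by
      have := ev_op_mem_graded (hom dep3) dep3 ![DX, D2, Lm cZ]
        (a3_cases (fun j x hx => a3_DX.mem_hom (a3_DX_gen _) hx)
          (fun j x hx => a3_D2.mem_hom a3_D2_gen hx) (a3_Lm_hom _ (gen_mem_hom _ 2)))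
        hg (one_mem_hom (k := F2) dep3)
      rw [zero_add] at this
      exact this) e f

/-- Derivations kill `1`. -/
theorem Eop_kill {f : FA F2 (Fin 3)} (hf : f ∈ fil (one (Fin 3)) 1) :
    Eop (ev3 cX cY 0 f) = 0 := by
  unfold Eop
  rw [map_ev3, ev_gen, ev_gen, map_zero]
  exact ev_apply_eq_zero (a3_cases a3_DX.map_one a3_D2.map_one rfl) hf

theorem a3_ev2_killZ (S : FA F2 (Fin 3)) : ev2 cX cY (killZ S) = ev3 cX cY 0 S := by
  unfold killZ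
  rw [map_ev3, ev_gen, ev_gen, map_zero]
  rfl

theorem a3_wdeg (w : FreeMonoid (Fin 3)) : wdeg ![0, 2, 2] w = 2 * wdeg dep3 w := by
  refine basic1_word_ind (p := fun w => wdeg ![0, 2, 2] w = 2 * wdeg dep3 w) w rfl fun w c h => ?_
  rw [wdeg_mul, wdeg_mul, h, wdeg_of, wdeg_of, mul_add]
  congr 1
  revert c
  exact a3_cases rfl rfl rfl

/-- **(A1)** For `e < d`: the first and third terms of `Pull.quot` have depth `≥ d`; the last one
only contains words in the letters `1, 2` of weight `n`, i.e. of depth `n/2 > e`; so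
`Eop (S_e) = 0`.  As `killZ S_e = 0`, `eq_zero_of_Eop` gives `S_e = 0`. -/
theorem Pull.mem_fil {n d : ℕ} {S : FA F2 (Fin 3)} (hS : S ∈ LieD F2 (Fin 3)) (h : Pull n S)
    (hQ : killZ S ∈ fil dep d) (hd : 2 * d ≤ n + 1) : S ∈ fil dep3 d := by
  obtain ⟨T₂, hT, -, hq⟩ := h.quot hS
  have hYZ : cY + cZ ∈ hom dep3 1 := add_mem (gen_mem_hom dep3 1) (gen_mem_hom dep3 2)
  have t1 : ev2 cX (cY + cZ) (killZ S) ∈ fil dep3 d :=
    ev_mem_fil (a3_cases2 (mem_fil_zero _ _) (mem_fil_of_hom hYZ le_rfl)) hQ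
  have t3 : (ev2 (DX + Lm cX) (D2 + Lm (cY + cZ)) (killZ S) :
      Module.End F2 (FA F2 (Fin 3))) 1 ∈ fil dep3 (0 + d) :=
    ev_op_mem_fil (fil dep3) (fun _ _ h => fil_anti _ h) dep ![DX + Lm cX, D2 + Lm (cY + cZ)]
      (a3_cases2
        (fun j x hx => by
          show (DX + Lm cX : Module.End F2 (FA F2 (Fin 3))) x ∈ fil dep3 (j + dep3 0)
          rw [LinearMap.add_apply]
          exact add_mem (a3_DX.mem_fil (fun c => mem_fil_of_hom (a3_DX_gen _ c) le_rfl) hx)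
            (a3_Lm_fil _ (gen_mem_hom dep3 0) j x hx))
        (fun j x hx => by
          show (D2 + Lm (cY + cZ) : Module.End F2 (FA F2 (Fin 3))) x ∈ fil dep3 (j + 1)
          rw [LinearMap.add_apply]
          exact add_mem (a3_D2.mem_fil (fun c => mem_fil_of_hom (a3_D2_gen c) le_rfl) hx)
            (a3_Lm_fil _ hYZ j x hx))) hQ (mem_fil_zero _ _)
  rw [zero_add] at t3
  have t4 : ev3 0 cZ cY T₂ ∈ hom ![0, 2, 2] n :=
    ev_mem_hom (δ := wt3) (v := ![0, cZ, cY])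
      (a3_cases (zero_mem _) (gen_mem_hom ![0, 2, 2] 2) (gen_mem_hom ![0, 2, 2] 1)) hT
  refine mem_fil_iff.2 fun e he => ?_
  have t5 : proj dep3 e (ev3 0 cZ cY T₂) = 0 := restr_eq_zero t4 fun w h1 h2 => by
    rw [a3_wdeg, h2] at h1
    omega
  have := congrArg (proj dep3 e) hq
  rw [map_add, map_add, map_add, proj_of_fil_lt t1 he, proj_of_fil_lt t3 he, t5, map_zero,
    zero_add, add_zero, add_zero, proj_Eop] at this
  refine eq_zero_of_Eop (proj_mem_LieS _ _ hS.1) ?_ this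
  rw [← a3_ev2_killZ, ← proj_killZ, proj_of_fil_lt hQ he, map_zero]

/-- **(A2)** If `S` does not involve `X` then `killZ S = 0` (a Lie polynomial of length `≥ 2` in
the single letter `Y`), the negligible term vanishes (`pi0_termN`), so `Eop S = 0`. -/
theorem Pull.eq_zero {n : ℕ} {S : FA F2 (Fin 3)} (hS : S ∈ LieD F2 (Fin 3)) (h : Pull n S)
    (hX : S ∈ hom ![1, 0, 0] 0) : S = 0 := by
  obtain ⟨T₂, -, hN, hq⟩ := h.quot hS
  have hk : killZ S = 0 := by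
    have hs : S ∈ supp fun w : FreeMonoid (Fin 3) => ∀ c ∈ w.toList, c ≠ 0 := by
      refine supp_mono (fun w hw c hc h0 => ?_) hX
      have := List.sum_eq_zero_iff.1 hw _ (List.mem_map_of_mem hc)
      rw [h0] at this
      exact one_ne_zero this
    unfold killZ
    rw [ev_congr_supp (v := ![gX, gY, 0]) (v' := ![0, gY, 0]) (U := fun c => c ≠ 0)
      (a3_cases (fun h => absurd rfl h) (fun _ => rfl) fun _ => rfl) hs]
    refine ev_eq_zero_of_commute (a3_cases (fun _ => Commute.zero_left _)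
      (a3_cases (Commute.zero_right _) (Commute.refl _) (Commute.zero_right _))
      fun _ => Commute.zero_left _) hS
  rw [← hN, pi0_termN hS hX, hk, map_zero, map_zero, LinearMap.zero_apply, zero_add, add_zero,
    add_zero] at hq
  refine eq_zero_of_Eop hS.1 ?_ hq
  rw [← a3_ev2_killZ, hk, map_zero]

end Crest.Agent.R010
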