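import Crest.Agent.R010.A1

/-!
# Row 10, Theorem A, step 4: the module `N = B'/(Y, Z, tX, ts, tt, st)`

A triple `(w₀, w₁, c)` stands for `w₀ + w₁ X t + c t`, with `w₀, w₁ ∈ F⟨X,s⟩ = FA F2 (Fin 2)`
(`gX = X`, `gY = s`).
-/

set_option autoImplicit false

noncomputable section

namespace Crest.Agent.R010

abbrev A2 : Type := FA F2 (Fin 2)
abbrev NN : Type := A2 × A2 × F2

def lX : Module.End F2 NN where
  toFun w := (gX * w.1, gX * w.2.1 + w.2.2 • 1, 0)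
  map_add' a b := by simp [mul_add, add_smul]; abel
  map_smul' c a := by simp [smul_smul]
def ls : Module.End F2 NN where
  toFun w := (gY * w.1, gY * w.2.1, 0)
  map_add' a b := by simp [mul_add]
  map_smul' c a := by simp
def lt : Module.End F2 NN where
  toFun w := (0, 0, cf 1 w.1)
  map_add' a b := by simp
  map_smul' c a := by simp
/-- The action of `⁅X,t⁆`. -/
def lU : Module.End F2 NN where
  toFun w := (0, cf 1 w.1 • 1, 0)
  map_add' a b := by simp [add_smul]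
  map_smul' c a := by simp [smul_smul]
/-- Leading part of `a₁ + b₁`. -/
def DN0 : Module.End F2 NN where
  toFun w := (⁅(gX : A2), w.1⁆, gX * w.2.1 + stripR 1 w.1 * gX + w.2.2 • 1, 0)
  map_add' a b := by simp [mul_add, add_mul, add_smul, Ring.lie_def]; constructor <;> abel
  map_smul' c a := by simp [smul_smul, Ring.lie_def, smul_sub]
/-- Higher part of `a₁ + b₁`. -/
def DN1 : Module.End F2 NN where
  toFun w := (0, stripR 0 w.1, 0)
  map_add' a b := by simp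
  map_smul' c a := by simp

/-- The action of `B'` on `N`. -/
def lam : B5 →ₐ[F2] Module.End F2 NN := ev ![lX, 0, 0, ls, lt]

/-- The class of `1`. -/
def eN : NN := (1, 0, 0)

theorem a4_lX (w : NN) : lX w = (gX * w.1, gX * w.2.1 + w.2.2 • 1, 0) := rfl
theorem a4_ls (w : NN) : ls w = (gY * w.1, gY * w.2.1, 0) := rfl
theorem a4_lt (w : NN) : lt w = (0, 0, cf 1 w.1) := rfl
theorem a4_lU (w : NN) : lU w = (0, cf 1 w.1 • 1, 0) := rfl
theorem a4_DN0 (w : NN) :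
    DN0 w = (⁅(gX : A2), w.1⁆, gX * w.2.1 + stripR 1 w.1 * gX + w.2.2 • 1, 0) := rfl
theorem a4_DN1 (w : NN) : DN1 w = (0, stripR 0 w.1, 0) := rfl
theorem a4_cf_gen_mul (c : Fin 2) (f : A2) : cf 1 (gen c * f) = 0 := by
  rw [cf_one_mul, basic1_cf_one_gen, zero_mul]
theorem a4_cf_mul_gen (c : Fin 2) (f : A2) : cf 1 (f * gen c) = 0 := by
  rw [cf_one_mul, basic1_cf_one_gen, mul_zero]
theorem a4_strip_self (c : Fin 2) : stripR c (gen c : A2) = 1 := by
  simpa using stripR_mul_gen_self c (1 : A2)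
theorem a4_strip01 : stripR 0 (gY : A2) = 0 := by
  simpa using stripR_mul_gen_ne (c := (0 : Fin 2)) (c' := 1) (by decide) (1 : A2)
theorem a4_strip10 : stripR 1 (gX : A2) = 0 := by
  simpa using stripR_mul_gen_ne (c := (1 : Fin 2)) (c' := 0) (by decide) (1 : A2)
theorem a4_ext {φ ψ : Module.End F2 NN} (h : ∀ a b c, φ (a, b, c) = ψ (a, b, c)) : φ = ψ :=
  LinearMap.ext fun w => h w.1 w.2.1 w.2.2
theorem a4_lam0 : lam bX = lX := ev_gen _ _
theorem a4_lam1 : lam bY = 0 := ev_gen _ _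
theorem a4_lam2 : lam bZ = 0 := ev_gen _ _
theorem a4_lam3 : lam bs = ls := ev_gen _ _
theorem a4_lam4 : lam bt = lt := ev_gen _ _
theorem a4_lie_X_t : ⁅lX, lt⁆ = lU := a4_ext fun a b c => by
  simp [Ring.lie_def, a4_lX, a4_lt, a4_lU, a4_cf_gen_mul]
theorem a4_t_t : lt * lt = 0 := a4_ext fun a b c => by simp [a4_lt]
theorem a4_s_t : ls * lt = 0 := a4_ext fun a b c => by simp [a4_lt, a4_ls]
theorem a4_t_s : lt * ls = 0 := a4_ext fun a b c => by simp [a4_lt, a4_ls, a4_cf_gen_mul]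
theorem a4_U_t : lU * lt = 0 := a4_ext fun a b c => by simp [a4_lt, a4_lU]
theorem a4_t_U : lt * lU = 0 := a4_ext fun a b c => by simp [a4_lt, a4_lU]
theorem a4_lie_s_t : ⁅ls, lt⁆ = 0 := by rw [Ring.lie_def, a4_s_t, a4_t_s, sub_self]
theorem a4_lie_sU_t : ⁅ls + lU, lt⁆ = 0 := by
  rw [Ring.lie_def, add_mul, mul_add, a4_s_t, a4_t_s, a4_U_t, a4_t_U, sub_self]
theorem a4_zero_lie (x : Module.End F2 NN) : ⁅(0 : Module.End F2 NN), x⁆ = 0 := by
  simp [Ring.lie_def]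
theorem a4_lie_zero (x : Module.End F2 NN) : ⁅x, (0 : Module.End F2 NN)⁆ = 0 := by
  simp [Ring.lie_def]
theorem a4_lie_D_X : ⁅DN0 + DN1, lX⁆ = lU := a4_ext fun a b c => by
  simp only [Ring.lie_def, LinearMap.sub_apply, Module.End.mul_apply, LinearMap.add_apply,
    a4_DN0, a4_DN1, a4_lX, a4_lU, Prod.mk_add_mk, Prod.mk_sub_mk, stripR_mul, a4_strip_self,
    a4_strip10, smul_zero, zero_smul, add_zero, sub_zero, Prod.mk.injEq, and_true]
  constructor <;> noncomm_ring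
theorem a4_lie_D_s : ⁅DN0 + DN1, ls⁆ = ⁅lX, ls + lU⁆ := a4_ext fun a b c => by
  simp only [Ring.lie_def, LinearMap.sub_apply, Module.End.mul_apply, LinearMap.add_apply,
    a4_DN0, a4_DN1, a4_lX, a4_lU, a4_ls, Prod.mk_add_mk, Prod.mk_sub_mk, stripR_mul, a4_strip_self,
    a4_strip01, smul_zero, zero_smul, add_zero, sub_zero, Prod.mk.injEq, and_true, a4_cf_gen_mul]
  constructor
  · noncomm_ring
  · simp only [mul_add, add_mul, mul_assoc, smul_mul_assoc, mul_smul_comm, one_mul, mul_one]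
    abel
theorem a4_lie_D_t : ⁅DN0 + DN1, lt⁆ = lU := a4_ext fun a b c => by
  simp [Ring.lie_def, a4_DN0, a4_DN1, a4_lt, a4_lU, a4_cf_gen_mul, a4_cf_mul_gen]
theorem a4_D_eN : (DN0 + DN1) eN = 0 := by
  simp [a4_DN0, a4_DN1, eN, Ring.lie_def]

theorem lam_bs2 : lam bs2 = ls + lU := by
  rw [bs2, map_add, map_lie', a4_lam0, a4_lam3, a4_lam4, a4_lie_X_t]
/-- `IsDer.lie_rep`, check on the five letters with `dAB_gen` (`stripR_mul`). -/
theorem lam_dAB (g : B5) : ⁅DN0 + DN1, lam g⁆ = lam ((dA + dB) g) := by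
  refine (isDer_dA.add isDer_dB).lie_rep lam _ (fun c => ?_) g
  obtain ⟨h0, h1, h2, h3, h4⟩ := dAB_gen
  fin_cases c
  · change ⁅_, lam bX⁆ = lam ((dA + dB) bX)
    rw [h0, map_lie', a4_lam0, a4_lam4, a4_lie_X_t, a4_lie_D_X]
  · change ⁅_, lam bY⁆ = lam ((dA + dB) bY)
    rw [h1, map_lie', a4_lam1, a4_lie_zero, a4_zero_lie]
  · change ⁅_, lam bZ⁆ = lam ((dA + dB) bZ)
    rw [h2, map_lie', a4_lam2, a4_lie_zero, a4_zero_lie]
  · change ⁅_, lam bs⁆ = lam ((dA + dB) bs)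
    rw [h3, map_add, map_lie', map_lie', map_add, map_add, lam_bs2, a4_lam0, a4_lam1, a4_lam2,
      a4_lam3, a4_lam4, add_zero, add_zero, a4_lie_s_t, zero_add, a4_lie_D_s]
  · change ⁅_, lam bt⁆ = lam ((dA + dB) bt)
    rw [h4, map_lie', a4_lam0, a4_lam4, a4_lie_X_t, a4_lie_D_t]
theorem lam_dA2 (g : B5) : lam ((dA * dA) g) = 0 := by
  rw [← isDer_dA2.lie_rep lam 0 (fun c => ?_) g, a4_zero_lie]
  obtain ⟨h0, h1, h2, h3, h4⟩ := dA2_gen
  rw [a4_zero_lie]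
  fin_cases c
  · change 0 = lam ((dA * dA) bX)
    rw [h0, map_lie', map_add, a4_lam1, a4_lam3, a4_lam4, add_zero, a4_lie_s_t]
  · change 0 = lam ((dA * dA) bY)
    rw [h1, map_add, map_lie', map_lie', map_lie', a4_lam1, a4_zero_lie, a4_zero_lie, a4_zero_lie,
      add_zero]
  · change 0 = lam ((dA * dA) bZ)
    rw [h2, map_zero]
  · change 0 = lam ((dA * dA) bs)
    rw [h3, map_add, map_lie', map_lie', map_lie', a4_lam1, a4_lam3, a4_lam4, a4_lie_s_t,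
      a4_zero_lie, a4_zero_lie, add_zero]
  · change 0 = lam ((dA * dA) bt)
    rw [h4, map_lie', map_add, a4_lam1, a4_lam3, a4_lam4, add_zero, a4_lie_s_t]
theorem lam_dB2 (g : B5) : lam ((dB * dB) g) = 0 := by
  rw [← isDer_dB2.lie_rep lam 0 (fun c => ?_) g, a4_zero_lie]
  obtain ⟨h0, h1, h2, h3, h4⟩ := dB2_gen
  have e1 : lam ⁅bs2 + bZ, bt⁆ = 0 := by
    rw [map_lie', map_add, lam_bs2, a4_lam2, a4_lam4, add_zero, a4_lie_sU_t]
  have e2 : lam ⁅bZ, bs2⁆ = 0 := by rw [map_lie', a4_lam2, a4_zero_lie]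
  rw [a4_zero_lie]
  fin_cases c
  · change 0 = lam ((dB * dB) bX)
    rw [h0, e1]
  · change 0 = lam ((dB * dB) bY)
    rw [h1, map_zero]
  · change 0 = lam ((dB * dB) bZ)
    rw [h2, map_add, e2, map_lie', map_lie', a4_lam2, a4_zero_lie, a4_zero_lie, add_zero]
  · change 0 = lam ((dB * dB) bs)
    rw [h3, map_add, map_add, map_add, e2, map_lie' lam bX, map_lie' lam ⁅bs2 + bZ, bt⁆, e1,
      map_lie', map_lie', lam_bs2, a4_lam4, a4_lie_sU_t, a4_zero_lie, a4_lie_zero, add_zero,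
      add_zero, add_zero]
  · change 0 = lam ((dB * dB) bt)
    rw [h4, e1]

/-- `g ↦ lam g eN`. -/
def a4_pi : B5 →ₗ[F2] NN := LinearMap.applyₗ eN ∘ₗ lam.toLinearMap
theorem a4_pi_apply (g : B5) : a4_pi g = lam g eN := rfl
theorem a4_pi_one : a4_pi 1 = eN := by rw [a4_pi_apply, map_one]; rfl
theorem a4_pi_mul (a g : B5) : a4_pi (a * g) = lam a (a4_pi g) := by
  rw [a4_pi_apply, map_mul]; rfl
theorem a4_pi_dAB (g : B5) : a4_pi ((dA + dB) g) = (DN0 + DN1) (a4_pi g) := by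
  rw [a4_pi_apply, ← lam_dAB, Ring.lie_def, LinearMap.sub_apply, Module.End.mul_apply,
    Module.End.mul_apply, a4_D_eN, map_zero, sub_zero]
  rfl
theorem a4_pi_dA2 (g : B5) : a4_pi ((dA * dA) g) = 0 := by
  rw [a4_pi_apply, lam_dA2]; rfl
theorem a4_pi_dB2 (g : B5) : a4_pi ((dB * dB) g) = 0 := by
  rw [a4_pi_apply, lam_dB2]; rfl
theorem a4_comm3 {x y : Module.End F2 NN} (h : ⁅y, x⁆ = 0) (c c' : Fin 3) :
    Commute (![x, y, 0] c) (![x, y, 0] c') := by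
  have h' := (lie_eq_zero_iff_commute _ _).1 h
  fin_cases c <;> fin_cases c'
  exacts [Commute.refl _, h'.symm, Commute.zero_right _, h', Commute.refl _, Commute.zero_right _,
    Commute.zero_left _, Commute.zero_left _, Commute.refl _]

/-- The exact identity in `N`: apply `g ↦ lam g eN` (`ev_intertwine`; `(DN0 + DN1) eN = 0`,
`lt * lt = 0`); the two negligible terms vanish because `lt, ls + lU, 0` (resp. `lt, ls, 0`)
commute (`ev_eq_zero_of_commute`). -/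
theorem Pull.quotN {n : ℕ} {S : FA F2 (Fin 3)} (h : Pull n S) :
    (ev3 (lX + lt) ls 0 S : Module.End F2 NN) eN
      + (ev3 (DN0 + DN1 + lt) 0 (ls + lU) S : Module.End F2 NN) eN
      + (ev3 (DN0 + DN1 + lX) ls (ls + lU) S : Module.End F2 NN) eN = 0 := by
  obtain ⟨T₁, h₁, T₂, h₂, -, -, e⟩ := h.ex
  have e' := congrArg a4_pi e
  have hA : a4_pi (termA S) = (ev3 (lX + lt) ls 0 S : Module.End F2 NN) eN := by
    rw [a4_pi_apply, termA, map_ev3, map_add, map_add, map_add, map_mul, a4_lam0, a4_lam1, a4_lam2,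
      a4_lam3, a4_lam4, a4_t_t, zero_add, add_zero]
  have hB : a4_pi (termB S) = (ev3 (DN0 + DN1 + lt) 0 (ls + lU) S : Module.End F2 NN) eN := by
    rw [termB, ← a4_pi_one]
    refine ev_intertwine a4_pi _ _ (fun c x => ?_) S 1
    fin_cases c
    · change a4_pi ((dA + dB) x + bt * x) = (DN0 + DN1) (a4_pi x) + lt (a4_pi x)
      rw [map_add, a4_pi_dAB, a4_pi_mul, a4_lam4]
    · exact a4_pi_dA2 x
    · change a4_pi ((dB * dB) x + (bs2 + bt * bt) * x) = (ls + lU) (a4_pi x)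
      rw [map_add, a4_pi_dB2, a4_pi_mul, map_add, map_mul, lam_bs2, a4_lam4, a4_t_t, add_zero,
        zero_add]
  have hC : a4_pi (termC S) = (ev3 (DN0 + DN1 + lX) ls (ls + lU) S : Module.End F2 NN) eN := by
    rw [termC, ← a4_pi_one]
    refine ev_intertwine a4_pi _ _ (fun c x => ?_) S 1
    fin_cases c
    · change a4_pi ((dA + dB) x + bX * x) = (DN0 + DN1) (a4_pi x) + lX (a4_pi x)
      rw [map_add, a4_pi_dAB, a4_pi_mul, a4_lam0]
    · change a4_pi ((dA * dA) x + (bY + bs) * x) = ls (a4_pi x)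
      rw [map_add, a4_pi_dA2, a4_pi_mul, map_add, a4_lam1, a4_lam3, zero_add, zero_add]
    · change a4_pi ((dB * dB) x + (bZ + bs2) * x) = (ls + lU) (a4_pi x)
      rw [map_add, a4_pi_dB2, a4_pi_mul, map_add, lam_bs2, a4_lam2, zero_add, zero_add]
  have hT₁ : a4_pi (ev3 bt bs2 bZ T₁) = 0 := by
    rw [a4_pi_apply, map_ev3, a4_lam4, lam_bs2, a4_lam2,
      ev_eq_zero_of_commute (a4_comm3 a4_lie_sU_t) h₁]
    rfl
  have hT₂ : a4_pi (ev3 bt bs bY T₂) = 0 := by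
    rw [a4_pi_apply, map_ev3, a4_lam4, a4_lam3, a4_lam1,
      ev_eq_zero_of_commute (a4_comm3 a4_lie_s_t) h₂]
    rfl
  rwa [map_add, map_add, map_add, map_add, hA, hB, hC, hT₁, hT₂, add_zero, add_zero,
    map_zero] at e'

/-- The filtration of `N`: `deg s = deg t = 1`, `deg X = 0`. -/
def FN (j : ℕ) : Submodule F2 NN where
  carrier := {w | w.1 ∈ fil dep j ∧ w.2.1 ∈ fil dep (j - 1) ∧ (2 ≤ j → w.2.2 = 0)}
  add_mem' := by
    rintro a b ⟨h1, h2, h3⟩ ⟨h1', h2', h3'⟩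
    exact ⟨add_mem h1 h1', add_mem h2 h2', fun h => by simp [h3 h, h3' h]⟩
  zero_mem' := ⟨zero_mem _, zero_mem _, fun _ => rfl⟩
  smul_mem' := by
    rintro c a ⟨h1, h2, h3⟩
    exact ⟨Submodule.smul_mem _ c h1, Submodule.smul_mem _ c h2, fun h => by simp [h3 h]⟩

theorem a4_mem_FN {j : ℕ} {w : NN} :
    w ∈ FN j ↔ w.1 ∈ fil dep j ∧ w.2.1 ∈ fil dep (j - 1) ∧ (2 ≤ j → w.2.2 = 0) := Iff.rfl
theorem a4_FN_anti : Antitone FN := fun _ _ h _ hw =>
  ⟨fil_anti _ h hw.1, fil_anti _ (Nat.sub_le_sub_right h 1) hw.2.1, fun h2 => hw.2.2 (h2.trans h)⟩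
theorem a4_gX_fil : (gX : A2) ∈ fil dep 0 := mem_fil_zero _ _
theorem a4_gY_fil : (gY : A2) ∈ fil dep 1 := mem_fil_of_hom (gen_mem_hom dep 1) le_rfl
theorem a4_X_mul {j : ℕ} {f : A2} (h : f ∈ fil dep j) : gX * f ∈ fil dep j := by
  simpa using mul_mem_fil a4_gX_fil h
theorem a4_mul_X {j : ℕ} {f : A2} (h : f ∈ fil dep j) : f * gX ∈ fil dep j :=
  mul_mem_fil h a4_gX_fil
theorem a4_strip_fil (c : Fin 2) {j : ℕ} {f : A2} (h : f ∈ fil dep j) :
    stripR c f ∈ fil dep (j - dep c) := by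
  intro w hw
  rw [cf_stripR]
  refine h _ fun h' => hw ?_
  have h'' : j ≤ wdeg dep (w * FreeMonoid.of c) := h'
  rw [wdeg_mul, wdeg_of] at h''
  change j - dep c ≤ wdeg dep w
  omega
theorem a4_c_fil {j : ℕ} {w : NN} (h : w ∈ FN j) : w.2.2 • (1 : A2) ∈ fil dep (j - 1) := by
  by_cases hj : 2 ≤ j
  · rw [h.2.2 hj, zero_smul]; exact zero_mem _
  · rw [show j - 1 = 0 by omega]; exact mem_fil_zero _ _
theorem a4_cf_fil {j : ℕ} {f : A2} (h : f ∈ fil dep j) (hj : 1 ≤ j) : cf 1 f = 0 :=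
  h 1 (show ¬ j ≤ 0 by omega)
theorem a4_FN_lX {j : ℕ} {w : NN} (h : w ∈ FN j) : lX w ∈ FN j :=
  ⟨a4_X_mul h.1, add_mem (a4_X_mul h.2.1) (a4_c_fil h), fun _ => rfl⟩
theorem a4_FN_DN0 {j : ℕ} {w : NN} (h : w ∈ FN j) : DN0 w ∈ FN j :=
  ⟨sub_mem (a4_X_mul h.1) (a4_mul_X h.1),
    add_mem (add_mem (a4_X_mul h.2.1) (a4_mul_X (a4_strip_fil 1 h.1))) (a4_c_fil h), fun _ => rfl⟩
theorem a4_FN_lt {j : ℕ} {w : NN} (h : w ∈ FN j) : lt w ∈ FN (j + 1) :=
  ⟨zero_mem _, zero_mem _, fun hj => a4_cf_fil h.1 (by omega)⟩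
theorem a4_FN_DN1 {j : ℕ} {w : NN} (h : w ∈ FN j) : DN1 w ∈ FN (j + 1) :=
  ⟨zero_mem _, a4_strip_fil 0 h.1, fun _ => rfl⟩
theorem a4_FN_ls {j : ℕ} {w : NN} (h : w ∈ FN j) : ls w ∈ FN (j + 1) :=
  ⟨fil_anti _ (by omega) (mul_mem_fil a4_gY_fil h.1),
    fil_anti _ (by omega) (mul_mem_fil a4_gY_fil h.2.1), fun _ => rfl⟩
theorem a4_FN_lU {j : ℕ} {w : NN} (h : w ∈ FN j) : lU w ∈ FN (j + 1) := by
  refine ⟨zero_mem _, ?_, fun _ => rfl⟩
  change cf 1 w.1 • (1 : A2) ∈ fil dep j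
  rcases Nat.eq_zero_or_pos j with rfl | hj
  · exact mem_fil_zero _ _
  · rw [a4_cf_fil h.1 hj, zero_smul]; exact zero_mem _
theorem a4_lead {d : ℕ} {S : FA F2 (Fin 3)} (hd : S ∈ fil dep3 d) {x x' y z : Module.End F2 NN}
    (hx : ∀ j, ∀ w ∈ FN j, x w ∈ FN j) (hx' : ∀ j, ∀ w ∈ FN j, x' w - x w ∈ FN (j + 1))
    (hy : ∀ j, ∀ w ∈ FN j, y w ∈ FN (j + 1)) (hz : ∀ j, ∀ w ∈ FN j, z w ∈ FN (j + 1)) :
    (ev3 x' y z S : Module.End F2 NN) eN - (ev3 x y z (proj dep3 d S) : Module.End F2 NN) eN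
      ∈ FN (d + 1) := by
  have he : eN ∈ FN 0 := ⟨mem_fil_zero _ _, mem_fil_zero _ _, fun _ => rfl⟩
  have := ev_op_lead FN a4_FN_anti dep3 ![x', y, z] ![x, y, z] (fun c j w hw => ?_)
    (fun c j w hw => ?_) hd he
  · rwa [zero_add] at this
  · fin_cases c
    exacts [hx j w hw, hy j w hw, hz j w hw]
  · fin_cases c
    · exact hx' j w hw
    · change y w - y w ∈ _
      rw [sub_self]; exact zero_mem _
    · change z w - z w ∈ _
      rw [sub_self]; exact zero_mem _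

/-- Leading terms (`ev_op_lead` three times): `lX`, `DN0` preserve `FN`; `lt`, `DN1`, `ls`, `lU`
raise it by one. -/
theorem Pull.leadN {n d : ℕ} {S : FA F2 (Fin 3)} (h : Pull n S) (hd : S ∈ fil dep3 d) :
    (ev3 lX ls 0 (proj dep3 d S) : Module.End F2 NN) eN
      + (ev3 DN0 0 (ls + lU) (proj dep3 d S) : Module.End F2 NN) eN
      + (ev3 (DN0 + lX) ls (ls + lU) (proj dep3 d S) : Module.End F2 NN) eN ∈ FN (d + 1) := by
  have h0 : ∀ j, ∀ w ∈ FN j, (0 : Module.End F2 NN) w ∈ FN (j + 1) := fun _ _ _ => zero_mem _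
  have hs : ∀ j, ∀ w ∈ FN j, ls w ∈ FN (j + 1) := fun _ _ => a4_FN_ls
  have hsU : ∀ j, ∀ w ∈ FN j, (ls + lU) w ∈ FN (j + 1) := fun _ _ hw =>
    add_mem (a4_FN_ls hw) (a4_FN_lU hw)
  have hA := a4_lead hd (x := lX) (x' := lX + lt) (fun _ _ => a4_FN_lX) (fun j w hw => by
    rw [LinearMap.add_apply, add_sub_cancel_left]; exact a4_FN_lt hw) hs h0
  have hB := a4_lead hd (x := DN0) (x' := DN0 + DN1 + lt) (fun _ _ => a4_FN_DN0) (fun j w hw => by
    rw [add_assoc, LinearMap.add_apply, add_sub_cancel_left]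
    exact add_mem (a4_FN_DN1 hw) (a4_FN_lt hw)) h0 hsU
  have hC := a4_lead hd (x := DN0 + lX) (x' := DN0 + DN1 + lX)
    (fun _ _ hw => add_mem (a4_FN_DN0 hw) (a4_FN_lX hw)) (fun j w hw => by
    rw [add_right_comm, LinearMap.add_apply, add_sub_cancel_left]
    exact a4_FN_DN1 hw) hs hsU
  have hsum := neg_mem (add_mem (add_mem hA hB) hC)
  have hq := h.quotN
  convert hsum using 1
  rw [← sub_zero (_ + _ + _), ← hq]
  abel

theorem termA_snd (f : FA F2 (Fin 3)) : ((ev3 lX ls 0 f : Module.End F2 NN) eN).2.1 = 0 := by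
  let W : Submodule F2 NN := LinearMap.ker (LinearMap.snd F2 A2 (A2 × F2))
  have hW : ∀ w : NN, w ∈ W ↔ w.2 = 0 := fun w => Iff.rfl
  have := ev_mem_of_stable W ![lX, ls, 0] (fun c w hw => ?_) f (x := eN) rfl
  · rw [(hW _).1 this]; rfl
  · rw [hW] at hw ⊢
    fin_cases c
    · change (lX w).2 = 0
      simp [a4_lX, hw]
    · change (ls w).2 = 0
      simp [a4_ls, hw]
    · rfl

theorem a4_E (w : NN) : (DN0 + lX) w = (w.1 * gX, stripR 1 w.1 * gX, 0) := by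
  rw [LinearMap.add_apply, a4_DN0, a4_lX, Prod.mk_add_mk, Prod.mk_add_mk, add_zero, Ring.lie_def,
    sub_eq_add_F2]
  congr 1
  · rw [add_right_comm, add_self_F2, zero_add]
  · congr 1
    have h1 := add_self_F2 (gX * w.2.1 + w.2.2 • (1 : A2))
    calc _ = (gX * w.2.1 + w.2.2 • (1 : A2) + (gX * w.2.1 + w.2.2 • (1 : A2)))
          + stripR 1 w.1 * gX := by abel
      _ = _ := by rw [h1, zero_add]
theorem a4_cf_pow (c : Fin 2) {i : ℕ} (hi : i ≠ 0) : cf 1 ((gen c : A2) ^ i) = 0 := by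
  obtain ⟨i, rfl⟩ := Nat.exists_eq_succ_of_ne_zero hi
  rw [pow_succ, a4_cf_mul_gen]
theorem a4_word (w : FreeMonoid (Fin 3)) : ∃ a : F2, (wdeg dep3 w = 0 → a = 0) ∧
    (ev3 (DN0 + lX) ls (ls + lU) (wd w : FA F2 (Fin 3)) : Module.End F2 NN) eN =
      (gY ^ wdeg dep3 w * gX ^ wdeg ![1, 0, 0] w,
        a • (gY ^ (wdeg dep3 w - 1) * gX ^ min (wdeg ![1, 0, 0] w) 1), 0) := by
  induction w using FreeMonoid.inductionOn' with
  | one => exact ⟨0, fun _ => rfl, by simp [eN]⟩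
  | of_mul c w ih =>
    obtain ⟨a, ha, ih⟩ := ih
    rw [wd_mul, wd_of, map_mul, ev_gen, Module.End.mul_apply, ih, wdeg_mul, wdeg_mul, wdeg_of,
      wdeg_of]
    generalize wdeg dep3 w = i at ha ⊢
    generalize wdeg ![1, 0, 0] w = j
    have hs : (gY : A2) * (a • (gY ^ (i - 1) * gX ^ min j 1)) = a • (gY ^ i * gX ^ min j 1) := by
      rcases Nat.eq_zero_or_pos i with rfl | hi
      · simp [ha rfl]
      · rw [mul_smul_comm, ← mul_assoc, ← pow_succ', Nat.sub_add_cancel hi]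
    fin_cases c
    · change ∃ a' : F2, (0 + i = 0 → a' = 0) ∧ (DN0 + lX) _ =
        (gY ^ (0 + i) * gX ^ (1 + j), a' • (gY ^ (0 + i - 1) * gX ^ min (1 + j) 1), 0)
      rw [a4_E, zero_add, show min (1 + j) 1 = 1 by omega, pow_one, add_comm 1 j, pow_succ,
        ← mul_assoc]
      rcases Nat.eq_zero_or_pos j with rfl | hj
      · rcases Nat.eq_zero_or_pos i with rfl | hi
        · exact ⟨0, fun _ => rfl, by simp⟩
        · obtain ⟨i, rfl⟩ := Nat.exists_eq_succ_of_ne_zero hi.ne'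
          refine ⟨1, fun h => absurd h (Nat.succ_ne_zero i), ?_⟩
          simp [pow_succ]
      · obtain ⟨j, rfl⟩ := Nat.exists_eq_succ_of_ne_zero hj.ne'
        refine ⟨0, fun _ => rfl, ?_⟩
        rw [pow_succ, ← mul_assoc, stripR_mul_gen_ne (by decide), zero_mul, zero_smul]
    · change ∃ a' : F2, (1 + i = 0 → a' = 0) ∧ ls _ =
        (gY ^ (1 + i) * gX ^ (0 + j), a' • (gY ^ (1 + i - 1) * gX ^ min (0 + j) 1), 0)
      refine ⟨a, fun h => by omega, ?_⟩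
      rw [a4_ls, zero_add, Nat.add_sub_cancel_left, hs, add_comm 1 i, pow_succ', mul_assoc]
    · change ∃ a' : F2, (1 + i = 0 → a' = 0) ∧ (ls + lU) _ =
        (gY ^ (1 + i) * gX ^ (0 + j), a' • (gY ^ (1 + i - 1) * gX ^ min (0 + j) 1), 0)
      refine ⟨a + cf 1 ((gY : A2) ^ i * gX ^ j), fun h => by omega, ?_⟩
      rw [LinearMap.add_apply, a4_ls, a4_lU, Prod.mk_add_mk, Prod.mk_add_mk, add_zero, add_zero,
        zero_add, Nat.add_sub_cancel_left, hs, add_comm 1 i, pow_succ', mul_assoc, add_smul]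
      congr 3
      rcases Nat.eq_zero_or_pos i with rfl | hi
      · rcases Nat.eq_zero_or_pos j with rfl | hj
        · simp
        · rw [cf_one_mul, a4_cf_pow 0 hj.ne', mul_zero, zero_smul, zero_smul]
      · rw [cf_one_mul, a4_cf_pow 1 hi.ne', zero_mul, zero_smul, zero_smul]

/-- `DN0 + lX` acts by `(w₀, w₁, c) ↦ (w₀ X, (stripR 1 w₀) X, 0)`.  After a word with `i` letters
`Y, Z` and `j` letters `X` the state is `(s^i X^j, w₁, 0)` with `w₁ = 0` if `i = 0`,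
`w₁ ∈ F s^(i-1)` if `j = 0` and `w₁ ∈ F s^(i-1) X` if `j ≥ 1`. -/
theorem termC_snd {d : ℕ} {f : FA F2 (Fin 3)} (hf : f ∈ hom dep3 d) (hX : f ∈ fil ![1, 0, 0] 1) :
    ∃ c : F2, ((ev3 (DN0 + lX) ls (ls + lU) f : Module.End F2 NN) eN).2.1
      = c • (gY ^ (d - 1) * gX) := by
  have hf' : f ∈ (supp (fun w => wdeg dep3 w = d ∧ 1 ≤ wdeg ![1, 0, 0] w) :
      Submodule F2 (FA F2 (Fin 3))) := by
    rw [← supp_inf]; exact ⟨hf, hX⟩
  refine supp_induction (q := fun f => ∃ c : F2,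
    ((ev3 (DN0 + lX) ls (ls + lU) f : Module.End F2 NN) eN).2.1 = c • (gY ^ (d - 1) * gX)) hf'
    (fun w hw => ?_) ⟨0, by simp⟩ ?_ ?_
  · obtain ⟨a, -, e⟩ := a4_word w
    refine ⟨a, ?_⟩
    rw [e, hw.1, min_eq_right hw.2, pow_one]
  · rintro a b ⟨c, hc⟩ ⟨c', hc'⟩
    refine ⟨c + c', ?_⟩
    rw [map_add, LinearMap.add_apply, Prod.snd_add, Prod.fst_add, hc, hc', add_smul]
  · rintro r a ⟨c, hc⟩
    refine ⟨r * c, ?_⟩
    rw [map_smul, LinearMap.smul_apply, Prod.smul_snd, Prod.smul_fst, hc, mul_smul]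

/-- The grading used for `termB`. -/
def a4_G (j : ℕ) : Submodule F2 NN :=
  (hom dep j : Submodule F2 A2).prod
    ((supp (fun w => wdeg dep w + 1 = j) : Submodule F2 A2).prod ⊥)
theorem a4_mem_G {j : ℕ} {w : NN} : w ∈ a4_G j ↔ w.1 ∈ hom dep j ∧
    w.2.1 ∈ (supp (fun w => wdeg dep w + 1 = j) : Submodule F2 A2) ∧ w.2.2 = 0 := Iff.rfl

theorem termB_snd_mem {d : ℕ} {q : A2} (hq : q ∈ hom dep d) :
    ((ev2 DN0 (ls + lU) q : Module.End F2 NN) eN).2.1 ∈ hom dep (d - 1) := by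
  have hX : (gX : A2) ∈ hom dep 0 := gen_mem_hom dep 0
  have hY : (gY : A2) ∈ hom dep 1 := gen_mem_hom dep 1
  have he : eN ∈ a4_G 0 := ⟨one_mem_hom _, zero_mem _, rfl⟩
  have := ev_op_mem_graded a4_G dep ![DN0, ls + lU] (fun c j w hw => ?_) hq he
  · rw [zero_add] at this
    exact supp_mono (fun w hw => by omega) this.2.1
  · obtain ⟨h1, h2, h3⟩ := a4_mem_G.1 hw
    fin_cases c
    · change DN0 w ∈ a4_G j
      rw [a4_mem_G, a4_DN0]
      refine ⟨by simpa using lie_mem_hom hX h1, ?_, rfl⟩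
      rw [h3, zero_smul, add_zero]
      refine add_mem (mul_mem_supp (fun u v hu hv => ?_) hX h2)
        (mul_mem_supp (p := fun w => wdeg dep w + 1 = j) (fun u v hu hv => ?_) ?_ hX)
      · rw [wdeg_mul]; omega
      · rw [wdeg_mul]; omega
      · intro u hu
        rw [cf_stripR]
        refine h1 _ fun h' => hu ?_
        have h'' : wdeg dep (u * FreeMonoid.of 1) = j := h'
        rwa [wdeg_mul, wdeg_of] at h''
    · change (ls + lU) w ∈ a4_G (j + 1)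
      rw [a4_mem_G, LinearMap.add_apply, a4_ls, a4_lU, Prod.mk_add_mk, Prod.mk_add_mk, add_zero,
        add_zero]
      refine ⟨add_comm 1 j ▸ mul_mem_hom hY h1, add_mem (mul_mem_supp (fun u v hu hv => ?_) hY h2)
        ?_, rfl⟩
      · rw [wdeg_mul]; omega
      · rcases Nat.eq_zero_or_pos j with rfl | hj
        · exact Submodule.smul_mem _ _ (wd_mem_supp (w := 1) rfl)
        · rw [h1 1 (show ¬ 0 = j by omega), zero_smul]; exact zero_mem _

theorem a4_wdeg (w : FreeMonoid (Fin 3)) :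
    wdeg wt3 w = wdeg ![1, 0, 0] w + 2 * wdeg dep3 w := by
  induction w using FreeMonoid.inductionOn' with
  | one => rfl
  | of_mul c w ih =>
    rw [wdeg_mul, wdeg_mul, wdeg_mul, wdeg_of, wdeg_of, wdeg_of, ih]
    fin_cases c <;> simp [wt3, dep3] <;> omega

/-- **(A3), first half.** `ev3 DN0 0 (ls+lU) S_d = ev2 DN0 (ls+lU) q` with
`q = killZ (tau3 S_d) = proj dep d (killZ S)`; all words of `S_d` contain `X` since `2d < n`;
compare the components of degree `d - 1`. -/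
theorem Pull.lead_eq {n d : ℕ} {S : FA F2 (Fin 3)} (h : Pull n S) (hw : S ∈ hom wt3 n)
    (hτ : tau3 S = S) (hd : S ∈ fil dep3 d) (h1 : 1 ≤ d) (h2 : 2 * d < n) :
    ∃ c : F2, ((ev2 DN0 (ls + lU) (proj dep d (killZ S)) : Module.End F2 NN) eN).2.1
      = c • (gY ^ (d - 1) * gX) := by
  have hl := h.leadN hd
  have hSd : proj dep3 d S ∈ hom dep3 d := proj_mem_hom _ _ _
  have hSw : proj dep3 d S ∈ hom wt3 n := proj_mem_hom_of _ hw
  have hX : proj dep3 d S ∈ fil ![1, 0, 0] 1 := by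
    intro w hw'
    by_cases e : wdeg dep3 w = d
    · refine hSw w fun e' => hw' ?_
      have := a4_wdeg w
      omega
    · exact hSd w e
  have hτ' : tau3 (proj dep3 d S) = proj dep3 d S := by
    rw [tau3, ← proj_ev (δ := dep3) (δ' := dep3) (fun c => ?_)]
    · exact congrArg _ hτ
    · fin_cases c
      exacts [gen_mem_hom dep3 0, gen_mem_hom dep3 2, gen_mem_hom dep3 1]
  have hB : (ev3 DN0 0 (ls + lU) (proj dep3 d S) : Module.End F2 NN) =
      ev2 DN0 (ls + lU) (proj dep d (killZ S)) := by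
    rw [proj_killZ, killZ, map_ev3]
    conv_lhs => rw [← hτ', tau3, map_ev3]
    simp only [ev_gen, map_zero]
    rfl
  obtain ⟨c, hc⟩ := termC_snd hSd hX
  have h3 := hl.2.1
  rw [Prod.snd_add, Prod.snd_add, Prod.fst_add, Prod.fst_add, termA_snd, zero_add, hc, hB,
    Nat.add_sub_cancel] at h3
  have h4 : c • ((gY : A2) ^ (d - 1) * gX) ∈ hom dep (d - 1) := by
    have := mul_mem_hom (pow_mem_hom (gen_mem_hom (k := F2) dep 1) (d - 1))
      (gen_mem_hom (k := F2) dep 0)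
    exact Submodule.smul_mem _ _ (by simpa [dep] using this)
  have h5 := eq_zero_of_hom_of_fil
    (add_mem (termB_snd_mem (proj_mem_hom dep d (killZ S))) h4) h3 (by omega)
  exact ⟨-c, by rw [neg_smul]; exact eq_neg_of_add_eq_zero_left h5⟩

end Crest.Agent.R010
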