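import Crest.Agent.R010.A4

/-! # Row 10, Theorem A, step 5: only odd letters occur -/

set_option autoImplicit false

noncomputable section

namespace Crest.Agent.R010

open Classical in
/-- `1 ↦ (1,0,0)`, `W e_j ↦ (κ(W e_j), (j+1) κ(W) X^j, 0)`. -/
def jN : FA F2 ℕ →ₗ[F2] NN :=
  linOf (fun w => (kapL F2 (wd w),
    match w.toList.getLast? with
    | none => 0
    | some j => ((j + 1 : ℕ) : F2) • (kapL F2 (wd (FreeMonoid.ofList w.toList.dropLast)) * gX ^ j),
    0))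

theorem a5_kap_gen (j : ℕ) : kapL F2 (gen j) = sL F2 j := ev_gen _ _

theorem a5_cf_sL (j : ℕ) : cf 1 (sL F2 j) = 0 :=
  mem_fil_one_iff.1 (LieS_le_fil_one (sL_mem_LieS j))

theorem jN_one : jN 1 = eN := by
  rw [← wd_one, jN, linOf_wd]
  simp [eN]
theorem jN_mul_gen (W : FA F2 ℕ) (j : ℕ) :
    jN (W * gen j) = (kapL F2 (W * gen j), ((j + 1 : ℕ) : F2) • (kapL F2 W * gX ^ j), 0) := by
  refine induction_wd W (fun w => ?_) (by simp; rfl) (fun a b ha hb => ?_) (fun c a ha => ?_)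
  · rw [← wd_of, ← wd_mul, jN, linOf_wd]
    simp
  · rw [add_mul, map_add, ha, hb]
    simp [add_mul]
  · rw [smul_mul_assoc, map_smul, ha]
    simp [smul_comm c]
/-- `ξ(W e_j) = ξ(W) e_j + W e_{j+1}`, `κ ξ = ad X κ`, `stripR 1 (κ W · s_j) = κ W · X^j`. -/
theorem jN_xi (g : FA F2 ℕ) : jN (xi F2 g) = DN0 (jN g) := by
  refine induction_right g ?_ (by simp) (fun j W _ => ?_) (fun a b ha hb => ?_) (fun c a ha => ?_)
  · rw [jN_one, xi, der_one, map_zero]
    simp [DN0, eN, lie_def']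
    rfl
  · have hξ : IsDer (xi F2) := isDer_der _
    have h1 : xi F2 (gen j) = gen (j + 1) := der_gen _ _
    have h2 : stripR 1 (kapL F2 (W * gen j)) = kapL F2 W * gX ^ j := by
      rw [map_mul, a5_kap_gen, stripR_mul, stripR_sL, a5_cf_sL, zero_smul, add_zero]
    have h3 := kapL_xi (W * gen j)
    rw [hξ, h1, map_add] at h3
    rw [hξ, h1, map_add, jN_mul_gen, jN_mul_gen, jN_mul_gen]
    refine Prod.ext h3 (Prod.ext ?_ (by simp [DN0]))
    change ((j + 1 : ℕ) : F2) • (kapL F2 (xi F2 W) * gX ^ j) +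
      ((j + 1 + 1 : ℕ) : F2) • (kapL F2 W * gX ^ (j + 1)) =
      gX * (((j + 1 : ℕ) : F2) • (kapL F2 W * gX ^ j)) + stripR 1 (kapL F2 (W * gen j)) * gX +
        (0 : F2) • 1
    rw [h2, kapL_xi, lie_def', Nat.cast_add (j + 1), Nat.cast_one, add_smul, one_smul, zero_smul,
      add_zero, mul_smul_comm, sub_mul, smul_sub, mul_assoc, mul_assoc, mul_assoc, ← pow_succ',
      ← pow_succ]
    abel
  · rw [map_add, map_add, ha, hb, map_add, map_add]
  · rw [map_smul, map_smul, ha, map_smul, map_smul]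
theorem jN_gen_zero_mul (g : FA F2 ℕ) : jN (gen 0 * g) = (ls + lU) (jN g) := by
  refine induction_right g ?_ (by simp) (fun j W _ => ?_) (fun a b ha hb => ?_) (fun c a ha => ?_)
  · rw [mul_one, ← one_mul (gen 0), jN_mul_gen, jN_one, one_mul, a5_kap_gen, elim_sL_zero]
    have : cf 1 (1 : A2) = 1 := cf_wd_self 1
    simp [ls, lU, eN, this]
  · rw [← mul_assoc, jN_mul_gen, jN_mul_gen]
    have h0 : kapL F2 (gen 0) = gY := a5_kap_gen 0
    have h1 : cf 1 (kapL F2 W * kapL F2 (gen j)) = 0 := by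
      rw [cf_one_mul, a5_kap_gen, a5_cf_sL, mul_zero]
    simp [ls, lU, h0, h1, mul_assoc]
  · rw [mul_add, map_add, ha, hb, map_add, map_add]
  · rw [mul_smul_comm, map_smul, ha, map_smul, map_smul]
/-- With `μ` from `exists_mu`: `μ_j` of the second component is `(j+1) stripR j g`. -/
theorem mu_jN {μ : ℕ → (A2 →ₗ[F2] FA F2 ℕ)}
    (hμ : ∀ (j i : ℕ) (W : FA F2 ℕ), μ j (kapL F2 W * gX ^ i) = if i = j then W else 0)
    (j : ℕ) (g : FA F2 ℕ) : μ j (jN g).2.1 = ((j + 1 : ℕ) : F2) • stripR j g := by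
  refine induction_right g ?_ (by simp) (fun i W _ => ?_) (fun a b ha hb => ?_) (fun c a ha => ?_)
  · rw [jN_one]
    simp [eN]
  · rw [jN_mul_gen]
    change μ j (((i + 1 : ℕ) : F2) • (kapL F2 W * gX ^ i)) = _
    rw [map_smul, hμ]
    by_cases h : i = j
    · subst h
      rw [if_pos rfl, stripR_mul_gen_self]
    · rw [if_neg h, stripR_mul_gen_ne h, smul_zero, smul_zero]
  · rw [map_add, Prod.snd_add, Prod.fst_add, map_add, ha, hb, map_add, smul_add]
  · rw [map_smul, Prod.smul_snd, Prod.smul_fst, map_smul, ha, map_smul, smul_comm]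

/-- **(A3), second half.** Let `q̂ = q(ξ, L_{e_0}) 1` (`lazard2`: Lie, `κ q̂ = q`).  Then
`jN q̂ = q(DN0, ls + lU) eN`; for even `j` we get `stripR j q̂ = μ_j (c s^(d-1) X) = 0`
(`s^(d-1) X = κ(e_0^(d-1)) X^1`).  By `elim`, `q̂` only involves odd letters:
`q̂ = ev (j ↦ e_{2j+1}) f` with `f = ev (c ↦ if c odd then e_{c/2} else 0) q̂` Lie. -/
theorem exists_kapOdd {d : ℕ} {q : A2} (hq : q ∈ LieS F2 (Fin 2)) (h1 : q ∈ fil dep 1) {c : F2}
    (h : ((ev2 DN0 (ls + lU) q : Module.End F2 NN) eN).2.1 = c • (gY ^ (d - 1) * gX)) :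
    ∃ f ∈ LieS F2 ℕ, kapOdd f = q := by
  classical
  obtain ⟨hL, hκ⟩ := lazard2 hq h1
  set Q := (ev2 (xi F2) (Lm (gen 0)) q : Module.End F2 (FA F2 ℕ)) 1 with hQ
  have hj : jN Q = (ev2 DN0 (ls + lU) q : Module.End F2 NN) eN := by
    rw [hQ, ← jN_one]
    refine ev_intertwine jN _ _ (fun i x => ?_) q 1
    fin_cases i
    · exact jN_xi x
    · exact jN_gen_zero_mul x
  obtain ⟨μ, hμ⟩ := exists_mu F2
  have hs : ∀ j, Even j → stripR j Q = 0 := by
    intro j hje
    have h2 := mu_jN hμ j Q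
    have h3 : ((j + 1 : ℕ) : F2) = 1 := by
      rw [Nat.cast_add, (ZMod.natCast_eq_zero_iff_even).2 hje, zero_add, Nat.cast_one]
    have h4 : (gY ^ (d - 1) * gX : A2) = kapL F2 (gen 0 ^ (d - 1)) * gX ^ 1 := by
      rw [map_pow, a5_kap_gen, elim_sL_zero, pow_one]
    have h5 : (1 : ℕ) ≠ j := by
      rintro rfl
      exact Nat.not_even_one hje
    rw [hj, h, h4, map_smul, hμ, if_neg h5, smul_zero, h3, one_smul] at h2
    exact h2.symm
  have he := elim Even hL hs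
  refine ⟨ev (fun i : ℕ => if Even i then 0 else (gen (i / 2) : FA F2 ℕ)) Q,
    ev_mem_LieS (fun i => ?_) hL, ?_⟩
  · split_ifs
    · exact zero_mem _
    · exact gen_mem_LieS _
  · clear_value Q
    rw [kapOdd_eq, map_ev (ev (fun j => (gen (2 * j + 1) : FA F2 ℕ))), ← hκ]
    refine congrArg (kapL F2) (Eq.trans ?_ he.symm)
    rw [killE]
    refine ev_congr (fun i => ?_) Q
    by_cases hi : Even i
    · rw [if_pos hi, if_pos hi, map_zero]
    · rw [if_neg hi, if_neg hi, ev_gen]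
      congr 1
      rw [Nat.not_even_iff] at hi
      omega

end Crest.Agent.R010
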