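import Crest.Agent.R010.Defs

/-! # Row 10: words, evaluation, gradings, filtrations -/

set_option autoImplicit false

noncomputable section

namespace Crest.Agent.R010

variable {k : Type} [CommRing k] {σ τ : Type}

/-! ### words -/

@[simp] theorem wd_one : (wd 1 : FA k σ) = 1 := rfl

theorem wd_mul (u v : FreeMonoid σ) : (wd (u * v) : FA k σ) = wd u * wd v := by
  simp [wd, MonoidAlgebra.single_mul_single]

@[simp] theorem wd_of (c : σ) : (wd (FreeMonoid.of c) : FA k σ) = gen c := rfl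

theorem cf_apply (w : FreeMonoid σ) (f : FA k σ) : cf w f = f.coeff w := rfl

open Classical in
theorem cf_wd (w u : FreeMonoid σ) : cf w (wd u : FA k σ) = if u = w then 1 else 0 := by
  simp [cf_apply, wd, Finsupp.single_apply]

@[simp] theorem cf_wd_self (w : FreeMonoid σ) : cf w (wd w : FA k σ) = 1 := by
  simp [cf_wd]

theorem cf_wd_ne {w u : FreeMonoid σ} (h : u ≠ w) : cf w (wd u : FA k σ) = 0 := by
  simp [cf_wd, h]

theorem ext_cf {f g : FA k σ} (h : ∀ w, cf w f = cf w g) : f = g := by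
  ext w; exact h w

theorem basic1_word_ind {p : FreeMonoid σ → Prop} (w : FreeMonoid σ) (one : p 1)
    (mul_of : ∀ w c, p w → p (w * FreeMonoid.of c)) : p w := by
  have : ∀ l : List σ, p (FreeMonoid.ofList l) := by
    intro l
    induction l using List.reverseRecOn with
    | nil => exact one
    | append_singleton l c ih => exact mul_of _ c ih
  exact this w.toList

theorem eq_sum_wd (f : FA k σ) : f = ∑ w ∈ f.coeff.support, cf w f • wd w := by
  conv_lhs => rw [← MonoidAlgebra.sum_coeff_single f, Finsupp.sum]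
  refine Finset.sum_congr rfl fun w _ => ?_
  simp [wd, cf_apply]

@[elab_as_elim]
theorem induction_wd {p : FA k σ → Prop} (f : FA k σ) (hwd : ∀ w, p (wd w)) (h0 : p 0)
    (hadd : ∀ a b, p a → p b → p (a + b)) (hsmul : ∀ (c : k) a, p a → p (c • a)) : p f := by
  rw [eq_sum_wd f]
  exact Finset.sum_induction _ p hadd h0 fun w _ => hsmul _ _ (hwd w)

@[elab_as_elim]
theorem induction_left {p : FA k σ → Prop} (f : FA k σ) (h1 : p 1) (h0 : p 0)
    (hgen : ∀ c a, p a → p (gen c * a))
    (hadd : ∀ a b, p a → p b → p (a + b)) (hsmul : ∀ (c : k) a, p a → p (c • a)) : p f := by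
  refine induction_wd f (fun w => ?_) h0 hadd hsmul
  induction w using FreeMonoid.inductionOn' with
  | one => exact h1
  | of_mul c w ih => rw [wd_mul, wd_of]; exact hgen c _ ih

@[elab_as_elim]
theorem induction_right {p : FA k σ → Prop} (f : FA k σ) (h1 : p 1) (h0 : p 0)
    (hgen : ∀ c a, p a → p (a * gen c))
    (hadd : ∀ a b, p a → p b → p (a + b)) (hsmul : ∀ (c : k) a, p a → p (c • a)) : p f := by
  refine induction_wd f (fun w => ?_) h0 hadd hsmul
  induction w using basic1_word_ind with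
  | one => exact h1
  | mul_of w c ih => rw [wd_mul, wd_of]; exact hgen c _ ih

theorem lin_ext {V : Type} [AddCommGroup V] [Module k V] {φ ψ : FA k σ →ₗ[k] V}
    (h : ∀ w, φ (wd w) = ψ (wd w)) : φ = ψ := by
  refine LinearMap.ext fun f => ?_
  refine induction_wd f h (by simp) (fun a b ha hb => ?_) (fun c a ha => ?_)
  · rw [map_add, map_add, ha, hb]
  · rw [map_smul, map_smul, ha]

/-- The linear map with prescribed values on words. -/
def linOf {V : Type} [AddCommGroup V] [Module k V] (g : FreeMonoid σ → V) : FA k σ →ₗ[k] V :=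
  Finsupp.linearCombination k g ∘ₗ (MonoidAlgebra.coeffLinearEquiv k).toLinearMap

@[simp] theorem linOf_wd {V : Type} [AddCommGroup V] [Module k V] (g : FreeMonoid σ → V)
    (w : FreeMonoid σ) : linOf (k := k) g (wd w) = g w := by
  simp [linOf, wd]

/-! ### evaluation -/

section Ev

variable {R R' : Type} [Ring R] [Algebra k R] [Ring R'] [Algebra k R']

@[simp] theorem ev_gen (v : σ → R) (c : σ) : ev (k := k) v (gen c) = v c := by
  simp [ev, gen, wd]

theorem ev_wd (v : σ → R) (w : FreeMonoid σ) : ev (k := k) v (wd w) = (w.toList.map v).prod := by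
  induction w using FreeMonoid.inductionOn' with
  | one => simp
  | of_mul c w ih => rw [wd_mul, wd_of, map_mul, ev_gen, ih]; simp

theorem alg_ext {φ ψ : FA k σ →ₐ[k] R} (h : ∀ c, φ (gen c) = ψ (gen c)) : φ = ψ := by
  refine AlgHom.ext fun f => ?_
  refine induction_left f (by simp) (by simp) (fun c a ha => ?_) (fun a b ha hb => ?_)
    (fun c a ha => ?_)
  · rw [map_mul, map_mul, ha, h]
  · rw [map_add, map_add, ha, hb]
  · rw [map_smul, map_smul, ha]

theorem map_ev (φ : R →ₐ[k] R') (v : σ → R) (f : FA k σ) :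
    φ (ev v f) = ev (fun c => φ (v c)) f := by
  have : φ.comp (ev v) = ev (fun c => φ (v c)) := alg_ext fun c => by simp
  exact AlgHom.congr_fun this f

theorem map_ev2 (φ : R →ₐ[k] R') (p q : R) (f : FA k (Fin 2)) :
    φ (ev2 p q f) = ev2 (φ p) (φ q) f := by
  rw [map_ev]
  congr 2
  funext c
  fin_cases c <;> rfl

theorem map_ev3 (φ : R →ₐ[k] R') (p q r : R) (f : FA k (Fin 3)) :
    φ (ev3 p q r f) = ev3 (φ p) (φ q) (φ r) f := by
  rw [map_ev]
  congr 2
  funext c
  fin_cases c <;> rfl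

@[simp] theorem ev_gen_self (f : FA k σ) : ev (gen : σ → FA k σ) f = f := by
  have : ev (gen : σ → FA k σ) = AlgHom.id k _ := alg_ext fun c => by simp
  rw [this]; rfl

@[simp] theorem ev2_self (f : FA k (Fin 2)) : ev2 (gX : FA k (Fin 2)) gY f = f := by
  have : ev2 (gX : FA k (Fin 2)) gY = AlgHom.id k _ := alg_ext fun c => by
    fin_cases c <;> simp
  rw [this]; rfl

theorem algHom_eq_ev (φ : FA k σ →ₐ[k] R) : φ = ev (fun c => φ (gen c)) := by
  exact alg_ext fun c => by simp

theorem ev_congr {v v' : σ → R} (h : ∀ c, v c = v' c) (f : FA k σ) : ev v f = ev v' f := by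
  rw [show v = v' from funext h]

theorem commute_ev {z : R} {v : σ → R} (h : ∀ c, Commute z (v c)) (f : FA k σ) :
    Commute z (ev v f) := by
  refine induction_left f (by simp) (by simp) (fun c a ha => ?_) (fun a b ha hb => ?_)
    (fun c a ha => ?_)
  · rw [map_mul, ev_gen]; exact (h c).mul_right ha
  · rw [map_add]; exact ha.add_right hb
  · rw [map_smul]; exact ha.smul_right c

theorem ev_mem_subalgebra (S : Subalgebra k R) {v : σ → R} (h : ∀ c, v c ∈ S) (f : FA k σ) :
    ev v f ∈ S := by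
  refine induction_left f (by simp) (by simp) (fun c a ha => ?_) (fun a b ha hb => ?_)
    (fun c a ha => ?_)
  · rw [map_mul, ev_gen]; exact S.mul_mem (h c) ha
  · rw [map_add]; exact S.add_mem ha hb
  · rw [map_smul]; exact S.smul_mem ha c

theorem range_ev (v : σ → R) : (ev (k := k) v).range = Algebra.adjoin k (Set.range v) := by
  refine le_antisymm ?_ (Algebra.adjoin_le ?_)
  · rintro _ ⟨f, rfl⟩
    exact ev_mem_subalgebra _ (fun c => Algebra.subset_adjoin (Set.mem_range_self c)) f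
  · rintro _ ⟨c, rfl⟩
    exact ⟨gen c, ev_gen v c⟩

/-- `ev` at left multiplications. -/
theorem ev_Lm (v : σ → R) (f : FA k σ) :
    ev (fun c => (Lm (v c) : Module.End k R)) f = Lm (ev v f) := by
  exact (map_ev (Algebra.lmul k R) v f).symm

end Ev

section Op

variable {V W : Type} [AddCommGroup V] [Module k V] [AddCommGroup W] [Module k W]

theorem ev_intertwine (π : V →ₗ[k] W) (O : σ → Module.End k V) (O' : σ → Module.End k W)
    (h : ∀ c x, π (O c x) = O' c (π x)) (f : FA k σ) (x : V) :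
    π (ev O f x) = ev O' f (π x) := by
  refine induction_left f (by simp) (by simp) (fun c a ha => ?_) (fun a b ha hb => ?_)
    (fun c a ha => ?_)
  · rw [map_mul, map_mul, ev_gen, ev_gen, Module.End.mul_apply, Module.End.mul_apply, h, ha]
  · rw [map_add, map_add, LinearMap.add_apply, LinearMap.add_apply, map_add, ha, hb]
  · rw [map_smul, map_smul, LinearMap.smul_apply, LinearMap.smul_apply, map_smul, ha]

theorem ev_mem_of_stable (S : Submodule k V) (O : σ → Module.End k V)
    (h : ∀ c, ∀ x ∈ S, O c x ∈ S) (f : FA k σ) {x : V} (hx : x ∈ S) : ev O f x ∈ S := by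
  refine induction_left f (by simpa using hx) (by simp) (fun c a ha => ?_) (fun a b ha hb => ?_)
    (fun c a ha => ?_)
  · rw [map_mul, ev_gen, Module.End.mul_apply]; exact h c _ ha
  · rw [map_add, LinearMap.add_apply]; exact S.add_mem ha hb
  · rw [map_smul, LinearMap.smul_apply]; exact S.smul_mem c ha

end Op

/-! ### supports -/

theorem mem_supp {p : FreeMonoid σ → Prop} {f : FA k σ} :
    f ∈ supp p ↔ ∀ w, ¬ p w → cf w f = 0 := Iff.rfl

theorem wd_mem_supp {p : FreeMonoid σ → Prop} {w : FreeMonoid σ} (h : p w) :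
    (wd w : FA k σ) ∈ supp p := by
  exact fun u hu => cf_wd_ne fun e => hu (e ▸ h)

theorem supp_eq_span (p : FreeMonoid σ → Prop) :
    (supp p : Submodule k (FA k σ)) = Submodule.span k {f | ∃ w, p w ∧ f = wd w} := by
  refine le_antisymm (fun f hf => ?_) (Submodule.span_le.2 ?_)
  · rw [eq_sum_wd f]
    refine Submodule.sum_mem _ fun w hw => Submodule.smul_mem _ _ (Submodule.subset_span ?_)
    refine ⟨w, ?_, rfl⟩
    by_contra hp
    exact Finsupp.mem_support_iff.1 hw (hf w hp)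
  · rintro _ ⟨w, hw, rfl⟩
    exact wd_mem_supp hw

@[elab_as_elim]
theorem supp_induction {p : FreeMonoid σ → Prop} {q : FA k σ → Prop} {f : FA k σ}
    (hf : f ∈ supp p) (hwd : ∀ w, p w → q (wd w)) (h0 : q 0)
    (hadd : ∀ a b, q a → q b → q (a + b)) (hsmul : ∀ (c : k) a, q a → q (c • a)) : q f := by
  rw [supp_eq_span] at hf
  induction hf using Submodule.span_induction with
  | mem x hx => obtain ⟨w, hw, rfl⟩ := hx; exact hwd w hw
  | zero => exact h0
  | add a b _ _ ha hb => exact hadd a b ha hb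
  | smul c a _ ha => exact hsmul c a ha

theorem supp_mono {p q : FreeMonoid σ → Prop} (h : ∀ w, p w → q w) :
    (supp p : Submodule k (FA k σ)) ≤ supp q := by
  exact fun _ hf w hw => hf w fun hp => hw (h w hp)

theorem supp_inf (p q : FreeMonoid σ → Prop) :
    (supp p ⊓ supp q : Submodule k (FA k σ)) = supp (fun w => p w ∧ q w) := by
  ext f
  simp only [Submodule.mem_inf, mem_supp]
  constructor
  · rintro ⟨h1, h2⟩ w hw
    by_cases hp : p w
    · exact h2 w fun hq => hw ⟨hp, hq⟩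
    · exact h1 w hp
  · exact fun h => ⟨fun w hw => h w fun h' => hw h'.1, fun w hw => h w fun h' => hw h'.2⟩

theorem mul_mem_supp {p q r : FreeMonoid σ → Prop} (h : ∀ u v, p u → q v → r (u * v))
    {f g : FA k σ} (hf : f ∈ supp p) (hg : g ∈ supp q) : f * g ∈ supp r := by
  refine supp_induction hf (fun u hu => ?_) (by simp) (fun a b ha hb => ?_) (fun c a ha => ?_)
  · refine supp_induction hg (fun v hv => ?_) (by simp) (fun a b ha hb => ?_) (fun c a ha => ?_)
    · rw [← wd_mul]; exact wd_mem_supp (h u v hu hv)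
    · rw [mul_add]; exact add_mem ha hb
    · rw [mul_smul_comm]; exact Submodule.smul_mem _ c ha
  · rw [add_mul]; exact add_mem ha hb
  · rw [smul_mul_assoc]; exact Submodule.smul_mem _ c ha

/-- A linear map sends `supp p` into a submodule as soon as it does so on words. -/
theorem map_mem_of_supp {V : Type} [AddCommGroup V] [Module k V] (φ : FA k σ →ₗ[k] V)
    (S : Submodule k V) {p : FreeMonoid σ → Prop} (h : ∀ w, p w → φ (wd w) ∈ S)
    {f : FA k σ} (hf : f ∈ supp p) : φ f ∈ S := by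
  refine supp_induction hf h (by simp) (fun a b ha hb => ?_) (fun c a ha => ?_)
  · rw [map_add]; exact add_mem ha hb
  · rw [map_smul]; exact Submodule.smul_mem _ c ha

open Classical in
theorem cf_restr (p : FreeMonoid σ → Prop) (f : FA k σ) (w : FreeMonoid σ) :
    cf w (restr p f) = if p w then cf w f else 0 := by
  simp only [cf_apply, restr, LinearMap.coe_mk, AddHom.coe_mk, Finsupp.filter_apply]

open Classical in
theorem restr_wd (p : FreeMonoid σ → Prop) (w : FreeMonoid σ) :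
    restr p (wd w : FA k σ) = if p w then wd w else 0 := by
  refine ext_cf fun u => ?_
  rw [cf_restr]
  by_cases h : w = u
  · subst h
    split_ifs <;> simp
  · split_ifs <;> simp [cf_wd_ne h]

theorem restr_mem_supp (p : FreeMonoid σ → Prop) (f : FA k σ) : restr p f ∈ supp p := by
  intro w hw
  rw [cf_restr, if_neg hw]

theorem restr_mem_of_mem {p q : FreeMonoid σ → Prop} {f : FA k σ} (hf : f ∈ supp q) :
    restr p f ∈ supp q := by
  intro w hw
  rw [cf_restr, hf w hw, ite_self]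

theorem restr_eq_self {p : FreeMonoid σ → Prop} {f : FA k σ} (hf : f ∈ supp p) :
    restr p f = f := by
  refine ext_cf fun w => ?_
  rw [cf_restr]
  split_ifs with h
  · rfl
  · exact (hf w h).symm

theorem restr_eq_zero {p q : FreeMonoid σ → Prop} {f : FA k σ} (hf : f ∈ supp q)
    (h : ∀ w, q w → ¬ p w) : restr p f = 0 := by
  refine ext_cf fun w => ?_
  rw [cf_restr, map_zero]
  split_ifs with hp
  · exact hf w fun hq => h w hq hp
  · rfl

theorem restr_comm (p q : FreeMonoid σ → Prop) (f : FA k σ) :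
    restr p (restr q f) = restr q (restr p f) := by
  refine ext_cf fun w => ?_
  simp only [cf_restr]
  split_ifs <;> rfl

/-! ### degrees -/

@[simp] theorem wdeg_one (δ : σ → ℕ) : wdeg δ 1 = 0 := rfl
@[simp] theorem wdeg_of (δ : σ → ℕ) (c : σ) : wdeg δ (FreeMonoid.of c) = δ c := by
  simp [wdeg]
@[simp] theorem wdeg_mul (δ : σ → ℕ) (u v : FreeMonoid σ) :
    wdeg δ (u * v) = wdeg δ u + wdeg δ v := by
  simp [wdeg]
theorem wdeg_pow (δ : σ → ℕ) (u : FreeMonoid σ) (n : ℕ) : wdeg δ (u ^ n) = n * wdeg δ u := by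
  induction n with
  | zero => simp
  | succ n ih => rw [pow_succ, wdeg_mul, ih, Nat.succ_mul]
theorem wdeg_one_eq_length (w : FreeMonoid σ) : wdeg (one σ) w = w.toList.length := by
  simp [wdeg]

theorem basic1_wdeg_zero {w : FreeMonoid σ} : wdeg (one σ) w = 0 ↔ w = 1 := by
  rw [wdeg_one_eq_length, List.length_eq_zero_iff]
  exact ⟨fun h => FreeMonoid.toList.injective h, fun h => by rw [h]; rfl⟩

theorem basic1_cf_one_gen (c : σ) : cf 1 (gen c : FA k σ) = 0 :=
  cf_wd_ne (FreeMonoid.of_ne_one c)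

theorem wd_mem_hom (δ : σ → ℕ) (w : FreeMonoid σ) : (wd w : FA k σ) ∈ hom δ (wdeg δ w) :=
  wd_mem_supp rfl
theorem one_mem_hom (δ : σ → ℕ) : (1 : FA k σ) ∈ hom δ 0 := wd_mem_hom δ 1
theorem gen_mem_hom (δ : σ → ℕ) (c : σ) : (gen c : FA k σ) ∈ hom δ (δ c) := by
  exact wd_mem_supp (wdeg_of δ c)
theorem mul_mem_hom {δ : σ → ℕ} {m n : ℕ} {f g : FA k σ} (hf : f ∈ hom δ m) (hg : g ∈ hom δ n) :
    f * g ∈ hom δ (m + n) := by
  exact mul_mem_supp (fun u v hu hv => by rw [wdeg_mul, hu, hv]) hf hg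
theorem lie_mem_hom {δ : σ → ℕ} {m n : ℕ} {f g : FA k σ} (hf : f ∈ hom δ m) (hg : g ∈ hom δ n) :
    ⁅f, g⁆ ∈ hom δ (m + n) := by
  rw [Ring.lie_def]
  exact sub_mem (mul_mem_hom hf hg) (add_comm n m ▸ mul_mem_hom hg hf)
theorem pow_mem_hom {δ : σ → ℕ} {m : ℕ} {f : FA k σ} (hf : f ∈ hom δ m) (j : ℕ) :
    f ^ j ∈ hom δ (j * m) := by
  induction j with
  | zero => simpa using one_mem_hom δ
  | succ j ih => rw [pow_succ, Nat.succ_mul]; exact mul_mem_hom ih hf
theorem mul_mem_fil {δ : σ → ℕ} {m n : ℕ} {f g : FA k σ} (hf : f ∈ fil δ m) (hg : g ∈ fil δ n) :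
    f * g ∈ fil δ (m + n) := by
  exact mul_mem_supp (fun u v hu hv => by rw [wdeg_mul]; exact add_le_add hu hv) hf hg
theorem lie_mem_fil {δ : σ → ℕ} {m n : ℕ} {f g : FA k σ} (hf : f ∈ fil δ m) (hg : g ∈ fil δ n) :
    ⁅f, g⁆ ∈ fil δ (m + n) := by
  rw [Ring.lie_def]
  exact sub_mem (mul_mem_fil hf hg) (add_comm n m ▸ mul_mem_fil hg hf)
theorem mem_fil_zero (δ : σ → ℕ) (f : FA k σ) : f ∈ fil δ 0 := by
  exact fun w hw => absurd (Nat.zero_le _) hw
theorem fil_anti (δ : σ → ℕ) {m n : ℕ} (h : m ≤ n) : (fil δ n : Submodule k (FA k σ)) ≤ fil δ m := by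
  exact supp_mono fun w hw => h.trans hw
theorem mem_fil_of_hom {δ : σ → ℕ} {m n : ℕ} {f : FA k σ} (hf : f ∈ hom δ n) (h : m ≤ n) :
    f ∈ fil δ m := by
  exact supp_mono (fun w hw => h.trans (le_of_eq hw.symm)) hf
theorem eq_zero_of_hom_of_fil {δ : σ → ℕ} {m n : ℕ} {f : FA k σ} (hf : f ∈ hom δ m)
    (hf' : f ∈ fil δ n) (h : m < n) : f = 0 := by
  refine ext_cf fun w => ?_
  rw [map_zero]
  by_cases hw : wdeg δ w = m
  · exact hf' w (by omega)
  · exact hf w hw
theorem eq_zero_of_hom_of_hom {δ : σ → ℕ} {m n : ℕ} {f : FA k σ} (hf : f ∈ hom δ m)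
    (hf' : f ∈ hom δ n) (h : m ≠ n) : f = 0 := by
  refine ext_cf fun w => ?_
  rw [map_zero]
  by_cases hw : wdeg δ w = m
  · exact hf' w (by omega)
  · exact hf w hw
theorem eq_zero_of_mem_fil_all {δ : σ → ℕ} {f : FA k σ} (hf : ∀ n, f ∈ fil δ n) : f = 0 := by
  refine ext_cf fun w => ?_
  rw [map_zero]
  exact hf (wdeg δ w + 1) w (by omega)

theorem proj_mem_hom (δ : σ → ℕ) (n : ℕ) (f : FA k σ) : proj δ n f ∈ hom δ n :=
  restr_mem_supp _ f
theorem proj_mem_hom_of {δ δ' : σ → ℕ} {m : ℕ} (n : ℕ) {f : FA k σ} (hf : f ∈ hom δ' m) :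
    proj δ n f ∈ hom δ' m := restr_mem_of_mem hf
theorem proj_mem_fil_of {δ δ' : σ → ℕ} {m : ℕ} (n : ℕ) {f : FA k σ} (hf : f ∈ fil δ' m) :
    proj δ n f ∈ fil δ' m := restr_mem_of_mem hf
theorem proj_of_hom {δ : σ → ℕ} {n : ℕ} {f : FA k σ} (hf : f ∈ hom δ n) : proj δ n f = f :=
  restr_eq_self hf
theorem proj_of_hom_ne {δ : σ → ℕ} {m n : ℕ} {f : FA k σ} (hf : f ∈ hom δ m) (h : m ≠ n) :
    proj δ n f = 0 := by
  exact restr_eq_zero hf fun w hw => by omega
theorem proj_of_fil_lt {δ : σ → ℕ} {m n : ℕ} {f : FA k σ} (hf : f ∈ fil δ m) (h : n < m) :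
    proj δ n f = 0 := by
  exact restr_eq_zero hf fun w hw => by omega
theorem proj_comm (δ δ' : σ → ℕ) (m n : ℕ) (f : FA k σ) :
    proj δ m (proj δ' n f) = proj δ' n (proj δ m f) := restr_comm _ _ f
theorem cf_proj (δ : σ → ℕ) (w : FreeMonoid σ) (f : FA k σ) :
    cf w (proj δ (wdeg δ w) f) = cf w f := by
  rw [proj, cf_restr, if_pos rfl]
theorem mem_fil_iff {δ : σ → ℕ} {n : ℕ} {f : FA k σ} :
    f ∈ fil δ n ↔ ∀ m < n, proj δ m f = 0 := by
  refine ⟨fun hf m hm => proj_of_fil_lt hf hm, fun h w hw => ?_⟩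
  rw [← cf_proj δ w f, h _ (by omega), map_zero]
theorem sub_proj_mem_fil {δ : σ → ℕ} {n : ℕ} {f : FA k σ} (hf : f ∈ fil δ n) :
    f - proj δ n f ∈ fil δ (n + 1) := by
  intro w hw
  rw [map_sub, proj, cf_restr]
  split_ifs with h
  · exact sub_self _
  · rw [hf w (by omega), sub_zero]
theorem mem_fil_succ {δ : σ → ℕ} {n : ℕ} {f : FA k σ} (hf : f ∈ fil δ n) (h : proj δ n f = 0) :
    f ∈ fil δ (n + 1) := by
  have := sub_proj_mem_fil hf
  rwa [h, sub_zero] at this
theorem proj_eq_of_sub_mem_fil {δ : σ → ℕ} {n : ℕ} {f g : FA k σ} (h : f - g ∈ fil δ (n + 1))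
    (hg : g ∈ hom δ n) : proj δ n f = g := by
  have h1 := proj_of_fil_lt h (Nat.lt_succ_self n)
  rw [map_sub, proj_of_hom hg] at h1
  exact sub_eq_zero.1 h1
theorem exists_sum_proj (δ : σ → ℕ) (f : FA k σ) :
    ∃ N, ∀ M, N ≤ M → f = ∑ n ∈ Finset.range M, proj δ n f := by
  classical
  refine ⟨f.coeff.support.sup (wdeg δ) + 1, fun M hM => ext_cf fun w => ?_⟩
  rw [map_sum]
  simp only [proj, cf_restr]
  by_cases hw : cf w f = 0
  · simp [hw]
  · have h1 : wdeg δ w ≤ f.coeff.support.sup (wdeg δ) :=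
      Finset.le_sup (f := wdeg δ) (Finsupp.mem_support_iff.2 hw)
    rw [Finset.sum_eq_single (wdeg δ w), if_pos rfl]
    · intro m _ hm
      rw [if_neg (Ne.symm hm)]
    · intro h
      exact absurd (Finset.mem_range.2 (by omega)) h
theorem eq_zero_of_proj {δ : σ → ℕ} {f : FA k σ} (h : ∀ n, proj δ n f = 0) : f = 0 := by
  refine ext_cf fun w => ?_
  rw [← cf_proj δ w f, h]
/-- A nonzero element has a nonzero lowest component. -/
theorem exists_lowest (δ : σ → ℕ) {f : FA k σ} (hf : f ≠ 0) :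
    ∃ n, f ∈ fil δ n ∧ proj δ n f ≠ 0 := by
  classical
  have h : ∃ n, proj δ n f ≠ 0 := by
    by_contra h
    push Not at h
    exact hf (eq_zero_of_proj h)
  refine ⟨Nat.find h, mem_fil_iff.2 fun m hm => ?_, Nat.find_spec h⟩
  simpa using Nat.find_min h hm
theorem proj_mul_of_fil {δ : σ → ℕ} {m n : ℕ} {f g : FA k σ} (hf : f ∈ fil δ m)
    (hg : g ∈ fil δ n) : proj δ (m + n) (f * g) = proj δ m f * proj δ n g := by
  refine proj_eq_of_sub_mem_fil ?_ (mul_mem_hom (proj_mem_hom δ m f) (proj_mem_hom δ n g))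
  have e : f * g - proj δ m f * proj δ n g =
      (f - proj δ m f) * g + proj δ m f * (g - proj δ n g) := by
    rw [sub_mul, mul_sub]; abel
  rw [e]
  refine add_mem ?_ ?_
  · exact fil_anti δ (by omega) (mul_mem_fil (sub_proj_mem_fil hf) hg)
  · exact fil_anti δ (by omega)
      (mul_mem_fil (mem_fil_of_hom (proj_mem_hom δ m f) le_rfl) (sub_proj_mem_fil hg))
theorem proj_zero_one (f : FA k σ) : proj (one σ) 0 f = cf 1 f • 1 := by
  refine ext_cf fun w => ?_
  rw [proj, cf_restr, map_smul, ← wd_one]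
  by_cases h : w = 1
  · subst h
    simp only [wdeg_one, if_true, cf_wd_self, smul_eq_mul, mul_one]
  · rw [if_neg (fun h' => h (basic1_wdeg_zero.1 h')), cf_wd_ne (Ne.symm h), smul_zero]
theorem mem_fil_one_iff {f : FA k σ} : f ∈ fil (one σ) 1 ↔ cf 1 f = 0 := by
  refine ⟨fun h => h 1 (by simp), fun h w hw => ?_⟩
  rw [basic1_wdeg_zero.1 (by omega : wdeg (one σ) w = 0), h]
/-- A graded linear map commutes with the projections. -/
theorem proj_map {δ : σ → ℕ} {δ' : τ → ℕ} (φ : FA k σ →ₗ[k] FA k τ) (e : ℕ)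
    (h : ∀ n, ∀ f ∈ hom δ n, φ f ∈ hom δ' (n + e)) (n : ℕ) (f : FA k σ) :
    proj δ' (n + e) (φ f) = φ (proj δ n f) := by
  have : proj δ' (n + e) ∘ₗ φ = φ ∘ₗ proj δ n := by
    refine lin_ext fun w => ?_
    have h1 := h _ _ (wd_mem_hom δ w)
    simp only [LinearMap.comp_apply]
    by_cases hw : wdeg δ w = n
    · subst hw
      rw [proj_of_hom h1, proj_of_hom (wd_mem_hom δ w)]
    · rw [proj_of_hom_ne h1 (by omega), proj_of_hom_ne (wd_mem_hom δ w) hw, map_zero]
  exact LinearMap.congr_fun this f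
theorem hom_fg [Finite σ] (n : ℕ) : (hom (one σ) n : Submodule k (FA k σ)).FG := by
  rw [hom, supp_eq_span]
  refine Submodule.fg_span ?_
  refine ((List.finite_length_eq σ n).image
    (fun l => (wd (FreeMonoid.ofList l) : FA k σ))).subset ?_
  rintro _ ⟨w, hw, rfl⟩
  exact ⟨w.toList, by rwa [wdeg_one_eq_length] at hw, rfl⟩

theorem basic1_ev_wd_mem {δ : σ → ℕ} {v : σ → FA k τ} (G : ℕ → Submodule k (FA k τ))
    (h1 : 1 ∈ G 0) (hmul : ∀ m n f g, f ∈ G m → g ∈ G n → f * g ∈ G (m + n))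
    (hv : ∀ c, v c ∈ G (δ c)) (w : FreeMonoid σ) : ev v (wd w : FA k σ) ∈ G (wdeg δ w) := by
  induction w using FreeMonoid.inductionOn' with
  | one => simpa using h1
  | of_mul c w ih =>
    rw [wd_mul, wd_of, map_mul, ev_gen, wdeg_mul, wdeg_of]
    exact hmul _ _ _ _ (hv c) ih

theorem ev_mem_hom {δ : σ → ℕ} {δ' : τ → ℕ} {v : σ → FA k τ} (hv : ∀ c, v c ∈ hom δ' (δ c))
    {n : ℕ} {f : FA k σ} (hf : f ∈ hom δ n) : ev v f ∈ hom δ' n := by
  refine map_mem_of_supp (ev v).toLinearMap _ (fun w hw => ?_) hf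
  rw [← hw]
  exact basic1_ev_wd_mem (fun n => hom δ' n) (one_mem_hom δ') (fun _ _ _ _ => mul_mem_hom) hv w
theorem ev_mem_fil {δ : σ → ℕ} {δ' : τ → ℕ} {v : σ → FA k τ} (hv : ∀ c, v c ∈ fil δ' (δ c))
    {n : ℕ} {f : FA k σ} (hf : f ∈ fil δ n) : ev v f ∈ fil δ' n := by
  refine map_mem_of_supp (ev v).toLinearMap _ (fun w hw => fil_anti δ' hw ?_) hf
  exact basic1_ev_wd_mem (fun n => fil δ' n) (mem_fil_zero δ' 1) (fun _ _ _ _ => mul_mem_fil) hv w
theorem proj_ev {δ : σ → ℕ} {δ' : τ → ℕ} {v : σ → FA k τ} (hv : ∀ c, v c ∈ hom δ' (δ c))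
    (n : ℕ) (f : FA k σ) : proj δ' n (ev v f) = ev v (proj δ n f) := by
  exact proj_map (ev v).toLinearMap 0 (fun n f hf => ev_mem_hom hv hf) n f
/-- Scaling the letters scales a homogeneous element. -/
theorem ev_smul_of_hom {R : Type} [Ring R] [Algebra k R] (δ : σ → ℕ) (s : k) (v : σ → R) {n : ℕ}
    {f : FA k σ} (hf : f ∈ hom δ n) : ev (fun c => s ^ δ c • v c) f = s ^ n • ev v f := by
  refine supp_induction hf (fun w hw => ?_) (by simp) (fun a b ha hb => ?_) (fun c a ha => ?_)
  · rw [← hw]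
    clear hw
    induction w using FreeMonoid.inductionOn' with
    | one => simp
    | of_mul c w ih =>
      rw [wd_mul, wd_of, map_mul, map_mul, ev_gen, ev_gen, ih, wdeg_mul, wdeg_of, pow_add,
        smul_mul_smul_comm]
  · rw [map_add, map_add, ha, hb, smul_add]
  · rw [map_smul, map_smul, ha, smul_comm]
/-- Two evaluations agree on elements whose words only use letters where they agree. -/
theorem ev_congr_supp {R : Type} [Ring R] [Algebra k R] {v v' : σ → R} {U : σ → Prop}
    (h : ∀ c, U c → v c = v' c) {f : FA k σ} (hf : f ∈ supp (fun w => ∀ c ∈ w.toList, U c)) :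
    ev v f = ev v' f := by
  refine supp_induction hf (fun w hw => ?_) (by simp) (fun a b ha hb => ?_) (fun c a ha => ?_)
  · rw [ev_wd, ev_wd, List.map_congr_left fun c hc => h c (hw c hc)]
  · rw [map_add, map_add, ha, hb]
  · rw [map_smul, map_smul, ha]
theorem cf_one_mul (f g : FA k σ) : cf 1 (f * g) = cf 1 f * cf 1 g := by
  have h := proj_mul_of_fil (mem_fil_zero (one σ) f) (mem_fil_zero (one σ) g)
  rw [add_zero, proj_zero_one, proj_zero_one, proj_zero_one, smul_mul_smul_comm, mul_one] at h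
  have h2 := congrArg (cf (k := k) (1 : FreeMonoid σ)) h
  rw [map_smul, map_smul, ← wd_one, cf_wd_self] at h2
  simpa using h2

/-! ### operators on graded and filtered modules -/

section Filt

variable {V : Type} [AddCommGroup V] [Module k V]

theorem basic1_ev_op_wd (G : ℕ → Submodule k V) (δ : σ → ℕ) (O : σ → Module.End k V)
    (h : ∀ c j, ∀ x ∈ G j, O c x ∈ G (j + δ c)) (w : FreeMonoid σ) {j : ℕ} {x : V}
    (hx : x ∈ G j) : ev O (wd w : FA k σ) x ∈ G (j + wdeg δ w) := by
  induction w using FreeMonoid.inductionOn' with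
  | one => simpa using hx
  | of_mul c w ih =>
    rw [wd_mul, wd_of, map_mul, ev_gen, Module.End.mul_apply, wdeg_mul, wdeg_of, add_comm (δ c),
      ← add_assoc]
    exact h c _ _ ih

theorem ev_op_mem_graded (G : ℕ → Submodule k V) (δ : σ → ℕ) (O : σ → Module.End k V)
    (h : ∀ c j, ∀ x ∈ G j, O c x ∈ G (j + δ c)) {n j : ℕ} {f : FA k σ} (hf : f ∈ hom δ n)
    {x : V} (hx : x ∈ G j) : ev O f x ∈ G (j + n) := by
  refine map_mem_of_supp (LinearMap.applyₗ x ∘ₗ (ev O).toLinearMap) _ (fun w hw => ?_) hf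
  rw [← hw]
  exact basic1_ev_op_wd G δ O h w hx

theorem ev_op_mem_fil (F : ℕ → Submodule k V) (hF : Antitone F) (δ : σ → ℕ)
    (O : σ → Module.End k V) (h : ∀ c j, ∀ x ∈ F j, O c x ∈ F (j + δ c)) {n j : ℕ} {f : FA k σ}
    (hf : f ∈ fil δ n) {x : V} (hx : x ∈ F j) : ev O f x ∈ F (j + n) := by
  refine map_mem_of_supp (LinearMap.applyₗ x ∘ₗ (ev O).toLinearMap) _ (fun w hw => ?_) hf
  exact hF (Nat.add_le_add_left hw j) (basic1_ev_op_wd F δ O h w hx)

/-- **Filtration lemma**: only the leading operators and the lowest component matter. -/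
theorem ev_op_lead (F : ℕ → Submodule k V) (hF : Antitone F) (δ : σ → ℕ)
    (O O₀ : σ → Module.End k V) (h₀ : ∀ c j, ∀ x ∈ F j, O₀ c x ∈ F (j + δ c))
    (h₁ : ∀ c j, ∀ x ∈ F j, O c x - O₀ c x ∈ F (j + δ c + 1)) {n j : ℕ} {f : FA k σ}
    (hf : f ∈ fil δ n) {x : V} (hx : x ∈ F j) :
    ev O f x - ev O₀ (proj δ n f) x ∈ F (j + n + 1) := by
  have hO : ∀ c j, ∀ x ∈ F j, O c x ∈ F (j + δ c) := fun c j x hx => by
    have := add_mem (hF (Nat.le_succ _) (h₁ c j x hx)) (h₀ c j x hx)
    rwa [sub_add_cancel] at this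
  have key : ∀ w : FreeMonoid σ,
      ev O (wd w : FA k σ) x - ev O₀ (wd w : FA k σ) x ∈ F (j + wdeg δ w + 1) := by
    intro w
    induction w using FreeMonoid.inductionOn' with
    | one => simp
    | of_mul c w ih =>
      rw [wd_mul, wd_of, map_mul, map_mul, ev_gen, ev_gen, Module.End.mul_apply,
        Module.End.mul_apply, wdeg_mul, wdeg_of]
      have h1 := hO c _ _ ih
      have h2 := h₁ c _ _ (basic1_ev_op_wd F δ O₀ h₀ w hx)
      rw [map_sub] at h1
      have h3 := add_mem (hF (le_of_eq (by omega :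
        j + (δ c + wdeg δ w) + 1 = j + wdeg δ w + 1 + δ c)) h1)
        (hF (le_of_eq (by omega : j + (δ c + wdeg δ w) + 1 = j + wdeg δ w + δ c + 1)) h2)
      rwa [sub_add_sub_cancel] at h3
  have h1 : ev O (proj δ n f) x - ev O₀ (proj δ n f) x ∈ F (j + n + 1) :=
    map_mem_of_supp (LinearMap.applyₗ x ∘ₗ (ev O).toLinearMap -
      LinearMap.applyₗ x ∘ₗ (ev O₀).toLinearMap) _ (fun w hw => hw ▸ key w) (proj_mem_hom δ n f)
  have h2 := ev_op_mem_fil F hF δ O hO (sub_proj_mem_fil hf) hx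
  rw [map_sub, LinearMap.sub_apply, ← add_assoc] at h2
  have h3 := add_mem h2 h1
  rwa [sub_add_sub_cancel] at h3

end Filt

/-! ### stripping letters -/

open Classical in
/-- Strip the last letter `c`: `w c ↦ w`, other words `↦ 0`. -/
def stripR (c : σ) : FA k σ →ₗ[k] FA k σ :=
  linOf (fun w => if w.toList.getLast? = some c then wd (FreeMonoid.ofList w.toList.dropLast) else 0)

@[simp] theorem stripR_one (c : σ) : stripR c (1 : FA k σ) = 0 := by
  rw [← wd_one, stripR, linOf_wd]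
  simp
@[simp] theorem stripR_mul_gen_self (c : σ) (f : FA k σ) : stripR c (f * gen c) = f := by
  have : stripR c ∘ₗ LinearMap.mulRight k (gen c : FA k σ) = LinearMap.id := by
    refine lin_ext fun w => ?_
    rw [LinearMap.comp_apply, LinearMap.mulRight_apply, ← wd_of, ← wd_mul, stripR, linOf_wd]
    simp
  exact LinearMap.congr_fun this f
theorem stripR_mul_gen_ne {c c' : σ} (h : c' ≠ c) (f : FA k σ) : stripR c (f * gen c') = 0 := by
  have : stripR c ∘ₗ LinearMap.mulRight k (gen c' : FA k σ) = 0 := by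
    refine lin_ext fun w => ?_
    rw [LinearMap.comp_apply, LinearMap.mulRight_apply, ← wd_of, ← wd_mul, stripR, linOf_wd]
    simp [h]
  exact LinearMap.congr_fun this f
theorem stripR_mul (c : σ) (f g : FA k σ) :
    stripR c (f * g) = f * stripR c g + cf 1 g • stripR c f := by
  refine induction_right g ?_ (by simp) (fun c' a _ => ?_) (fun a b ha hb => ?_)
    (fun c' a ha => ?_)
  · rw [mul_one, stripR_one, mul_zero, zero_add, ← wd_one, cf_wd_self, one_smul]
  · rw [cf_one_mul, basic1_cf_one_gen, mul_zero, zero_smul, add_zero, ← mul_assoc]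
    by_cases h : c' = c
    · subst h
      rw [stripR_mul_gen_self, stripR_mul_gen_self]
    · rw [stripR_mul_gen_ne h, stripR_mul_gen_ne h, mul_zero]
  · rw [mul_add, map_add, map_add, map_add, ha, hb, mul_add, add_smul]
    abel
  · rw [mul_smul_comm, map_smul, map_smul, map_smul, ha, mul_smul_comm, smul_add, smul_assoc]
theorem cf_stripR (c : σ) (w : FreeMonoid σ) (f : FA k σ) :
    cf w (stripR c f) = cf (w * FreeMonoid.of c) f := by
  have : cf w ∘ₗ stripR c = cf (k := k) (w * FreeMonoid.of c) := by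
    refine lin_ext fun u => ?_
    rw [LinearMap.comp_apply]
    induction u using basic1_word_ind with
    | one =>
      rw [wd_one, stripR_one, map_zero, ← wd_one, cf_wd_ne]
      intro h
      have h2 : ([] : List σ) = w.toList ++ [c] := congrArg FreeMonoid.toList h
      simp at h2
    | mul_of u c' _ =>
      by_cases h : c' = c
      · subst h
        rw [wd_mul, wd_of, stripR_mul_gen_self, ← wd_of, ← wd_mul]
        by_cases e : u = w
        · rw [e, cf_wd_self, cf_wd_self]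
        · rw [cf_wd_ne e, cf_wd_ne fun e' => e (mul_right_cancel e')]
      · rw [wd_mul, wd_of, stripR_mul_gen_ne h, map_zero, ← wd_of, ← wd_mul, cf_wd_ne]
        intro e
        have h2 : (u.toList ++ [c']).getLast? = (w.toList ++ [c]).getLast? :=
          congrArg (fun z : FreeMonoid σ => z.toList.getLast?) e
        rw [List.getLast?_append, List.getLast?_append] at h2
        exact h (by simpa using h2)
  exact LinearMap.congr_fun this f
theorem eq_sum_stripR [Fintype σ] (f : FA k σ) :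
    f = cf 1 f • 1 + ∑ c, stripR c f * gen c := by
  refine induction_right f ?_ (by simp) (fun c' a _ => ?_) (fun a b ha hb => ?_)
    (fun c' a ha => ?_)
  · rw [← wd_one, cf_wd_self]
    simp
  · rw [cf_one_mul, basic1_cf_one_gen, mul_zero, zero_smul, zero_add, Finset.sum_eq_single c']
    · rw [stripR_mul_gen_self]
    · intro c _ h
      rw [stripR_mul_gen_ne (Ne.symm h), zero_mul]
    · simp
  · simp only [map_add, add_mul, add_smul, Finset.sum_add_distrib]
    conv_lhs => rw [ha, hb]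
    abel
  · simp only [map_smul, smul_mul_assoc, ← Finset.smul_sum, smul_assoc]
    rw [← smul_add, ← ha]
theorem stripR_mem_hom {δ : σ → ℕ} {n : ℕ} (c : σ) {f : FA k σ} (hf : f ∈ hom δ (n + δ c)) :
    stripR c f ∈ hom δ n := by
  intro w hw
  rw [cf_stripR]
  refine hf _ fun h => hw ?_
  have h' : wdeg δ (w * FreeMonoid.of c) = n + δ c := h
  rw [wdeg_mul, wdeg_of] at h'
  exact Nat.add_right_cancel h'

end Crest.Agent.R010
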