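import Crest.Agent.R010.Basic1

/-! # Row 10: derivations -/

set_option autoImplicit false

noncomputable section

namespace Crest.Agent.R010

variable {k : Type} [CommRing k] {σ τ : Type}
variable {R R' : Type} [Ring R] [Algebra k R] [Ring R'] [Algebra k R']

theorem lie_def' (a b : R) : ⁅a, b⁆ = a * b - b * a := Ring.lie_def a b

@[simp] theorem adm_apply (a b : R) : adm (k := k) a b = ⁅a, b⁆ := by
  simp [adm, Ring.lie_def]

theorem map_lie' (φ : R →ₐ[k] R') (a b : R) : φ ⁅a, b⁆ = ⁅φ a, φ b⁆ := by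
  simp [Ring.lie_def]

theorem lie_eq_zero_iff_commute (a b : R) : ⁅a, b⁆ = 0 ↔ Commute a b := by
  rw [Ring.lie_def, sub_eq_zero]; rfl

theorem lie_Lm (a b : R) : ⁅(Lm a : Module.End k R), (Lm b : Module.End k R)⁆ = Lm ⁅a, b⁆ := by
  ext x
  simp [Ring.lie_def, sub_mul, mul_assoc]

theorem lie_adm (a b : R) : ⁅(adm a : Module.End k R), (adm b : Module.End k R)⁆ = adm ⁅a, b⁆ := by
  ext x
  simp only [Ring.lie_def, LinearMap.sub_apply, Module.End.mul_apply, adm_apply]
  noncomm_ring

theorem lie_adm_Lm (a b : R) :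
    ⁅(adm a : Module.End k R), (Lm b : Module.End k R)⁆ = Lm ⁅a, b⁆ := by
  ext x
  simp only [Ring.lie_def, LinearMap.sub_apply, Module.End.mul_apply, adm_apply,
    LinearMap.mulLeft_apply]
  noncomm_ring

/-- `D` is a derivation. -/
def IsDer (D : Module.End k R) : Prop := ∀ a b, D (a * b) = D a * b + a * D b

namespace IsDer

variable {D D' : Module.End k R}

theorem map_one (h : IsDer D) : D 1 = 0 := by
  have := h 1 1
  rw [mul_one, mul_one, one_mul] at this
  exact left_eq_add.1 this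
theorem map_lie (h : IsDer D) (a b : R) : D ⁅a, b⁆ = ⁅D a, b⁆ + ⁅a, D b⁆ := by
  simp only [Ring.lie_def, map_sub, h a b, h b a]
  abel
theorem zero : IsDer (0 : Module.End k R) := by
  intro a b
  simp
theorem add (h : IsDer D) (h' : IsDer D') : IsDer (D + D') := by
  intro a b
  simp only [LinearMap.add_apply, h a b, h' a b]
  noncomm_ring
theorem sub (h : IsDer D) (h' : IsDer D') : IsDer (D - D') := by
  intro a b
  simp only [LinearMap.sub_apply, h a b, h' a b]
  noncomm_ring
theorem neg (h : IsDer D) : IsDer (-D) := by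
  intro a b
  simp only [LinearMap.neg_apply, h a b]
  noncomm_ring
theorem smul (h : IsDer D) (c : k) : IsDer (c • D) := by
  intro a b
  simp only [LinearMap.smul_apply, h a b, smul_add, smul_mul_assoc, mul_smul_comm]
theorem lie (h : IsDer D) (h' : IsDer D') : IsDer ⁅D, D'⁆ := by
  intro a b
  simp only [Ring.lie_def, LinearMap.sub_apply, Module.End.mul_apply, h a b, h' a b, map_add,
    h (D' a) b, h a (D' b), h' (D a) b, h' a (D b)]
  noncomm_ring
theorem lie_Lm (h : IsDer D) (a : R) : ⁅D, (Lm a : Module.End k R)⁆ = Lm (D a) := by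
  ext x
  simp [Ring.lie_def, h a x]
theorem lie_Rm (h : IsDer D) (a : R) : ⁅D, (Rm a : Module.End k R)⁆ = Rm (D a) := by
  ext x
  simp [Ring.lie_def, h x a]
theorem lie_adm (h : IsDer D) (a : R) : ⁅D, (adm a : Module.End k R)⁆ = adm (D a) := by
  ext x
  have := h.map_lie a x
  rw [Ring.lie_def D, LinearMap.sub_apply, Module.End.mul_apply, Module.End.mul_apply, adm_apply,
    adm_apply, adm_apply, this, add_sub_cancel_right]
/-- In characteristic two the square of a derivation is a derivation. -/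
theorem sq (h : IsDer D) (h2 : ∀ a : R, a + a = 0) : IsDer (D * D) := by
  intro a b
  simp only [Module.End.mul_apply, h a b, map_add, h (D a) b, h a (D b)]
  rw [add_assoc, ← add_assoc (D a * D b), h2, zero_add]
/-- In characteristic two `(D + L_a)² = D² + L_(D a + a²)`. -/
theorem add_Lm_sq (h : IsDer D) (h2 : ∀ a : R, a + a = 0) (a : R) :
    (D + Lm a) * (D + Lm a) = D * D + Lm (D a + a * a) := by
  ext x
  simp only [Module.End.mul_apply, LinearMap.add_apply, LinearMap.mulLeft_apply, map_add, h a x]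
  have e : D (D x) + (D a * x + a * D x) + (a * D x + a * (a * x)) =
      D (D x) + (D a + a * a) * x + (a * D x + a * D x) := by noncomm_ring
  rw [← add_zero (D (D x) + (D a + a * a) * x), ← h2 (a * D x), ← e]
  abel

end IsDer

theorem isDer_adm (a : R) : IsDer (adm a : Module.End k R) := by
  intro x y
  simp only [adm_apply, Ring.lie_def]
  noncomm_ring

/-! ### `derv`, `der` -/

theorem ev_dual (v d : σ → R) (f : FA k σ) :
    ev (fun c => (TrivSqZeroExt.inl (v c) + TrivSqZeroExt.inr (d c) : TrivSqZeroExt R R)) f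
      = TrivSqZeroExt.inl (ev v f) + TrivSqZeroExt.inr (derv v d f) := by
  refine TrivSqZeroExt.ext ?_ ?_
  · have := map_ev (TrivSqZeroExt.fstHom k R R)
      (fun c => (TrivSqZeroExt.inl (v c) + TrivSqZeroExt.inr (d c) : TrivSqZeroExt R R)) f
    simpa using this
  · simp [derv]

@[simp] theorem derv_gen (v d : σ → R) (c : σ) : derv (k := k) v d (gen c) = d c := by
  simp [derv]
@[simp] theorem derv_one (v d : σ → R) : derv (k := k) v d 1 = 0 := by
  simp [derv]
theorem derv_mul (v d : σ → R) (f g : FA k σ) :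
    derv v d (f * g) = derv v d f * ev v g + ev v f * derv v d g := by
  have h := map_mul (ev (k := k)
    (fun c => (TrivSqZeroExt.inl (v c) + TrivSqZeroExt.inr (d c) : TrivSqZeroExt R R))) f g
  rw [ev_dual, ev_dual, ev_dual] at h
  have := congrArg TrivSqZeroExt.snd h
  simpa [add_comm] using this
theorem derv_lie (v d : σ → R) (f g : FA k σ) :
    derv v d ⁅f, g⁆ = ⁅derv v d f, ev v g⁆ + ⁅ev v f, derv v d g⁆ := by
  simp only [Ring.lie_def, map_sub, derv_mul]
  abel
/-- Uniqueness of derivations along `ev v`. -/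
theorem derv_unique (v : σ → R) (D : FA k σ →ₗ[k] R)
    (h : ∀ f g, D (f * g) = D f * ev v g + ev v f * D g) : D = derv v (fun c => D (gen c)) := by
  have h1 : D 1 = 0 := by
    have := h 1 1
    rw [mul_one, map_one (ev v), mul_one, one_mul] at this
    exact left_eq_add.1 this
  refine LinearMap.ext fun f => ?_
  induction f using induction_left with
  | h1 => rw [h1, derv_one]
  | h0 => rw [map_zero, map_zero]
  | hgen c a ih => rw [h, derv_mul, derv_gen, ih]
  | hadd a b iha ihb => rw [map_add, map_add, iha, ihb]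
  | hsmul c a ih => rw [map_smul, map_smul, ih]
theorem derv_add (v d d' : σ → R) (f : FA k σ) :
    derv v (fun c => d c + d' c) f = derv v d f + derv v d' f := by
  have := derv_unique v (derv (k := k) v d + derv v d') fun f g => by
    simp only [LinearMap.add_apply, derv_mul]
    noncomm_ring
  simp only [LinearMap.add_apply, derv_gen] at this
  rw [← this, LinearMap.add_apply]
theorem derv_smul (v d : σ → R) (s : k) (f : FA k σ) :
    derv v (fun c => s • d c) f = s • derv v d f := by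
  have := derv_unique v (s • derv (k := k) v d) fun f g => by
    simp only [LinearMap.smul_apply, derv_mul, smul_add, smul_mul_assoc, mul_smul_comm]
  simp only [LinearMap.smul_apply, derv_gen] at this
  rw [← this, LinearMap.smul_apply]
theorem derv_zero (v : σ → R) (f : FA k σ) : derv v (fun _ => 0) f = 0 := by
  have := derv_unique v (0 : FA k σ →ₗ[k] R) fun f g => by simp
  simp only [LinearMap.zero_apply] at this
  rw [← this, LinearMap.zero_apply]
theorem derv_lie_right (v : σ → R) (a : R) (f : FA k σ) :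
    derv v (fun c => ⁅v c, a⁆) f = ⁅ev v f, a⁆ := by
  induction f using induction_left with
  | h1 => simp [Ring.lie_def]
  | h0 => simp [Ring.lie_def]
  | hgen c b ih =>
    rw [derv_mul, derv_gen, ih, map_mul, ev_gen]
    simp only [Ring.lie_def]
    noncomm_ring
  | hadd b c ihb ihc =>
    rw [map_add, map_add, ihb, ihc]
    simp only [Ring.lie_def]
    noncomm_ring
  | hsmul c b ih =>
    rw [map_smul, map_smul, ih]
    simp only [Ring.lie_def, smul_sub, smul_mul_assoc, mul_smul_comm]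
theorem map_derv (φ : R →ₐ[k] R') (v d : σ → R) (f : FA k σ) :
    φ (derv v d f) = derv (fun c => φ (v c)) (fun c => φ (d c)) f := by
  induction f using induction_left with
  | h1 => simp
  | h0 => simp
  | hgen c b ih => simp only [derv_mul, derv_gen, ev_gen, map_add, map_mul, ih, map_ev]
  | hadd b c ihb ihc => simp only [map_add, ihb, ihc]
  | hsmul c b ih => simp only [map_smul, ih]
theorem IsDer.map_ev {D : Module.End k R} (h : IsDer D) (v : σ → R) (f : FA k σ) :
    D (ev v f) = derv v (fun c => D (v c)) f := by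
  induction f using induction_left with
  | h1 => rw [_root_.map_one, h.map_one, derv_one]
  | h0 => simp
  | hgen c b ih => rw [map_mul, h, derv_mul, derv_gen, ih, ev_gen]
  | hadd b c ihb ihc => simp only [map_add, ihb, ihc]
  | hsmul c b ih => simp only [map_smul, ih]

@[simp] theorem der_gen (d : σ → FA k σ) (c : σ) : der d (gen c) = d c := derv_gen _ _ _
@[simp] theorem der_one (d : σ → FA k σ) : der d 1 = 0 := derv_one _ _
theorem isDer_der (d : σ → FA k σ) : IsDer (der d) := by
  intro a b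
  unfold der
  rw [derv_mul, ev_gen_self, ev_gen_self]
theorem IsDer.ext {D D' : Module.End k (FA k σ)} (h : IsDer D) (h' : IsDer D')
    (e : ∀ c, D (gen c) = D' (gen c)) : D = D' := by
  refine LinearMap.ext fun f => ?_
  have h1 := h.map_ev gen f
  have h2 := h'.map_ev gen f
  rw [ev_gen_self] at h1 h2
  rw [h1, h2, funext e]
theorem ev_der (v : σ → R) (d : σ → FA k σ) (f : FA k σ) :
    ev v (der d f) = derv v (fun c => ev v (d c)) f := by
  unfold der
  rw [map_derv]
  simp only [ev_gen]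
/-- An algebra map intertwines two derivations as soon as it does so on letters. -/
theorem IsDer.intertwine {D : Module.End k (FA k σ)} {D' : Module.End k R} (h : IsDer D)
    (h' : IsDer D') (φ : FA k σ →ₐ[k] R) (e : ∀ c, φ (D (gen c)) = D' (φ (gen c))) (f : FA k σ) :
    φ (D f) = D' (φ f) := by
  induction f using induction_left with
  | h1 => rw [h.map_one, _root_.map_one φ, h'.map_one, map_zero]
  | h0 => simp
  | hgen c b ih => rw [h, map_add, map_mul, map_mul, map_mul, h', ih, e]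
  | hadd b c ihb ihc => simp only [map_add, ihb, ihc]
  | hsmul c b ih => simp only [map_smul, ih]
/-- Module version: if `ρ` is a representation on `V` and `⁅E, ρ(c)⁆ = ρ(D c)` on letters then
`⁅E, ρ f⁆ = ρ (D f)`. -/
theorem IsDer.lie_rep {D : Module.End k (FA k σ)} (h : IsDer D) (ρ : FA k σ →ₐ[k] R) (E : R)
    (e : ∀ c, ⁅E, ρ (gen c)⁆ = ρ (D (gen c))) (f : FA k σ) : ⁅E, ρ f⁆ = ρ (D f) := by
  have := h.intertwine (isDer_adm (k := k) E) ρ (fun c => by rw [adm_apply, e]) f
  rw [this, adm_apply]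
theorem IsDer.mem_hom {D : Module.End k (FA k σ)} (h : IsDer D) {δ : σ → ℕ} {e : ℕ}
    (hd : ∀ c, D (gen c) ∈ hom δ (δ c + e)) {n : ℕ} {f : FA k σ} (hf : f ∈ hom δ n) :
    D f ∈ hom δ (n + e) := by
  refine map_mem_of_supp D _ (fun w hw => ?_) hf
  subst hw
  clear hf
  induction w using FreeMonoid.inductionOn' with
  | one => rw [wd_one, h.map_one]; exact zero_mem _
  | of_mul c w ih =>
    rw [wd_mul, wd_of, h, wdeg_mul, wdeg_of]
    refine add_mem ?_ ?_
    · rw [add_right_comm]
      exact mul_mem_hom (hd c) (wd_mem_hom δ w)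
    · rw [add_assoc]
      exact mul_mem_hom (gen_mem_hom δ c) ih
theorem IsDer.mem_fil {D : Module.End k (FA k σ)} (h : IsDer D) {δ : σ → ℕ} {e : ℕ}
    (hd : ∀ c, D (gen c) ∈ fil δ (δ c + e)) {n : ℕ} {f : FA k σ} (hf : f ∈ fil δ n) :
    D f ∈ fil δ (n + e) := by
  refine map_mem_of_supp D _ (fun w hw => ?_) hf
  refine fil_anti δ (Nat.add_le_add_right hw e) ?_
  clear hw
  induction w using FreeMonoid.inductionOn' with
  | one => rw [wd_one, h.map_one]; exact zero_mem _
  | of_mul c w ih =>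
    rw [wd_mul, wd_of, h, wdeg_mul, wdeg_of]
    refine add_mem ?_ ?_
    · rw [add_right_comm]
      exact mul_mem_fil (hd c) (mem_fil_of_hom (wd_mem_hom δ w) le_rfl)
    · rw [add_assoc]
      exact mul_mem_fil (mem_fil_of_hom (gen_mem_hom δ c) le_rfl) ih
/-- A derivation preserves a subalgebra if it maps generators into it. -/
theorem IsDer.mem_range {D : Module.End k R} (h : IsDer D) (v : σ → R)
    (hd : ∀ c, D (v c) ∈ (ev (k := k) v).range) (f : FA k σ) :
    D (ev v f) ∈ (ev (k := k) v).range := by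
  induction f using induction_left with
  | h1 => rw [_root_.map_one, h.map_one]; exact zero_mem _
  | h0 => rw [map_zero, map_zero]; exact zero_mem _
  | hgen c b ih =>
    rw [map_mul, h]
    refine add_mem (mul_mem ?_ ⟨b, rfl⟩) (mul_mem ⟨gen c, rfl⟩ ih)
    rw [ev_gen]
    exact hd c
  | hadd b c ihb ihc => rw [map_add, map_add]; exact add_mem ihb ihc
  | hsmul c b ih => rw [map_smul, map_smul]; exact Subalgebra.smul_mem _ ih c

/-! ### Ihara operators -/

@[simp] theorem Dih_gX (ψ : FA k (Fin 2)) : Dih ψ gX = 0 := by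
  simp [Dih]
@[simp] theorem Dih_gY (ψ : FA k (Fin 2)) : Dih ψ gY = ⁅(gY : FA k (Fin 2)), ψ⁆ := by
  simp [Dih]
theorem isDer_Dih (ψ : FA k (Fin 2)) : IsDer (Dih ψ) := isDer_der _
theorem Dih_add (ψ φ : FA k (Fin 2)) : Dih (ψ + φ) = Dih ψ + Dih φ := by
  refine (isDer_Dih _).ext ((isDer_Dih _).add (isDer_Dih _)) (Fin.forall_fin_two.2 ⟨?_, ?_⟩)
  · simp
  · simp only [LinearMap.add_apply, Dih_gY, Ring.lie_def]
    noncomm_ring
theorem Dih_smul (c : k) (ψ : FA k (Fin 2)) : Dih (c • ψ) = c • Dih ψ := by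
  refine (isDer_Dih _).ext ((isDer_Dih _).smul c) (Fin.forall_fin_two.2 ⟨?_, ?_⟩)
  · simp
  · simp only [LinearMap.smul_apply, Dih_gY, Ring.lie_def, smul_sub, smul_mul_assoc,
      mul_smul_comm]
@[simp] theorem nabla_one (ψ : FA k (Fin 2)) : nabla ψ 1 = ψ := by
  simp [nabla, Dih]
theorem nabla_apply (ψ f : FA k (Fin 2)) : nabla ψ f = Dih ψ f + ψ * f := by
  rfl
theorem nabla_add (ψ φ : FA k (Fin 2)) : nabla (ψ + φ) = nabla ψ + nabla φ := by
  refine LinearMap.ext fun f => ?_
  simp only [LinearMap.add_apply, nabla_apply, Dih_add]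
  noncomm_ring
theorem nabla_smul (c : k) (ψ : FA k (Fin 2)) : nabla (c • ψ) = c • nabla ψ := by
  refine LinearMap.ext fun f => ?_
  simp only [LinearMap.smul_apply, nabla_apply, Dih_smul, smul_add, smul_mul_assoc]
theorem lie_nabla (ψ φ : FA k (Fin 2)) : ⁅nabla ψ, nabla φ⁆ = nabla (ihara ψ φ) := by
  have h1 : ⁅Dih ψ, Dih φ⁆ = Dih (ihara ψ φ) := by
    refine ((isDer_Dih _).lie (isDer_Dih _)).ext (isDer_Dih _) (Fin.forall_fin_two.2 ⟨?_, ?_⟩)
    · simp [Ring.lie_def]
    · rw [Ring.lie_def (Dih ψ), LinearMap.sub_apply, Module.End.mul_apply, Module.End.mul_apply,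
        Dih_gY, Dih_gY, Dih_gY, (isDer_Dih _).map_lie, (isDer_Dih _).map_lie, Dih_gY, Dih_gY]
      simp only [ihara, Ring.lie_def]
      noncomm_ring
  refine LinearMap.ext fun f => ?_
  have h2 := LinearMap.congr_fun h1 f
  rw [Ring.lie_def, LinearMap.sub_apply, Module.End.mul_apply, Module.End.mul_apply] at h2 ⊢
  simp only [nabla_apply, map_add, isDer_Dih ψ φ f, isDer_Dih φ ψ f]
  rw [← h2]
  simp only [ihara, Ring.lie_def]
  noncomm_ring
/-- `D_ψ f` evaluated at `(p, q)`. -/
theorem ev2_Dih (p q : R) (ψ f : FA k (Fin 2)) :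
    ev2 p q (Dih ψ f) = derv ![p, q] ![0, ⁅q, ev2 p q ψ⁆] f := by
  unfold Dih
  rw [ev_der]
  congr 2
  funext c
  fin_cases c
  · simp
  · simp [map_lie']
/-- Key formula: deforming `p` by `⁅p, a⁆` and `q` by `⁅q, a + ψ(p,q)⁆`. -/
theorem derv_pair (p q a : R) (ψ f : FA k (Fin 2)) :
    derv ![p, q] ![⁅p, a⁆, ⁅q, a + ev2 p q ψ⁆] f = ⁅ev2 p q f, a⁆ + ev2 p q (Dih ψ f) := by
  rw [ev2_Dih, ← derv_lie_right, ← derv_add]
  congr 2
  funext c
  fin_cases c
  · simp
  · simp [Ring.lie_def]
    noncomm_ring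
theorem Dih_mem_hom {δ : Fin 2 → ℕ} {m n : ℕ} {ψ f : FA k (Fin 2)} (hψ : ψ ∈ hom δ m)
    (hf : f ∈ hom δ n) : Dih ψ f ∈ hom δ (n + m) := by
  refine (isDer_Dih ψ).mem_hom (Fin.forall_fin_two.2 ⟨?_, ?_⟩) hf
  · rw [Dih_gX]; exact zero_mem _
  · rw [Dih_gY]; exact lie_mem_hom (gen_mem_hom δ 1) hψ
theorem Dih_mem_fil {δ : Fin 2 → ℕ} {m n : ℕ} {ψ f : FA k (Fin 2)} (hψ : ψ ∈ fil δ m)
    (hf : f ∈ fil δ n) : Dih ψ f ∈ fil δ (n + m) := by
  refine (isDer_Dih ψ).mem_fil (Fin.forall_fin_two.2 ⟨?_, ?_⟩) hf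
  · rw [Dih_gX]; exact zero_mem _
  · rw [Dih_gY]; exact lie_mem_fil (mem_fil_of_hom (gen_mem_hom δ 1) le_rfl) hψ
theorem nabla_mem_hom {δ : Fin 2 → ℕ} {m n : ℕ} {ψ f : FA k (Fin 2)} (hψ : ψ ∈ hom δ m)
    (hf : f ∈ hom δ n) : nabla ψ f ∈ hom δ (n + m) := by
  rw [nabla_apply]
  refine add_mem (Dih_mem_hom hψ hf) ?_
  rw [add_comm]
  exact mul_mem_hom hψ hf
theorem nabla_mem_fil {δ : Fin 2 → ℕ} {m n : ℕ} {ψ f : FA k (Fin 2)} (hψ : ψ ∈ fil δ m)
    (hf : f ∈ fil δ n) : nabla ψ f ∈ fil δ (n + m) := by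
  rw [nabla_apply]
  refine add_mem (Dih_mem_fil hψ hf) ?_
  rw [add_comm]
  exact mul_mem_fil hψ hf
theorem PhiS_apply (s : ℕ → FA k (Fin 2)) (f : FA k ℕ) :
    PhiS s f = (ev (fun j => nabla (s j)) f : Module.End k (FA k (Fin 2))) 1 := rfl

end Crest.Agent.R010
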