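import Crest.Agent.R010.Basic2

/-! # Row 10: Lie polynomials -/

set_option autoImplicit false

noncomputable section

namespace Crest.Agent.R010

variable {k : Type} [CommRing k] {σ τ : Type}
variable {R R' : Type} [Ring R] [Algebra k R] [Ring R'] [Algebra k R']

@[simp] theorem br_of (c : σ) : (br (FreeMagma.of c) : FA k σ) = gen c := rfl
@[simp] theorem br_mul (a b : FreeMagma σ) : (br (a * b) : FA k σ) = ⁅(br a : FA k σ), br b⁆ := rfl
@[simp] theorem brR_of (v : σ → R) (c : σ) : brR v (FreeMagma.of c) = v c := rfl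
@[simp] theorem brR_mul (v : σ → R) (a b : FreeMagma σ) :
    brR v (a * b) = ⁅brR v a, brR v b⁆ := rfl
@[simp] theorem mdeg_of (δ : σ → ℕ) (c : σ) : mdeg δ (FreeMagma.of c) = δ c := rfl
@[simp] theorem mdeg_mul (δ : σ → ℕ) (a b : FreeMagma σ) :
    mdeg δ (a * b) = mdeg δ a + mdeg δ b := rfl

private theorem lie_add_b (a b c : R) : ⁅a, b + c⁆ = ⁅a, b⁆ + ⁅a, c⁆ := by
  simp only [lie_def']; noncomm_ring
private theorem add_lie_b (a b c : R) : ⁅a + b, c⁆ = ⁅a, c⁆ + ⁅b, c⁆ := by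
  simp only [lie_def']; noncomm_ring
private theorem lie_smul_b (s : k) (a b : R) : ⁅a, s • b⁆ = s • ⁅a, b⁆ := by
  simp only [lie_def', mul_smul_comm, smul_mul_assoc, smul_sub]
private theorem smul_lie_b (s : k) (a b : R) : ⁅s • a, b⁆ = s • ⁅a, b⁆ := by
  simp only [lie_def', mul_smul_comm, smul_mul_assoc, smul_sub]
private theorem lie_zero_b (a : R) : ⁅a, (0 : R)⁆ = 0 := by
  simp only [lie_def', mul_zero, zero_mul, sub_zero]
private theorem zero_lie_b (a : R) : ⁅(0 : R), a⁆ = 0 := by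
  simp only [lie_def', mul_zero, zero_mul, sub_zero]
private theorem lie_self_b (a : R) : ⁅a, a⁆ = 0 := by
  simp only [lie_def', sub_self]
private theorem lie_skew_b (a b : R) : ⁅a, b⁆ = -⁅b, a⁆ := by
  simp only [lie_def', neg_sub]
private theorem lie_lie_b (a b c : R) : ⁅⁅a, b⁆, c⁆ = ⁅a, ⁅b, c⁆⁆ - ⁅b, ⁅a, c⁆⁆ := by
  simp only [lie_def']; noncomm_ring
private theorem lie_comm_b {a b : R} (h : Commute a b) : ⁅a, b⁆ = 0 :=
  (lie_eq_zero_iff_commute a b).2 h

theorem mdeg_one_pos (m : FreeMagma σ) : 0 < mdeg (one σ) m := by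
  induction m using FreeMagma.recOnMul with
  | ih1 c => exact Nat.one_pos
  | ih2 a b iha ihb => rw [mdeg_mul]; omega
theorem ev_br (v : σ → R) (m : FreeMagma σ) : ev (k := k) v (br m) = brR v m := by
  induction m using FreeMagma.recOnMul with
  | ih1 c => exact ev_gen v c
  | ih2 a b iha ihb => rw [br_mul, brR_mul, map_lie', iha, ihb]
theorem br_mem_hom (δ : σ → ℕ) (m : FreeMagma σ) : (br m : FA k σ) ∈ hom δ (mdeg δ m) := by
  induction m using FreeMagma.recOnMul with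
  | ih1 c => exact gen_mem_hom δ c
  | ih2 a b iha ihb => rw [br_mul, mdeg_mul]; exact lie_mem_hom iha ihb
theorem br_mem_LieS (m : FreeMagma σ) : (br m : FA k σ) ∈ LieS k σ :=
  Submodule.subset_span ⟨m, rfl⟩
theorem gen_mem_LieS (c : σ) : (gen c : FA k σ) ∈ LieS k σ := br_mem_LieS (FreeMagma.of c)
theorem lie_mem_LieS {f g : FA k σ} (hf : f ∈ LieS k σ) (hg : g ∈ LieS k σ) :
    ⁅f, g⁆ ∈ LieS k σ := by
  induction hf using Submodule.span_induction with
  | mem x hx =>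
    obtain ⟨a, rfl⟩ := hx
    induction hg using Submodule.span_induction with
    | mem y hy =>
      obtain ⟨b, rfl⟩ := hy
      exact br_mem_LieS (a * b)
    | zero => rw [lie_zero_b]; exact zero_mem _
    | add x y _ _ hx hy => rw [lie_add_b]; exact add_mem hx hy
    | smul c x _ hx => rw [lie_smul_b]; exact Submodule.smul_mem _ c hx
  | zero => rw [zero_lie_b]; exact zero_mem _
  | add x y _ _ hx hy => rw [add_lie_b]; exact add_mem hx hy
  | smul c x _ hx => rw [smul_lie_b]; exact Submodule.smul_mem _ c hx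

@[elab_as_elim]
theorem LieS_induction {p : FA k σ → Prop} {f : FA k σ} (hf : f ∈ LieS k σ)
    (hgen : ∀ c, p (gen c))
    (hlie : ∀ a b, a ∈ LieS k σ → b ∈ LieS k σ → p a → p b → p ⁅a, b⁆) (h0 : p 0)
    (hadd : ∀ a b, a ∈ LieS k σ → b ∈ LieS k σ → p a → p b → p (a + b))
    (hsmul : ∀ (c : k) a, a ∈ LieS k σ → p a → p (c • a)) : p f := by
  induction hf using Submodule.span_induction with
  | mem x hx =>
    obtain ⟨m, rfl⟩ := hx
    induction m using FreeMagma.recOnMul with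
    | ih1 c => exact hgen c
    | ih2 a b iha ihb => exact hlie _ _ (br_mem_LieS a) (br_mem_LieS b) iha ihb
  | zero => exact h0
  | add x y hx' hy' hx hy => exact hadd x y hx' hy' hx hy
  | smul c x hx' hx => exact hsmul c x hx' hx

theorem LieS_le_fil_one : LieS k σ ≤ fil (one σ) 1 := by
  rw [LieS, Submodule.span_le]
  rintro _ ⟨m, rfl⟩
  exact mem_fil_of_hom (br_mem_hom _ m) (mdeg_one_pos m)
theorem proj_mem_LieS (δ : σ → ℕ) (n : ℕ) {f : FA k σ} (hf : f ∈ LieS k σ) :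
    proj δ n f ∈ LieS k σ := by
  induction hf using Submodule.span_induction with
  | mem x hx =>
    obtain ⟨m, rfl⟩ := hx
    by_cases h : mdeg δ m = n
    · rw [proj_of_hom (h ▸ br_mem_hom δ m)]; exact br_mem_LieS m
    · rw [proj_of_hom_ne (br_mem_hom δ m) h]; exact zero_mem _
  | zero => rw [map_zero]; exact zero_mem _
  | add x y _ _ hx hy => rw [map_add]; exact add_mem hx hy
  | smul c x _ hx => rw [map_smul]; exact Submodule.smul_mem _ c hx
theorem mem_LieW {δ : σ → ℕ} {n : ℕ} {f : FA k σ} :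
    f ∈ LieW k δ n ↔ f ∈ LieS k σ ∧ f ∈ hom δ n := Iff.rfl
theorem mem_LieD {f : FA k σ} : f ∈ LieD k σ ↔ f ∈ LieS k σ ∧ f ∈ fil (one σ) 2 := Iff.rfl
private theorem inf_supp_eq_span (p : FreeMonoid σ → Prop) (q : FreeMagma σ → Prop)
    (h1 : ∀ m, q m → (br m : FA k σ) ∈ supp p)
    (h2 : ∀ m, ¬ q m → restr p (br m : FA k σ) = 0) :
    LieS k σ ⊓ supp p = Submodule.span k {f | ∃ m, q m ∧ f = br m} := by
  apply le_antisymm
  · rintro f ⟨hf, hp⟩
    rw [← restr_eq_self hp]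
    clear hp
    induction hf using Submodule.span_induction with
    | mem x hx =>
      obtain ⟨m, rfl⟩ := hx
      by_cases hq : q m
      · rw [restr_eq_self (h1 m hq)]
        exact Submodule.subset_span ⟨m, hq, rfl⟩
      · rw [h2 m hq]; exact zero_mem _
    | zero => rw [map_zero]; exact zero_mem _
    | add x y _ _ hx hy => rw [map_add]; exact add_mem hx hy
    | smul c x _ hx => rw [map_smul]; exact Submodule.smul_mem _ c hx
  · rw [Submodule.span_le]
    rintro f ⟨m, hq, rfl⟩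
    exact ⟨br_mem_LieS m, h1 m hq⟩
private theorem two_le_mdeg {m : FreeMagma σ} :
    2 ≤ mdeg (one σ) m ↔ ∃ a b : FreeMagma σ, m = a * b := by
  constructor
  · intro h
    cases m with
    | of c => exact absurd h (by change ¬ 2 ≤ 1; omega)
    | mul a b => exact ⟨a, b, rfl⟩
  · rintro ⟨a, b, rfl⟩
    have := mdeg_one_pos a
    have := mdeg_one_pos b
    rw [mdeg_mul]; omega
theorem LieW_eq_span (δ : σ → ℕ) (n : ℕ) :
    LieW k δ n = Submodule.span k {f | ∃ m, mdeg δ m = n ∧ f = br m} := by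
  refine inf_supp_eq_span _ _ (fun m h => h ▸ br_mem_hom δ m) fun m h => ?_
  exact restr_eq_zero (br_mem_hom δ m) fun w h1 h2 => h (h1.symm.trans h2)
theorem LieS_inf_fil_eq_span (δ : σ → ℕ) (n : ℕ) :
    LieS k σ ⊓ fil δ n = Submodule.span k {f | ∃ m, n ≤ mdeg δ m ∧ f = br m} := by
  refine inf_supp_eq_span _ _ (fun m h => mem_fil_of_hom (br_mem_hom δ m) h) fun m h => ?_
  exact restr_eq_zero (br_mem_hom δ m) fun w h1 h2 => h (h1 ▸ h2)
theorem LieW_inf_hom_eq_span (δ δ' : σ → ℕ) (n n' : ℕ) :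
    LieW k δ n ⊓ hom δ' n' =
      Submodule.span k {f | ∃ m, mdeg δ m = n ∧ mdeg δ' m = n' ∧ f = br m} := by
  have e : {f : FA k σ | ∃ m, mdeg δ m = n ∧ mdeg δ' m = n' ∧ f = br m} =
      {f : FA k σ | ∃ m, (mdeg δ m = n ∧ mdeg δ' m = n') ∧ f = br m} := by
    simp only [and_assoc]
  rw [e, LieW, inf_assoc, hom, hom, supp_inf]
  have hb : ∀ m, (br m : FA k σ) ∈
      supp (fun w => wdeg δ w = mdeg δ m ∧ wdeg δ' w = mdeg δ' m) := fun m => by
    rw [← supp_inf]
    exact ⟨br_mem_hom δ m, br_mem_hom δ' m⟩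
  refine inf_supp_eq_span _ _ (fun m h => ?_) fun m h => ?_
  · rw [← h.1, ← h.2]; exact hb m
  · exact restr_eq_zero (hb m) fun w h1 h2 => h ⟨h1.1.symm.trans h2.1, h1.2.symm.trans h2.2⟩
theorem LieD_eq_span :
    LieD k σ = Submodule.span k {f | ∃ a b : FreeMagma σ, f = br (a * b)} := by
  rw [LieD, LieS_inf_fil_eq_span]
  congr 1
  ext f
  constructor
  · rintro ⟨m, hm, rfl⟩
    obtain ⟨a, b, rfl⟩ := two_le_mdeg.1 hm
    exact ⟨a, b, rfl⟩
  · rintro ⟨a, b, rfl⟩
    exact ⟨a * b, two_le_mdeg.2 ⟨a, b, rfl⟩, rfl⟩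
theorem lie_mem_LieD {f g : FA k σ} (hf : f ∈ LieS k σ) (hg : g ∈ LieS k σ) :
    ⁅f, g⁆ ∈ LieD k σ := by
  exact ⟨lie_mem_LieS hf hg, lie_mem_fil (LieS_le_fil_one hf) (LieS_le_fil_one hg)⟩
@[elab_as_elim]
theorem LieD_induction {p : FA k σ → Prop} {f : FA k σ} (hf : f ∈ LieD k σ)
    (hlie : ∀ a b, a ∈ LieS k σ → b ∈ LieS k σ → p ⁅a, b⁆) (h0 : p 0)
    (hadd : ∀ a b, p a → p b → p (a + b)) (hsmul : ∀ (c : k) a, p a → p (c • a)) : p f := by
  rw [LieD_eq_span] at hf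
  induction hf using Submodule.span_induction with
  | mem x hx =>
    obtain ⟨a, b, rfl⟩ := hx
    exact hlie _ _ (br_mem_LieS a) (br_mem_LieS b)
  | zero => exact h0
  | add x y _ _ hx hy => exact hadd x y hx hy
  | smul c x _ hx => exact hsmul c x hx
theorem lie_mem_LieW {δ : σ → ℕ} {m n : ℕ} {f g : FA k σ} (hf : f ∈ LieW k δ m)
    (hg : g ∈ LieW k δ n) : ⁅f, g⁆ ∈ LieW k δ (m + n) :=
  ⟨lie_mem_LieS hf.1 hg.1, lie_mem_hom hf.2 hg.2⟩
theorem mem_LieD_of_LieW {n : ℕ} {f : FA k σ} (hf : f ∈ LieW k (one σ) n) (hn : 2 ≤ n) :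
    f ∈ LieD k σ := ⟨hf.1, mem_fil_of_hom hf.2 hn⟩
theorem proj_mem_LieD (δ : σ → ℕ) (n : ℕ) {f : FA k σ} (hf : f ∈ LieD k σ) :
    proj δ n f ∈ LieD k σ := ⟨proj_mem_LieS δ n hf.1, proj_mem_fil_of n hf.2⟩
/-- Lie elements of length one are combinations of letters. -/
theorem LieW_one_eq_span : LieW k (one σ) 1 = Submodule.span k (Set.range gen) := by
  rw [LieW_eq_span]
  congr 1
  ext f
  constructor
  · rintro ⟨m, hm, rfl⟩
    cases m with
    | of c => exact ⟨c, rfl⟩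
    | mul a b =>
      have := (two_le_mdeg (m := FreeMagma.mul a b)).2 ⟨a, b, rfl⟩
      omega
  · rintro ⟨c, rfl⟩
    exact ⟨FreeMagma.of c, rfl, rfl⟩

theorem ev_mem_of_LieS (W : Submodule k R) (hW : ∀ a ∈ W, ∀ b ∈ W, ⁅a, b⁆ ∈ W) {v : σ → R}
    (hv : ∀ c, v c ∈ W) {f : FA k σ} (hf : f ∈ LieS k σ) : ev v f ∈ W := by
  refine LieS_induction hf (fun c => ?_) (fun a b _ _ ha hb => ?_) ?_ (fun a b _ _ ha hb => ?_)
    fun c a _ ha => ?_
  · rw [ev_gen]; exact hv c
  · rw [map_lie']; exact hW _ ha _ hb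
  · rw [map_zero]; exact zero_mem _
  · rw [map_add]; exact add_mem ha hb
  · rw [map_smul]; exact W.smul_mem c ha
theorem ev_mem_LieS {v : σ → FA k τ} (hv : ∀ c, v c ∈ LieS k τ) {f : FA k σ}
    (hf : f ∈ LieS k σ) : ev v f ∈ LieS k τ :=
  ev_mem_of_LieS (R := FA k τ) (LieS k τ) (fun _ ha _ hb => lie_mem_LieS ha hb) hv hf
theorem ev_mem_LieD {v : σ → FA k τ} (hv : ∀ c, v c ∈ LieS k τ) {f : FA k σ}
    (hf : f ∈ LieD k σ) : ev v f ∈ LieD k τ := by
  refine LieD_induction hf (fun a b ha hb => ?_) ?_ (fun a b ha hb => ?_) fun c a ha => ?_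
  · rw [map_lie']; exact lie_mem_LieD (ev_mem_LieS hv ha) (ev_mem_LieS hv hb)
  · rw [map_zero]; exact zero_mem _
  · rw [map_add]; exact add_mem ha hb
  · rw [map_smul]; exact Submodule.smul_mem _ c ha
/-- A submodule stable under `ad (v c)` for all letters is stable under `ad` of Lie polynomials. -/
theorem lie_ev_mem (W : Submodule k R) {v : σ → R} (hv : ∀ c, ∀ a ∈ W, ⁅v c, a⁆ ∈ W)
    {f : FA k σ} (hf : f ∈ LieS k σ) {a : R} (ha : a ∈ W) : ⁅ev v f, a⁆ ∈ W := by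
  suffices H : ∀ a ∈ W, ⁅ev v f, a⁆ ∈ W from H a ha
  refine LieS_induction hf (fun c a ha => ?_) (fun x y _ _ hx hy a ha => ?_) (fun a ha => ?_)
    (fun x y _ _ hx hy a ha => ?_) fun c x _ hx a ha => ?_
  · rw [ev_gen]; exact hv c a ha
  · rw [map_lie', lie_lie_b]; exact sub_mem (hx _ (hy _ ha)) (hy _ (hx _ ha))
  · rw [map_zero, zero_lie_b]; exact zero_mem _
  · rw [map_add, add_lie_b]; exact add_mem (hx _ ha) (hy _ ha)
  · rw [map_smul, smul_lie_b]; exact W.smul_mem c (hx _ ha)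
/-- Central perturbations do not change elements of the derived algebra. -/
theorem ev_add_central {v z : σ → R} (h₁ : ∀ c c', Commute (z c) (v c'))
    (h₂ : ∀ c c', Commute (z c) (z c')) {f : FA k σ} (hf : f ∈ LieD k σ) :
    ev (fun c => v c + z c) f = ev v f := by
  have lieq : ∀ a b : FA k σ,
      (∃ ζ : R, ev (fun c => v c + z c) a = ev v a + ζ ∧ (∀ c, Commute ζ (v c)) ∧
        ∀ c, Commute ζ (z c)) →
      (∃ ζ : R, ev (fun c => v c + z c) b = ev v b + ζ ∧ (∀ c, Commute ζ (v c)) ∧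
        ∀ c, Commute ζ (z c)) →
      ev (fun c => v c + z c) ⁅a, b⁆ = ev v ⁅a, b⁆ := by
    rintro a b ⟨ζ, e, h3, h4⟩ ⟨ζ', e', h3', -⟩
    rw [map_lie', map_lie', e, add_lie_b,
      lie_comm_b (commute_ev (fun c => (h3 c).add_right (h4 c)) b), add_zero, e', lie_add_b,
      lie_comm_b (commute_ev h3' a).symm, add_zero]
  have key : ∀ g ∈ LieS k σ, ∃ ζ : R, ev (fun c => v c + z c) g = ev v g + ζ ∧
      (∀ c, Commute ζ (v c)) ∧ ∀ c, Commute ζ (z c) := by
    intro g hg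
    refine LieS_induction hg (fun c => ⟨z c, by simp, h₁ c, h₂ c⟩) (fun a b _ _ ha hb => ?_)
      ⟨0, by simp, fun _ => Commute.zero_left _, fun _ => Commute.zero_left _⟩ ?_ ?_
    · exact ⟨0, by rw [lieq a b ha hb, add_zero], fun _ => Commute.zero_left _,
        fun _ => Commute.zero_left _⟩
    · rintro a b _ _ ⟨ζ, e, h3, h4⟩ ⟨ζ', e', h3', h4'⟩
      refine ⟨ζ + ζ', ?_, fun c => (h3 c).add_left (h3' c), fun c => (h4 c).add_left (h4' c)⟩
      rw [map_add, map_add, e, e']; abel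
    · rintro c a _ ⟨ζ, e, h3, h4⟩
      refine ⟨c • ζ, ?_, fun c' => (h3 c').smul_left c, fun c' => (h4 c').smul_left c⟩
      rw [map_smul, map_smul, e, smul_add]
  refine LieD_induction hf (fun a b ha hb => lieq a b (key a ha) (key b hb)) (by simp)
    (fun a b ha hb => ?_) fun c a ha => ?_
  · rw [map_add, map_add, ha, hb]
  · rw [map_smul, map_smul, ha]
theorem ev2_add_central {p q z z' : R} (h₁ : Commute z p) (h₂ : Commute z q) (h₃ : Commute z' p)
    (h₄ : Commute z' q) (h₅ : Commute z z') {f : FA k (Fin 2)} (hf : f ∈ LieD k (Fin 2)) :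
    ev2 (p + z) (q + z') f = ev2 p q f := by
  rw [← ev_add_central (v := ![p, q]) (z := ![z, z']) ?_ ?_ hf]
  · exact ev_congr (fun c => by fin_cases c <;> rfl) f
  · intro c c'
    fin_cases c <;> fin_cases c'
    exacts [h₁, h₂, h₃, h₄]
  · intro c c'
    fin_cases c <;> fin_cases c'
    exacts [Commute.refl _, h₅, h₅.symm, Commute.refl _]
theorem ev_eq_zero_of_commute {v : σ → R} (h : ∀ c c', Commute (v c) (v c')) {f : FA k σ}
    (hf : f ∈ LieD k σ) : ev v f = 0 := by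
  refine LieD_induction hf (fun a b _ _ => ?_) (map_zero _) (fun a b ha hb => ?_)
    fun c a ha => ?_
  · rw [map_lie']
    exact lie_comm_b (commute_ev (fun c => (commute_ev (fun c' => h c c') a).symm) b)
  · rw [map_add, ha, hb, add_zero]
  · rw [map_smul, ha, smul_zero]
theorem ev2_eq_zero_of_commute {p q : R} (h : Commute p q) {f : FA k (Fin 2)}
    (hf : f ∈ LieD k (Fin 2)) : ev2 p q f = 0 := by
  refine ev_eq_zero_of_commute (fun c c' => ?_) hf
  fin_cases c <;> fin_cases c'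
  exacts [Commute.refl _, h, h.symm, Commute.refl _]
/-- **Lemma N₂**: Lie polynomials of length `≥ 2` in two letters. -/
theorem ev2_mem_of_stable2 (W : Submodule k R) {p q : R} (hp : ∀ a ∈ W, ⁅p, a⁆ ∈ W)
    (hq : ∀ a ∈ W, ⁅q, a⁆ ∈ W) (h : ⁅p, q⁆ ∈ W) {f : FA k (Fin 2)} (hf : f ∈ LieD k (Fin 2)) :
    ev2 p q f ∈ W := by
  have hv : ∀ c, ∀ a ∈ W, ⁅(![p, q] : Fin 2 → R) c, a⁆ ∈ W := fun c => by
    fin_cases c
    exacts [hp, hq]
  have key : ∀ m : FreeMagma (Fin 2), 2 ≤ mdeg (one (Fin 2)) m →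
      ev2 (k := k) p q (br m) ∈ W := by
    intro m
    induction m using FreeMagma.recOnMul with
    | ih1 c => intro hm; exact absurd hm (by change ¬ 2 ≤ 1; omega)
    | ih2 a b iha ihb =>
      intro _
      rw [br_mul, map_lie']
      cases b with
      | mul b1 b2 => exact lie_ev_mem W hv (br_mem_LieS a) (ihb (two_le_mdeg.2 ⟨b1, b2, rfl⟩))
      | of c' =>
        cases a with
        | mul a1 a2 =>
          rw [lie_skew_b]
          exact neg_mem (lie_ev_mem W hv (br_mem_LieS _) (iha (two_le_mdeg.2 ⟨a1, a2, rfl⟩)))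
        | of c =>
          rw [br_of, br_of, ev_gen, ev_gen]
          fin_cases c <;> fin_cases c'
          · rw [lie_self_b]; exact zero_mem _
          · exact h
          · rw [lie_skew_b]; exact neg_mem h
          · rw [lie_self_b]; exact zero_mem _
  rw [LieD, LieS_inf_fil_eq_span] at hf
  induction hf using Submodule.span_induction with
  | mem x hx =>
    obtain ⟨m, hm, rfl⟩ := hx
    exact key m hm
  | zero => rw [map_zero]; exact zero_mem _
  | add x y _ _ hx hy => rw [map_add]; exact add_mem hx hy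
  | smul c x _ hx => rw [map_smul]; exact W.smul_mem c hx
/-- **Lemma N**: Lie polynomials of length `≥ 3` in two letters. -/
theorem ev2_mem_of_stable3 (W : Submodule k R) {p q : R} (hp : ∀ a ∈ W, ⁅p, a⁆ ∈ W)
    (hq : ∀ a ∈ W, ⁅q, a⁆ ∈ W) (h₁ : ⁅p, ⁅p, q⁆⁆ ∈ W) (h₂ : ⁅q, ⁅p, q⁆⁆ ∈ W)
    {f : FA k (Fin 2)} (hf : f ∈ LieS k (Fin 2)) (hf3 : f ∈ fil (one (Fin 2)) 3) :
    ev2 p q f ∈ W := by
  have hv : ∀ c, ∀ a ∈ W, ⁅(![p, q] : Fin 2 → R) c, a⁆ ∈ W := fun c => by
    fin_cases c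
    exacts [hp, hq]
  let W' : Submodule k R := W.comap (adm (k := k) p) ⊓ W.comap (adm (k := k) q)
  have hW' : ∀ a, a ∈ W' ↔ ⁅p, a⁆ ∈ W ∧ ⁅q, a⁆ ∈ W := fun a => by
    simp only [W', Submodule.mem_inf, Submodule.mem_comap, adm_apply]
  have hD : ∀ g ∈ LieD k (Fin 2), ev2 p q g ∈ W' := fun g hg =>
    ev2_mem_of_stable2 W'
      (fun a ha => (hW' _).2 ⟨hp _ ((hW' a).1 ha).1, hq _ ((hW' a).1 ha).1⟩)
      (fun a ha => (hW' _).2 ⟨hp _ ((hW' a).1 ha).2, hq _ ((hW' a).1 ha).2⟩)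
      ((hW' _).2 ⟨h₁, h₂⟩) hg
  have hL : ∀ g ∈ LieS k (Fin 2), ∀ a ∈ W', ⁅ev2 p q g, a⁆ ∈ W := by
    intro g hg a ha
    refine LieS_induction hg (fun c => ?_) (fun x y hx' hy' hx hy => ?_) ?_
      (fun x y _ _ hx hy => ?_) fun c x _ hx => ?_
    · rw [ev_gen]
      fin_cases c
      exacts [((hW' a).1 ha).1, ((hW' a).1 ha).2]
    · rw [map_lie', lie_lie_b]
      exact sub_mem (lie_ev_mem W hv hx' hy) (lie_ev_mem W hv hy' hx)
    · rw [map_zero, zero_lie_b]; exact zero_mem _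
    · rw [map_add, add_lie_b]; exact add_mem hx hy
    · rw [map_smul, smul_lie_b]; exact W.smul_mem c hx
  have hf' : f ∈ LieS k (Fin 2) ⊓ fil (one (Fin 2)) 3 := ⟨hf, hf3⟩
  clear hf hf3
  rw [LieS_inf_fil_eq_span] at hf'
  induction hf' using Submodule.span_induction with
  | mem x hx =>
    obtain ⟨m, hm, rfl⟩ := hx
    obtain ⟨a, b, rfl⟩ := two_le_mdeg.1 (le_trans (by norm_num) hm)
    rw [mdeg_mul] at hm
    rw [br_mul, map_lie']
    by_cases hb : 2 ≤ mdeg (one (Fin 2)) b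
    · exact hL _ (br_mem_LieS a) _
        (hD _ ⟨br_mem_LieS b, mem_fil_of_hom (br_mem_hom _ b) hb⟩)
    · rw [lie_skew_b]
      exact neg_mem (hL _ (br_mem_LieS b) _
        (hD _ ⟨br_mem_LieS a, mem_fil_of_hom (br_mem_hom _ a) (by omega)⟩))
  | zero => rw [map_zero]; exact zero_mem _
  | add x y _ _ hx hy => rw [map_add]; exact add_mem hx hy
  | smul c x _ hx => rw [map_smul]; exact W.smul_mem c hx
theorem ev_adm (v : σ → R) {f : FA k σ} (hf : f ∈ LieS k σ) :
    ev (fun c => (adm (v c) : Module.End k R)) f = adm (ev v f) := by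
  refine LieS_induction hf (fun c => ?_) (fun a b _ _ ha hb => ?_) ?_ (fun a b _ _ ha hb => ?_)
    fun c a _ ha => ?_
  · rw [ev_gen, ev_gen]
  · rw [map_lie', map_lie', ha, hb, lie_adm]
  · rw [map_zero, map_zero]
    ext x
    rw [adm_apply, zero_lie_b, LinearMap.zero_apply]
  · rw [map_add, map_add, ha, hb]
    ext x
    rw [LinearMap.add_apply, adm_apply, adm_apply, adm_apply, add_lie_b]
  · rw [map_smul, map_smul, ha]
    ext x
    rw [LinearMap.smul_apply, adm_apply, adm_apply, smul_lie_b]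
theorem isDer_ev {O : σ → Module.End k R} (h : ∀ c, IsDer (O c)) {f : FA k σ}
    (hf : f ∈ LieS k σ) : IsDer (ev O f) := by
  refine LieS_induction hf (fun c => ?_) (fun a b _ _ ha hb => ?_) ?_ (fun a b _ _ ha hb => ?_)
    fun c a _ ha => ?_
  · rw [ev_gen]; exact h c
  · rw [map_lie']; exact ha.lie hb
  · rw [map_zero]; exact IsDer.zero
  · rw [map_add]; exact ha.add hb
  · rw [map_smul]; exact ha.smul c
/-- Derivations kill `1`, hence so does every polynomial without constant term. -/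
theorem ev_apply_eq_zero {V : Type} [AddCommGroup V] [Module k V] {O : σ → Module.End k V} {x : V}
    (h : ∀ c, O c x = 0) {f : FA k σ} (hf : f ∈ fil (one σ) 1) : ev O f x = 0 := by
  refine supp_induction (q := fun f => ev O f x = 0) hf (fun w hw => ?_) (by simp)
    (fun a b ha hb => ?_) fun c a ha => ?_
  · rw [wdeg_one_eq_length] at hw
    rw [ev_wd]
    rcases List.eq_nil_or_concat w.toList with h0 | ⟨l, c, h0⟩
    · rw [h0] at hw; simp at hw
    · rw [h0]
      simp [h c]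
  · rw [map_add, LinearMap.add_apply, ha, hb, add_zero]
  · rw [map_smul, LinearMap.smul_apply, ha, smul_zero]
theorem IsDer.mem_LieS {D : Module.End k (FA k σ)} (h : IsDer D)
    (hd : ∀ c, D (gen c) ∈ LieS k σ) {f : FA k σ} (hf : f ∈ LieS k σ) : D f ∈ LieS k σ := by
  refine LieS_induction hf hd (fun a b ha' hb' ha hb => ?_) ?_ (fun a b _ _ ha hb => ?_)
    fun c a _ ha => ?_
  · rw [h.map_lie]; exact add_mem (lie_mem_LieS ha hb') (lie_mem_LieS ha' hb)
  · rw [map_zero]; exact zero_mem _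
  · rw [map_add]; exact add_mem ha hb
  · rw [map_smul]; exact Submodule.smul_mem _ c ha
theorem IsDer.mem_LieD {D : Module.End k (FA k σ)} (h : IsDer D)
    (hd : ∀ c, D (gen c) ∈ LieS k σ) {f : FA k σ} (hf : f ∈ LieD k σ) : D f ∈ LieD k σ := by
  refine LieD_induction hf (fun a b ha hb => ?_) ?_ (fun a b ha hb => ?_) fun c a ha => ?_
  · rw [h.map_lie]
    exact add_mem (lie_mem_LieD (h.mem_LieS hd ha) hb) (lie_mem_LieD ha (h.mem_LieS hd hb))
  · rw [map_zero]; exact zero_mem _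
  · rw [map_add]; exact add_mem ha hb
  · rw [map_smul]; exact Submodule.smul_mem _ c ha
/-- Shift derivations (letters `↦` scalars) kill the derived algebra. -/
theorem der_scalar_eq_zero (s : σ → k) {f : FA k σ} (hf : f ∈ LieD k σ) :
    der (fun c => s c • (1 : FA k σ)) f = 0 := by
  have hD := isDer_der (fun c => s c • (1 : FA k σ))
  have lieq : ∀ a b : FA k σ, (∃ t : k, der (fun c => s c • (1 : FA k σ)) a = t • 1) →
      (∃ t : k, der (fun c => s c • (1 : FA k σ)) b = t • 1) →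
      der (fun c => s c • (1 : FA k σ)) ⁅a, b⁆ = 0 := by
    rintro a b ⟨t, e⟩ ⟨t', e'⟩
    rw [hD.map_lie, e, e', smul_lie_b, lie_smul_b, lie_comm_b (Commute.one_left b),
      lie_comm_b (Commute.one_right a), smul_zero, smul_zero, add_zero]
  have key : ∀ g ∈ LieS k σ, ∃ t : k, der (fun c => s c • (1 : FA k σ)) g = t • 1 := by
    intro g hg
    refine LieS_induction hg (fun c => ⟨s c, der_gen _ c⟩)
      (fun a b _ _ ha hb => ⟨0, by rw [lieq a b ha hb, zero_smul]⟩) ⟨0, by simp⟩ ?_ ?_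
    · rintro a b _ _ ⟨t, e⟩ ⟨t', e'⟩
      exact ⟨t + t', by rw [map_add, e, e', add_smul]⟩
    · rintro c a _ ⟨t, e⟩
      exact ⟨c * t, by rw [map_smul, e, mul_smul]⟩
  refine LieD_induction hf (fun a b ha hb => lieq a b (key a ha) (key b hb)) (map_zero _)
    (fun a b ha hb => ?_) fun c a ha => ?_
  · rw [map_add, ha, hb, add_zero]
  · rw [map_smul, ha, smul_zero]
/-- Lie polynomials are primitive. -/
theorem prim_of_LieS {f : FA k σ} (hf : f ∈ LieS k σ) : Prim f := by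
  intro R _ _ v v' h
  have hc : ∀ a b : FA k σ, Commute (ev v a) (ev v' b) := fun a b =>
    commute_ev (fun c' => (commute_ev (fun c => (h c c').symm) a).symm) b
  refine LieS_induction hf (fun c => by simp) (fun a b _ _ ha hb => ?_) (by simp)
    (fun a b _ _ ha hb => ?_) fun c a _ ha => ?_
  · rw [map_lie', map_lie', map_lie', ha, hb, add_lie_b, lie_add_b, lie_add_b,
      lie_comm_b (hc a b), lie_comm_b (hc b a).symm, add_zero, zero_add]
  · rw [map_add, map_add, map_add, ha, hb]; abel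
  · rw [map_smul, map_smul, map_smul, ha, smul_add]
private theorem dep_zero (m : FreeMagma (Fin 2)) (h : mdeg dep m = 0) :
    m = FreeMagma.of 0 ∨ (br m : FA k (Fin 2)) = 0 := by
  induction m using FreeMagma.recOnMul with
  | ih1 c =>
    fin_cases c
    · exact Or.inl rfl
    · exact absurd h (by decide)
  | ih2 a b iha ihb =>
    rw [mdeg_mul] at h
    right
    rw [br_mul]
    rcases iha (by omega) with rfl | ha
    · rcases ihb (by omega) with rfl | hb
      · exact lie_self_b _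
      · rw [hb, lie_zero_b]
    · rw [ha, zero_lie_b]
private theorem dep_one (m : FreeMagma (Fin 2)) : ∀ n : ℕ, mdeg dep m = 1 →
    mdeg (one (Fin 2)) m = n + 1 →
    (br m : FA k (Fin 2)) ∈ Submodule.span k {(adm (k := k) gX ^ n) (gY : FA k (Fin 2))} := by
  have step : ∀ (n : ℕ) (x : FA k (Fin 2)),
      x ∈ Submodule.span k {(adm (k := k) gX ^ n) (gY : FA k (Fin 2))} →
      ⁅(gX : FA k (Fin 2)), x⁆ ∈
        Submodule.span k {(adm (k := k) gX ^ (n + 1)) (gY : FA k (Fin 2))} := by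
    intro n x hx
    obtain ⟨c, rfl⟩ := Submodule.mem_span_singleton.1 hx
    rw [lie_smul_b, pow_succ', Module.End.mul_apply, adm_apply]
    exact Submodule.smul_mem _ _ (Submodule.mem_span_singleton_self _)
  induction m using FreeMagma.recOnMul with
  | ih1 c =>
    intro n h1 h2
    have hn : n = 0 := by
      have : (1 : ℕ) = n + 1 := h2
      omega
    subst hn
    fin_cases c
    · exact absurd h1 (by decide)
    · exact Submodule.mem_span_singleton_self _
  | ih2 a b iha ihb =>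
    intro n h1 h2
    rw [mdeg_mul] at h1 h2
    rw [br_mul]
    have ha := mdeg_one_pos a
    have hb := mdeg_one_pos b
    obtain ⟨n, rfl⟩ : ∃ n', n = n' + 1 := ⟨n - 1, by omega⟩
    by_cases h0 : mdeg dep a = 0
    · rcases dep_zero (k := k) a h0 with rfl | h
      · have h3 : mdeg (one (Fin 2)) (FreeMagma.of 0) = 1 := rfl
        exact step n _ (ihb n (by omega) (by omega))
      · rw [h, zero_lie_b]; exact zero_mem _
    · rcases dep_zero (k := k) b (by omega) with rfl | h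
      · have h3 : mdeg (one (Fin 2)) (FreeMagma.of 0) = 1 := rfl
        have h4 : mdeg dep (FreeMagma.of 0) = 0 := rfl
        rw [lie_skew_b]
        exact neg_mem (step n _ (iha n (by omega) (by omega)))
      · rw [h, lie_zero_b]; exact zero_mem _
/-- The depth-one part of a Lie polynomial in two letters. -/
theorem exists_depth_one {n : ℕ} {f : FA k (Fin 2)} (hf : f ∈ LieS k (Fin 2))
    (h₁ : f ∈ hom dep 1) (h₂ : f ∈ hom (one (Fin 2)) (n + 1)) :
    ∃ c : k, f = c • (adm (k := k) gX ^ n) gY := by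
  have hf' : f ∈ LieW k dep 1 ⊓ hom (one (Fin 2)) (n + 1) := ⟨⟨hf, h₁⟩, h₂⟩
  rw [LieW_inf_hom_eq_span] at hf'
  have : f ∈ Submodule.span k {(adm (k := k) gX ^ n) (gY : FA k (Fin 2))} := by
    refine (Submodule.span_le.2 ?_) hf'
    rintro _ ⟨m, h1, h2, rfl⟩
    exact dep_one m n h1 h2
  obtain ⟨c, hc⟩ := Submodule.mem_span_singleton.1 this
  exact ⟨c, hc.symm⟩
theorem mem_fil_dep_one {f : FA k (Fin 2)} (hf : f ∈ LieD k (Fin 2)) : f ∈ fil dep 1 := by
  rw [LieD_eq_span] at hf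
  refine (Submodule.span_le.2 ?_) hf
  rintro _ ⟨a, b, rfl⟩
  by_cases h0 : mdeg dep (a * b) = 0
  · rcases dep_zero (k := k) _ h0 with h | h
    · cases h
    · rw [h]; exact zero_mem _
  · exact mem_fil_of_hom (br_mem_hom dep _) (by omega)

theorem Dih_mem_LieS {ψ f : FA k (Fin 2)} (hψ : ψ ∈ LieS k (Fin 2)) (hf : f ∈ LieS k (Fin 2)) :
    Dih ψ f ∈ LieS k (Fin 2) := by
  refine (isDer_Dih ψ).mem_LieS (fun c => ?_) hf
  fin_cases c
  · change Dih ψ gX ∈ _
    rw [Dih_gX]; exact zero_mem _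
  · change Dih ψ gY ∈ _
    rw [Dih_gY]; exact lie_mem_LieS (gen_mem_LieS 1) hψ
theorem ihara_mem_LieW {m n : ℕ} {ψ φ : FA k (Fin 2)} (hψ : ψ ∈ LieW k (one (Fin 2)) m)
    (hφ : φ ∈ LieW k (one (Fin 2)) n) : ihara ψ φ ∈ LieW k (one (Fin 2)) (m + n) := by
  refine add_mem (sub_mem ⟨Dih_mem_LieS hψ.1 hφ.1, ?_⟩
    ⟨Dih_mem_LieS hφ.1 hψ.1, Dih_mem_hom hφ.2 hψ.2⟩) (lie_mem_LieW hψ hφ)
  rw [add_comm m n]
  exact Dih_mem_hom hψ.2 hφ.2
/-- On Lie polynomials `Θ(f) = ∇_{Φ f}`. -/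
theorem ev_nabla (s : ℕ → FA k (Fin 2)) {f : FA k ℕ} (hf : f ∈ LieS k ℕ) :
    (ev (fun j => nabla (s j)) f : Module.End k (FA k (Fin 2))) = nabla (PhiS s f) := by
  have key : ∃ ψ, (ev (fun j => nabla (s j)) f : Module.End k (FA k (Fin 2))) = nabla ψ := by
    refine LieS_induction hf (fun c => ⟨s c, ev_gen _ c⟩) ?_ ⟨0, ?_⟩ ?_ ?_
    · rintro a b _ _ ⟨ψ, e⟩ ⟨φ, e'⟩
      exact ⟨ihara ψ φ, by rw [map_lie', e, e', lie_nabla]⟩
    · have := nabla_smul (0 : k) (0 : FA k (Fin 2))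
      rw [zero_smul, zero_smul] at this
      rw [map_zero, this]
    · rintro a b _ _ ⟨ψ, e⟩ ⟨φ, e'⟩
      exact ⟨ψ + φ, by rw [map_add, e, e', nabla_add]⟩
    · rintro c a _ ⟨ψ, e⟩
      exact ⟨c • ψ, by rw [map_smul, e, nabla_smul]⟩
  obtain ⟨ψ, e⟩ := key
  rw [PhiS_apply, e, nabla_one]
@[simp] theorem PhiS_gen (s : ℕ → FA k (Fin 2)) (j : ℕ) : PhiS s (gen j) = s j := by
  rw [PhiS_apply, ev_gen, nabla_one]
theorem PhiS_lie (s : ℕ → FA k (Fin 2)) {f g : FA k ℕ} (hf : f ∈ LieS k ℕ) (hg : g ∈ LieS k ℕ) :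
    PhiS s ⁅f, g⁆ = ihara (PhiS s f) (PhiS s g) := by
  rw [PhiS_apply s ⁅f, g⁆, map_lie', ev_nabla s hf, ev_nabla s hg, lie_nabla, nabla_one]
theorem PhiS_mem_fil_dep {s : ℕ → FA k (Fin 2)} (hs : ∀ j, s j ∈ fil dep 1) {d : ℕ} {f : FA k ℕ}
    (hf : f ∈ fil (one ℕ) d) : PhiS s f ∈ fil dep d := by
  have := ev_op_mem_fil (fun j => (fil dep j : Submodule k (FA k (Fin 2))))
    (fun _ _ h => fil_anti dep h) (one ℕ) (fun j => nabla (s j))
    (fun c j x hx => nabla_mem_fil (hs c) hx) hf (mem_fil_zero dep 1)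
  rw [zero_add] at this
  exact this
theorem PhiS_mem_hom {s : ℕ → FA k (Fin 2)} (hs : ∀ j, s j ∈ hom (one (Fin 2)) (wt j)) {n : ℕ}
    {f : FA k ℕ} (hf : f ∈ hom wt n) : PhiS s f ∈ hom (one (Fin 2)) n := by
  have := ev_op_mem_graded (fun j => (hom (one (Fin 2)) j : Submodule k (FA k (Fin 2)))) wt
    (fun j => nabla (s j)) (fun c j x hx => nabla_mem_hom (hs c) hx) hf (one_mem_hom _)
  rw [zero_add] at this
  exact this

end Crest.Agent.R010
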