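import Crest.Agent.R010.Basic3

/-! # Row 10: change of coefficients, nilpotent families -/

set_option autoImplicit false

noncomputable section

namespace Crest.Agent.R010

variable {k k' : Type} [CommRing k] [CommRing k'] {σ τ : Type}

/-! ### change of coefficients -/

theorem cf_mapC (φ : k →+* k') (w : FreeMonoid σ) (f : FA k σ) :
    cf w (mapC φ f) = φ (cf w f) := by
  exact MonoidAlgebra.coeff_mapRingHom φ f w
@[simp] theorem mapC_wd (φ : k →+* k') (w : FreeMonoid σ) : mapC φ (wd w : FA k σ) = wd w := by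
  simp [wd, MonoidAlgebra.mapRingHom_single]
@[simp] theorem mapC_gen (φ : k →+* k') (c : σ) : mapC φ (gen c : FA k σ) = gen c := mapC_wd φ _
theorem mapC_smul (φ : k →+* k') (c : k) (f : FA k σ) : mapC φ (c • f) = φ c • mapC φ f := by
  refine ext_cf fun w => ?_
  rw [cf_mapC, (cf w).map_smul, (cf w).map_smul, cf_mapC, smul_eq_mul, smul_eq_mul, map_mul]
theorem mapC_lie (φ : k →+* k') (f g : FA k σ) : mapC φ ⁅f, g⁆ = ⁅mapC φ f, mapC φ g⁆ := by
  simp [Ring.lie_def]
@[simp] theorem mapC_br (φ : k →+* k') (m : FreeMagma σ) : mapC φ (br m : FA k σ) = br m := by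
  induction m using FreeMagma.recOnMul with
  | ih1 c => exact mapC_gen φ c
  | ih2 a b ha hb => rw [br_mul, br_mul, mapC_lie, ha, hb]
theorem mapC_injective {φ : k →+* k'} (h : Function.Injective φ) :
    Function.Injective (mapC φ : FA k σ → FA k' σ) := by
  intro f g e
  refine ext_cf fun w => h ?_
  rw [← cf_mapC, ← cf_mapC, e]
theorem mapC_ev (φ : k →+* k') (v : σ → FA k τ) (f : FA k σ) :
    mapC φ (ev v f) = ev (fun c => mapC φ (v c)) (mapC φ f) := by
  induction f using induction_left with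
  | h1 => simp
  | h0 => simp
  | hgen c a ha => simp only [map_mul, ev_gen, mapC_gen, ha]
  | hadd a b ha hb => simp only [map_add, ha, hb]
  | hsmul c a ha => rw [map_smul, mapC_smul, mapC_smul, map_smul, ha]
theorem mapC_der (φ : k →+* k') (d : σ → FA k σ) (f : FA k σ) :
    mapC φ (der d f) = der (fun c => mapC φ (d c)) (mapC φ f) := by
  induction f using induction_left with
  | h1 => simp
  | h0 => simp
  | hgen c a ha =>
    rw [isDer_der, map_mul, isDer_der, map_add, map_mul, map_mul, ha, mapC_gen, der_gen, der_gen]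
  | hadd a b ha hb => simp only [map_add, ha, hb]
  | hsmul c a ha => rw [map_smul, mapC_smul, mapC_smul, map_smul, ha]
/-- Base change of operator evaluations. -/
theorem mapC_ev_op (φ : k →+* k') (O : σ → Module.End k (FA k τ))
    (O' : σ → Module.End k' (FA k' τ)) (h : ∀ c x, mapC φ (O c x) = O' c (mapC φ x))
    (f : FA k σ) (x : FA k τ) : mapC φ (ev O f x) = ev O' (mapC φ f) (mapC φ x) := by
  induction f using induction_left with
  | h1 => simp
  | h0 => simp
  | hgen c a ha => simp only [map_mul, ev_gen, mapC_gen, Module.End.mul_apply, h, ha]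
  | hadd a b ha hb => simp only [map_add, LinearMap.add_apply, ha, hb]
  | hsmul c a ha =>
    rw [map_smul, LinearMap.smul_apply, mapC_smul, mapC_smul, map_smul, LinearMap.smul_apply, ha]
theorem mapC_mem_supp (φ : k →+* k') {p : FreeMonoid σ → Prop} {f : FA k σ} (hf : f ∈ supp p) :
    mapC φ f ∈ supp p := by
  intro w hw
  rw [cf_mapC, hf w hw, map_zero]
theorem mem_supp_of_mapC {φ : k →+* k'} (h : Function.Injective φ) {p : FreeMonoid σ → Prop}
    {f : FA k σ} (hf : mapC φ f ∈ supp p) : f ∈ supp p := by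
  intro w hw
  apply h
  rw [← cf_mapC, hf w hw, map_zero]
theorem mapC_restr (φ : k →+* k') (p : FreeMonoid σ → Prop) (f : FA k σ) :
    mapC φ (restr p f) = restr p (mapC φ f) := by
  refine ext_cf fun w => ?_
  rw [cf_mapC, cf_restr, cf_restr, cf_mapC]
  split_ifs <;> simp
theorem mapC_mem_LieS (φ : k →+* k') {f : FA k σ} (hf : f ∈ LieS k σ) :
    mapC φ f ∈ LieS k' σ := by
  induction hf using Submodule.span_induction with
  | mem x hx => obtain ⟨m, rfl⟩ := hx; rw [mapC_br]; exact br_mem_LieS m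
  | zero => simp
  | add a b _ _ ha hb => rw [map_add]; exact add_mem ha hb
  | smul c a _ ha => rw [mapC_smul]; exact Submodule.smul_mem _ _ ha
theorem mapC_mem_LieW (φ : k →+* k') {δ : σ → ℕ} {n : ℕ} {f : FA k σ} (hf : f ∈ LieW k δ n) :
    mapC φ f ∈ LieW k' δ n := ⟨mapC_mem_LieS φ hf.1, mapC_mem_supp φ hf.2⟩
/-- Lifting bihomogeneous Lie polynomials along a surjection of coefficients. -/
theorem exists_lift_LieW {φ : k →+* k'} (h : Function.Surjective φ) {δ δ' : σ → ℕ} {n n' : ℕ}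
    {f : FA k' σ} (hf : f ∈ LieW k' δ n) (hf' : f ∈ hom δ' n') :
    ∃ g : FA k σ, g ∈ LieW k δ n ∧ g ∈ hom δ' n' ∧ mapC φ g = f := by
  have hm : f ∈ LieW k' δ n ⊓ hom δ' n' := ⟨hf, hf'⟩
  rw [LieW_inf_hom_eq_span] at hm
  clear hf hf'
  induction hm using Submodule.span_induction with
  | mem x hx =>
    obtain ⟨m, h1, h2, rfl⟩ := hx
    exact ⟨br m, ⟨br_mem_LieS m, h1 ▸ br_mem_hom δ m⟩, h2 ▸ br_mem_hom δ' m, mapC_br φ m⟩
  | zero => exact ⟨0, zero_mem _, zero_mem _, map_zero _⟩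
  | add a b _ _ ha hb =>
    obtain ⟨g, h1, h2, rfl⟩ := ha
    obtain ⟨g', h1', h2', rfl⟩ := hb
    exact ⟨g + g', add_mem h1 h1', add_mem h2 h2', map_add _ _ _⟩
  | smul c a _ ha =>
    obtain ⟨g, h1, h2, rfl⟩ := ha
    obtain ⟨c', rfl⟩ := h c
    exact ⟨c' • g, Submodule.smul_mem _ _ h1, Submodule.smul_mem _ _ h2, mapC_smul _ _ _⟩
theorem exists_smul_of_dvd_cf_b4 {r : k} {g : FA k σ} (h : ∀ w, r ∣ cf w g) :
    ∃ g' : FA k σ, g = r • g' := by
  choose c hc using h
  refine ⟨∑ w ∈ g.coeff.support, c w • wd w, ?_⟩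
  conv_lhs => rw [eq_sum_wd g]
  rw [Finset.smul_sum]
  refine Finset.sum_congr rfl fun w _ => ?_
  rw [hc w, mul_smul]
theorem exists_two_smul_of_mapC {g : FA ℤ σ} (h : mapC (Int.castRingHom F2) g = 0) :
    ∃ g' : FA ℤ σ, g = (2 : ℤ) • g' := by
  refine exists_smul_of_dvd_cf_b4 fun w => ?_
  have h1 := cf_mapC (Int.castRingHom F2) w g
  rw [h, map_zero] at h1
  exact (ZMod.intCast_zmod_eq_zero_iff_dvd _ 2).1 h1.symm
theorem eq_zero_of_smul_eq_zero_int {r : ℤ} (hr : r ≠ 0) {g : FA ℤ σ} (h : r • g = 0) : g = 0 := by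
  refine ext_cf fun w => ?_
  have h1 := congrArg (cf w) h
  rw [map_smul, map_zero, smul_eq_mul, mul_eq_zero] at h1
  rw [map_zero]
  exact h1.resolve_left hr
theorem mem_supp_of_smul_int {r : ℤ} (hr : r ≠ 0) {p : FreeMonoid σ → Prop} {g : FA ℤ σ}
    (h : r • g ∈ supp p) : g ∈ supp p := by
  intro w hw
  have h1 := h w hw
  rw [map_smul, smul_eq_mul, mul_eq_zero] at h1
  exact h1.resolve_left hr
theorem eq_zero_of_two_pow_dvd {g : FA ℤ σ} (h : ∀ j : ℕ, ∃ g' : FA ℤ σ, g = (2 : ℤ) ^ j • g') :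
    g = 0 := by
  refine ext_cf fun w => ?_
  rw [map_zero]
  refine Int.eq_zero_of_abs_lt_dvd (m := (2 : ℤ) ^ (cf w g).natAbs) ?_ ?_
  · obtain ⟨g', e⟩ := h (cf w g).natAbs
    refine ⟨cf w g', ?_⟩
    conv_lhs => rw [e]
    rw [map_smul, smul_eq_mul]
  · rw [Int.abs_eq_natAbs]
    exact_mod_cast Nat.lt_two_pow_self
theorem exists_int_span_b4 (S : Submodule ℤ (FA ℤ σ)) {s : Set (FA ℚ σ)} {f : FA ℚ σ}
    (hf : f ∈ Submodule.span ℚ s) (hs : ∀ x ∈ s, ∃ g ∈ S, mapC (Int.castRingHom ℚ) g = x) :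
    ∃ (r : ℤ) (g : FA ℤ σ), r ≠ 0 ∧ g ∈ S ∧ mapC (Int.castRingHom ℚ) g = (r : ℚ) • f := by
  induction hf using Submodule.span_induction with
  | mem x hx =>
    obtain ⟨g, h1, h2⟩ := hs x hx
    exact ⟨1, g, one_ne_zero, h1, by simp [h2]⟩
  | zero => exact ⟨1, 0, one_ne_zero, zero_mem _, by simp⟩
  | add a b _ _ ha hb =>
    obtain ⟨r, g, hr, h1, h2⟩ := ha
    obtain ⟨r', g', hr', h1', h2'⟩ := hb
    refine ⟨r * r', r' • g + r • g', mul_ne_zero hr hr',
      add_mem (S.smul_mem _ h1) (S.smul_mem _ h1'), ?_⟩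
    rw [map_add, mapC_smul, mapC_smul, h2, h2', smul_smul, smul_smul, smul_add]
    simp [mul_comm]
  | smul c a _ ha =>
    obtain ⟨r, g, hr, h1, h2⟩ := ha
    refine ⟨r * c.den, c.num • g, mul_ne_zero hr (by exact_mod_cast c.den_nz), S.smul_mem _ h1, ?_⟩
    rw [mapC_smul, h2, smul_smul, smul_smul]
    congr 1
    have := Rat.den_mul_eq_num c
    simp only [eq_intCast, Int.cast_mul, Int.cast_natCast, mul_assoc, this]
    ring
/-- Clearing denominators. -/
theorem exists_int_LieW {δ : σ → ℕ} {n : ℕ} {f : FA ℚ σ} (hf : f ∈ LieW ℚ δ n) :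
    ∃ (r : ℤ) (g : FA ℤ σ), r ≠ 0 ∧ g ∈ LieW ℤ δ n ∧ mapC (Int.castRingHom ℚ) g = (r : ℚ) • f := by
  rw [LieW_eq_span] at hf
  refine exists_int_span_b4 (LieW ℤ δ n) hf ?_
  rintro _ ⟨m, h1, rfl⟩
  exact ⟨br m, ⟨br_mem_LieS m, h1 ▸ br_mem_hom δ m⟩, mapC_br _ m⟩
theorem exists_int (f : FA ℚ σ) :
    ∃ (r : ℤ) (g : FA ℤ σ), r ≠ 0 ∧ mapC (Int.castRingHom ℚ) g = (r : ℚ) • f := by
  have hf : f ∈ (supp (fun _ => True) : Submodule ℚ (FA ℚ σ)) := fun w hw => (hw trivial).elim
  rw [supp_eq_span] at hf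
  obtain ⟨r, g, hr, -, h⟩ := exists_int_span_b4 ⊤ hf (by
    rintro _ ⟨w, -, rfl⟩
    exact ⟨wd w, trivial, mapC_wd _ w⟩)
  exact ⟨r, g, hr, h⟩
theorem mapC_Dih (φ : k →+* k') (ψ f : FA k (Fin 2)) :
    mapC φ (Dih ψ f) = Dih (mapC φ ψ) (mapC φ f) := by
  rw [Dih, mapC_der, Dih]
  congr 2
  funext c
  fin_cases c <;> simp [mapC_lie]
theorem mapC_ihara (φ : k →+* k') (ψ f : FA k (Fin 2)) :
    mapC φ (ihara ψ f) = ihara (mapC φ ψ) (mapC φ f) := by
  simp only [ihara, map_add, map_sub, mapC_Dih, mapC_lie]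
theorem mapC_PhiS (φ : k →+* k') (s : ℕ → FA k (Fin 2)) (f : FA k ℕ) :
    mapC φ (PhiS s f) = PhiS (fun j => mapC φ (s j)) (mapC φ f) := by
  rw [PhiS_apply, PhiS_apply, mapC_ev_op φ _ (fun j => nabla (mapC φ (s j))), map_one]
  intro c x
  rw [nabla_apply, nabla_apply, map_add, map_mul, mapC_Dih]
theorem mapC_antiD (φ : k →+* k') (ψ : FA k (Fin 2)) : mapC φ (antiD ψ) = antiD (mapC φ ψ) := by
  rw [antiD, antiD, map_add, mapC_ev]
  congr 3
  funext c
  fin_cases c <;> simp
theorem mapC_Pmod (φ : k →+* k') (ψ : FA k (Fin 2)) : mapC φ (Pmod ψ) = Pmod (mapC φ ψ) := by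
  have hA : ∀ x, mapC φ (opA k x) = opA k' (mapC φ x) := fun x => by
    rw [opA, opA, mapC_der]
    congr 2
    funext c
    fin_cases c <;> simp [mapC_lie]
  have hB : ∀ x, mapC φ (opB k x) = opB k' (mapC φ x) := fun x => by
    rw [opB, opB, mapC_der]
    congr 2
    funext c
    fin_cases c <;> simp [mapC_lie]
  have hC : ∀ x, mapC φ (opC k x) = opC k' (mapC φ x) := fun x => by
    rw [opC, opC, mapC_der]
    congr 2
    funext c
    fin_cases c <;> simp [mapC_lie]
  have hT : ∀ i j x, mapC φ (opT k i j x) = opT k' i j (mapC φ x) := fun i j x => by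
    fin_cases i <;> fin_cases j <;> simp [opT, hA, hB, hC]
  have hE : ∀ (p q : Module.End k (FA k (Fin 3))) (p' q' : Module.End k' (FA k' (Fin 3))),
      (∀ x, mapC φ (p x) = p' (mapC φ x)) → (∀ x, mapC φ (q x) = q' (mapC φ x)) →
      mapC φ (ev2 p q ψ 1) = ev2 p' q' (mapC φ ψ) 1 := fun p q p' q' hp hq => by
    rw [mapC_ev_op φ _ ![p', q'], map_one]
    intro c x
    fin_cases c
    · exact hp x
    · exact hq x
  simp only [Pmod, pent4, LinearMap.add_apply, LinearMap.sub_apply, map_add, map_sub]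
  congr 1
  congr 1
  congr 1
  congr 1
  all_goals apply hE <;> intro x <;> simp only [LinearMap.add_apply, map_add, hT]

/-! ### nilpotent families -/

section Nil

variable {R R' : Type} [Ring R] [Algebra k R] [Ring R'] [Algebra k R'] {ι : Type}

theorem Nil.prod_eq_zero_b4 {N : ℕ} {v : σ → R} (h : Nil N v) (l : List σ) (hl : N + 1 ≤ l.length) :
    (l.map v).prod = 0 := by
  rw [← List.take_append_drop (N + 1) l, List.map_append, List.prod_append,
    h _ (by rw [List.length_take]; omega), zero_mul]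
theorem Nil.ev_eq_zero {N : ℕ} {v : σ → R} (h : Nil N v) {f : FA k σ}
    (hf : f ∈ fil (one σ) (N + 1)) : ev v f = 0 := by
  refine supp_induction (q := fun f => ev v f = 0) hf (fun w hw => ?_) (map_zero _)
    (fun a b ha hb => ?_) (fun c a ha => ?_)
  · rw [ev_wd]
    rw [wdeg_one_eq_length] at hw
    exact h.prod_eq_zero_b4 _ hw
  · rw [map_add, ha, hb, add_zero]
  · rw [map_smul, ha, smul_zero]
theorem nil_of_ev {N : ℕ} {v : σ → R}
    (h : ∀ f : FA k σ, f ∈ hom (one σ) (N + 1) → ev v f = 0) : Nil N v := by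
  intro l hl
  have := h (wd (FreeMonoid.ofList l)) (wd_mem_supp (by rw [wdeg_one_eq_length]; exact hl))
  rwa [ev_wd] at this
theorem Nil.mono {N M : ℕ} {v : σ → R} (h : Nil N v) (hNM : N ≤ M) : Nil M v := by
  intro l hl
  exact h.prod_eq_zero_b4 l (by omega)
theorem Nil.map {F : Type} [FunLike F R R'] [MonoidWithZeroHomClass F R R'] (φ : F) {N : ℕ}
    {v : σ → R} (h : Nil N v) : Nil N (fun c => φ (v c)) := by
  intro l hl
  have := congrArg φ (h l hl)
  rw [map_list_prod, List.map_map, map_zero] at this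
  exact this
theorem Nil.of_map {F : Type} [FunLike F R R'] [MonoidWithZeroHomClass F R R'] (φ : F)
    (hφ : Function.Injective φ) {N : ℕ} {v : σ → R} (h : Nil N (fun c => φ (v c))) : Nil N v := by
  intro l hl
  apply hφ
  rw [map_list_prod, List.map_map, map_zero]
  exact h l hl
/-- A family of polynomials without constant term in a nilpotent family is nilpotent. -/
theorem Nil.of_ev {N : ℕ} {v : σ → R} (h : Nil N v) {v' : τ → R}
    (hv : ∀ c, ∃ f : FA k σ, f ∈ fil (one σ) 1 ∧ ev v f = v' c) : Nil N v' := by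
  choose g hg hg' using hv
  refine nil_of_ev (k := k) fun f hf => ?_
  have e : ev v' f = ev v (ev g f) := by
    rw [map_ev]; exact ev_congr (fun c => (hg' c).symm) f
  rw [e]
  exact h.ev_eq_zero (ev_mem_fil (δ := one τ) hg (mem_fil_of_hom hf le_rfl))
theorem Nil.of_mem_span {N : ℕ} {v : σ → R} (h : Nil N v) {v' : τ → R}
    (hv : ∀ c, v' c ∈ Submodule.span k (Set.range v)) : Nil N v' := by
  refine h.of_ev (k := k) fun c => ?_
  have := hv c
  generalize v' c = x at this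
  induction this using Submodule.span_induction with
  | mem x hx =>
    obtain ⟨c, rfl⟩ := hx
    exact ⟨gen c, mem_fil_of_hom (gen_mem_hom _ c) le_rfl, ev_gen v c⟩
  | zero => exact ⟨0, zero_mem _, map_zero _⟩
  | add a b _ _ ha hb =>
    obtain ⟨f, h1, rfl⟩ := ha
    obtain ⟨g, h2, rfl⟩ := hb
    exact ⟨f + g, add_mem h1 h2, map_add _ _ _⟩
  | smul c a _ ha =>
    obtain ⟨f, h1, rfl⟩ := ha
    exact ⟨c • f, Submodule.smul_mem _ _ h1, map_smul _ _ _⟩
theorem Nil.pow_eq_zero {N : ℕ} {v : σ → R} (h : Nil N v) {x : R}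
    (hx : x ∈ Submodule.span k (Set.range v)) : x ^ (N + 1) = 0 := by
  have h1 : Nil N (fun _ : Unit => x) := h.of_mem_span (k := k) fun _ => hx
  have h2 := h1 (List.replicate (N + 1) ()) (by simp)
  simpa using h2
theorem sub_sum_proj_mem_fil_b4 (δ : σ → ℕ) (n : ℕ) (f : FA k σ) :
    f - ∑ m ∈ Finset.range n, proj δ m f ∈ fil δ n := by
  intro w hw
  rw [map_sub, map_sum, Finset.sum_eq_single (wdeg δ w), cf_proj, sub_self]
  · intro m _ hm
    exact proj_mem_hom δ m f w (Ne.symm hm)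
  · intro hm
    exact absurd (Finset.mem_range.2 (by omega)) hm
theorem Nil.finite_adjoin [Finite σ] {N : ℕ} {v : σ → R} (h : Nil N v) :
    Module.Finite k (Algebra.adjoin k (Set.range v)) := by
  have hfg : ((Finset.range (N + 1)).sup fun n =>
      (hom (one σ) n : Submodule k (FA k σ)).map (ev (k := k) v).toLinearMap).FG :=
    Submodule.fg_finset_sup _ _ fun n _ => (hom_fg n).map _
  have e : Subalgebra.toSubmodule (Algebra.adjoin k (Set.range v)) =
      (Finset.range (N + 1)).sup fun n =>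
        (hom (one σ) n : Submodule k (FA k σ)).map (ev (k := k) v).toLinearMap := by
    rw [← range_ev]
    refine le_antisymm ?_ (Finset.sup_le fun n _ => ?_)
    · rintro _ ⟨f, rfl⟩
      have h1 := h.ev_eq_zero (sub_sum_proj_mem_fil_b4 (one σ) (N + 1) f)
      rw [map_sub, sub_eq_zero, map_sum] at h1
      change ev v f ∈ _
      rw [h1]
      refine Submodule.sum_mem _ fun n hn => ?_
      exact Finset.le_sup (f := fun n =>
        (hom (one σ) n : Submodule k (FA k σ)).map (ev (k := k) v).toLinearMap) hn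
        ⟨_, proj_mem_hom _ n f, rfl⟩
    · rintro _ ⟨f, -, rfl⟩
      exact ⟨f, rfl⟩
  rw [← e] at hfg
  exact Module.Finite.iff_fg.2 hfg

/-- The filtration of `R` by order in the family `v`. -/
def filR (k : Type) [CommRing k] {R : Type} [Ring R] [Algebra k R] (v : σ → R) (j : ℕ) :
    Submodule k R := (fil (one σ) j : Submodule k (FA k σ)).map (ev (k := k) v).toLinearMap

theorem filR_anti (v : σ → R) : Antitone (filR k v) := by
  intro i j h
  exact Submodule.map_mono (fil_anti _ h)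
theorem mul_mem_filR {v : σ → R} {i j : ℕ} {a b : R} (ha : a ∈ filR k v i) (hb : b ∈ filR k v j) :
    a * b ∈ filR k v (i + j) := by
  obtain ⟨f, hf, rfl⟩ := ha
  obtain ⟨g, hg, rfl⟩ := hb
  exact ⟨f * g, mul_mem_fil hf hg, map_mul (ev (k := k) v) f g⟩
theorem one_mem_filR (v : σ → R) : (1 : R) ∈ filR k v 0 := by
  exact ⟨1, mem_fil_zero _ _, map_one (ev (k := k) v)⟩
theorem self_mem_filR (v : σ → R) (c : σ) : v c ∈ filR k v 1 := by
  exact ⟨gen c, mem_fil_of_hom (gen_mem_hom _ c) le_rfl, ev_gen v c⟩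
theorem Nil.filR_eq_bot {N : ℕ} {v : σ → R} (h : Nil N v) : filR k v (N + 1) = ⊥ := by
  rw [eq_bot_iff]
  rintro _ ⟨f, hf, rfl⟩
  exact h.ev_eq_zero hf
theorem ev_mem_filR {v : σ → R} {u : τ → R} (hu : ∀ c, u c ∈ filR k v 1) {n : ℕ} {f : FA k τ}
    (hf : f ∈ fil (one τ) n) : ev u f ∈ filR k v n := by
  choose g hg hg' using hu
  refine ⟨ev g f, ev_mem_fil (δ := one τ) hg hf, ?_⟩
  change ev v (ev g f) = _
  rw [map_ev]
  exact ev_congr hg' f

end Nil

/-! ### The truncated free algebra -/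

section Trunc

/-- The two-sided ideal of polynomials of order `> N`. -/
def truncI (k σ : Type) [CommRing k] (N : ℕ) : TwoSidedIdeal (FA k σ) :=
  TwoSidedIdeal.mk' (fil (one σ) (N + 1) : Submodule k (FA k σ)) (zero_mem _)
    (fun h h' => add_mem h h') (fun h => neg_mem h)
    (fun {x y} h => fil_anti _ (by omega) (mul_mem_fil (mem_fil_zero _ x) h))
    (fun {x y} h => fil_anti _ (by omega) (mul_mem_fil h (mem_fil_zero _ y)))

/-- There is a universal `N`-nilpotent family in a module-finite algebra. -/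
theorem exists_universal_nil (k σ : Type) [CommRing k] [Finite σ] (N : ℕ) :
    ∃ (U : Type) (_ : Ring U) (_ : Algebra k U) (u : σ → U), Module.Finite k U ∧ Nil N u ∧
      Function.Surjective (ev (k := k) u) ∧
      (∀ f : FA k σ, ev u f = 0 ↔ f ∈ fil (one σ) (N + 1)) ∧
      ∀ (R : Type) [Ring R] [Algebra k R] (v : σ → R), Nil N v →
        ∃ φ : U →ₐ[k] R, ∀ c, φ (u c) = v c := by
  let c := (truncI k σ N).ringCon
  let π : FA k σ →ₐ[k] c.Quotient := RingCon.mkₐ k c
  let u : σ → c.Quotient := fun s => π (gen s)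
  have hπ : ev (k := k) u = π := (algHom_eq_ev π).symm
  have hc : ∀ f g : FA k σ, c f g ↔ f - g ∈ fil (one σ) (N + 1) := fun f g => by
    rw [TwoSidedIdeal.rel_iff, truncI, TwoSidedIdeal.mem_mk']; rfl
  have hker : ∀ f : FA k σ, ev u f = 0 ↔ f ∈ fil (one σ) (N + 1) := fun f => by
    rw [hπ, ← map_zero π]
    refine (RingCon.eq c).trans ?_
    rw [hc, sub_zero]
  have hsurj : Function.Surjective (ev (k := k) u) := by
    rw [hπ]; exact RingCon.mkₐ_surjective c
  have hnil : Nil N u := nil_of_ev (k := k) fun f hf => (hker f).2 (mem_fil_of_hom hf le_rfl)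
  refine ⟨c.Quotient, inferInstance, inferInstance, u, ?_, hnil, hsurj, hker, fun R _ _ v hv => ?_⟩
  · have := hnil.finite_adjoin (k := k)
    refine Module.Finite.of_surjective (Algebra.adjoin k (Set.range u)).val.toLinearMap fun x => ?_
    obtain ⟨f, rfl⟩ := hsurj x
    exact ⟨⟨ev u f, range_ev (k := k) u ▸ ⟨f, rfl⟩⟩, rfl⟩
  · refine ⟨RingCon.liftₐ c (ev (k := k) v) fun f g hfg => ?_, fun s => ?_⟩
    · have := hv.ev_eq_zero ((hc f g).1 hfg)
      rw [map_sub, sub_eq_zero] at this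
      exact this
    · exact ev_gen v s

end Trunc

end Crest.Agent.R010
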