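import Crest.Agent.R010.Basic4

/-! # Row 10: braid structures, four strands versus five strands -/

set_option autoImplicit false

noncomputable section

namespace Crest.Agent.R010

section General

variable {R R' : Type} [Ring R] [Ring R']

theorem IsT5.perm {X : Fin 5 → Fin 5 → R} (h : IsT5 X) (π : Equiv.Perm (Fin 5)) :
    IsT5 (fun i j => X (π i) (π j)) := by
  refine ⟨fun i j => h.symm _ _, fun i => h.diag _, fun i j a b h1 h2 h3 h4 h5 h6 =>
    h.comm _ _ _ _ (π.injective.ne h1) (π.injective.ne h2) (π.injective.ne h3) (π.injective.ne h4)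
      (π.injective.ne h5) (π.injective.ne h6), fun i => ?_⟩
  rw [Equiv.sum_comp π (fun j => X (π i) j)]
  exact h.sum _

theorem IsT5.neg {X : Fin 5 → Fin 5 → R} (h : IsT5 X) : IsT5 (fun i j => -X i j) := by
  refine ⟨fun i j => by rw [h.symm], fun i => by rw [h.diag, neg_zero],
    fun i j a b h1 h2 h3 h4 h5 h6 => (h.comm i j a b h1 h2 h3 h4 h5 h6).neg_left.neg_right,
    fun i => ?_⟩
  rw [Finset.sum_neg_distrib, h.sum, neg_zero]

theorem IsT5.map {F : Type} [FunLike F R R'] [RingHomClass F R R'] (φ : F)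
    {X : Fin 5 → Fin 5 → R} (h : IsT5 X) : IsT5 (fun i j => φ (X i j)) := by
  refine ⟨fun i j => by rw [h.symm], fun i => by rw [h.diag, map_zero],
    fun i j a b h1 h2 h3 h4 h5 h6 => (h.comm i j a b h1 h2 h3 h4 h5 h6).map φ, fun i => ?_⟩
  rw [← map_sum, h.sum, map_zero]

theorem IsT5.of_map {F : Type} [FunLike F R R'] [RingHomClass F R R'] (φ : F)
    (hφ : Function.Injective φ) {X : Fin 5 → Fin 5 → R} (h : IsT5 (fun i j => φ (X i j))) :
    IsT5 X := by
  refine ⟨fun i j => hφ (h.symm i j), fun i => hφ (by rw [map_zero]; exact h.diag i),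
    fun i j a b h1 h2 h3 h4 h5 h6 => hφ ?_, fun i => hφ ?_⟩
  · rw [map_mul, map_mul]
    exact (h.comm i j a b h1 h2 h3 h4 h5 h6).eq
  · rw [map_sum, map_zero]
    exact h.sum i

/-- Multiplying by an element commuting with everything. -/
theorem IsT5.central_mul {X : Fin 5 → Fin 5 → R} (h : IsT5 X) (s : R)
    (hs : ∀ i j, Commute s (X i j)) : IsT5 (fun i j => s * X i j) := by
  refine ⟨fun i j => by rw [h.symm], fun i => by rw [h.diag, mul_zero],
    fun i j a b h1 h2 h3 h4 h5 h6 => ?_, fun i => ?_⟩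
  · exact ((Commute.refl s).mul_left (hs i j).symm).mul_right
      ((hs a b).mul_left (h.comm i j a b h1 h2 h3 h4 h5 h6))
  · rw [← Finset.mul_sum, h.sum, mul_zero]

/-- Every list of five distinct indices comes from a permutation. -/
theorem exists_perm_of_nodup {i j s l m : Fin 5} (h : [i, j, s, l, m].Nodup) :
    ∃ π : Equiv.Perm (Fin 5), π 0 = i ∧ π 1 = j ∧ π 2 = s ∧ π 3 = l ∧ π 4 = m := by
  have hinj : Function.Injective (![i, j, s, l, m] : Fin 5 → Fin 5) :=
    List.nodup_ofFn.1 (by simpa using h)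
  exact ⟨Equiv.ofBijective _ (Finite.injective_iff_bijective.1 hinj), rfl, rfl, rfl, rfl, rfl⟩

/-- It is enough to check the fifteen commutations of disjoint chords. -/
theorem braid_isT5_of {X : Fin 5 → Fin 5 → R} (hs : ∀ i j, X i j = X j i) (hd : ∀ i, X i i = 0)
    (hsum : ∀ i, ∑ j, X i j = 0)
    (c1 : Commute (X 0 1) (X 2 3)) (c2 : Commute (X 0 1) (X 2 4)) (c3 : Commute (X 0 1) (X 3 4))
    (c4 : Commute (X 0 2) (X 1 3)) (c5 : Commute (X 0 2) (X 1 4)) (c6 : Commute (X 0 2) (X 3 4))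
    (c7 : Commute (X 0 3) (X 1 2)) (c8 : Commute (X 0 3) (X 1 4)) (c9 : Commute (X 0 3) (X 2 4))
    (c10 : Commute (X 0 4) (X 1 2)) (c11 : Commute (X 0 4) (X 1 3)) (c12 : Commute (X 0 4) (X 2 3))
    (c13 : Commute (X 1 2) (X 3 4)) (c14 : Commute (X 1 3) (X 2 4))
    (c15 : Commute (X 1 4) (X 2 3)) : IsT5 X := by
  have dec : ∀ i j a b : Fin 5, i < j → a < b → i < a → j ≠ a → j ≠ b →
      (i, j, a, b) ∈ ([(0, 1, 2, 3), (0, 1, 2, 4), (0, 1, 3, 4), (0, 2, 1, 3), (0, 2, 1, 4),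
        (0, 2, 3, 4), (0, 3, 1, 2), (0, 3, 1, 4), (0, 3, 2, 4), (0, 4, 1, 2), (0, 4, 1, 3),
        (0, 4, 2, 3), (1, 2, 3, 4), (1, 3, 2, 4), (1, 4, 2, 3)] :
          List (Fin 5 × Fin 5 × Fin 5 × Fin 5)) := by decide
  have k1 : ∀ i j a b : Fin 5, i < j → a < b → i < a → j ≠ a → j ≠ b →
      Commute (X i j) (X a b) := by
    intro i j a b h1 h2 h3 h4 h5
    have := dec i j a b h1 h2 h3 h4 h5
    simp only [List.mem_cons, Prod.mk.injEq, List.not_mem_nil, or_false] at this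
    rcases this with h | h | h | h | h | h | h | h | h | h | h | h | h | h | h <;>
      obtain ⟨rfl, rfl, rfl, rfl⟩ := h <;> assumption
  have k2 : ∀ i j a b : Fin 5, i < j → a < b → i ≠ a → i ≠ b → j ≠ a → j ≠ b →
      Commute (X i j) (X a b) := by
    intro i j a b h1 h2 h3 h4 h5 h6
    rcases lt_or_gt_of_ne h3 with h | h
    · exact k1 i j a b h1 h2 h h5 h6
    · exact (k1 a b i j h2 h1 h h4.symm h6.symm).symm
  have k3 : ∀ i j a b : Fin 5, i < j → a ≠ b → i ≠ a → i ≠ b → j ≠ a → j ≠ b →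
      Commute (X i j) (X a b) := by
    intro i j a b h1 h2 h3 h4 h5 h6
    rcases lt_or_gt_of_ne h2 with h | h
    · exact k2 i j a b h1 h h3 h4 h5 h6
    · rw [hs a b]; exact k2 i j b a h1 h h4 h3 h6 h5
  refine ⟨hs, hd, fun i j a b h1 h2 h3 h4 h5 h6 => ?_, hsum⟩
  rcases lt_or_gt_of_ne h1 with h | h
  · exact k3 i j a b h h6 h2 h3 h4 h5
  · rw [hs i j]; exact k3 j i a b h h6 h4 h5 h2 h3

/-- It is enough to check three commutations and twelve triangle relations. -/
theorem braid_isT4_of {t : Fin 4 → Fin 4 → R} (hs : ∀ i j, t i j = t j i)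
    (c1 : Commute (t 0 1) (t 2 3)) (c2 : Commute (t 0 2) (t 1 3)) (c3 : Commute (t 0 3) (t 1 2))
    (d1 : Commute (t 0 1) (t 0 2 + t 1 2)) (d2 : Commute (t 0 1) (t 0 3 + t 1 3))
    (d3 : Commute (t 0 2) (t 0 1 + t 2 1)) (d4 : Commute (t 0 2) (t 0 3 + t 2 3))
    (d5 : Commute (t 0 3) (t 0 1 + t 3 1)) (d6 : Commute (t 0 3) (t 0 2 + t 3 2))
    (d7 : Commute (t 1 2) (t 1 0 + t 2 0)) (d8 : Commute (t 1 2) (t 1 3 + t 2 3))
    (d9 : Commute (t 1 3) (t 1 0 + t 3 0)) (d10 : Commute (t 1 3) (t 1 2 + t 3 2))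
    (d11 : Commute (t 2 3) (t 2 0 + t 3 0)) (d12 : Commute (t 2 3) (t 2 1 + t 3 1)) : IsT4 t := by
  have dec : ∀ i j a b : Fin 4, i < j → a < b → i < a → j ≠ a → j ≠ b →
      (i, j, a, b) ∈ ([(0, 1, 2, 3), (0, 2, 1, 3), (0, 3, 1, 2)] :
          List (Fin 4 × Fin 4 × Fin 4 × Fin 4)) := by decide
  have k1 : ∀ i j a b : Fin 4, i < j → a < b → i < a → j ≠ a → j ≠ b →
      Commute (t i j) (t a b) := by
    intro i j a b h1 h2 h3 h4 h5
    have := dec i j a b h1 h2 h3 h4 h5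
    simp only [List.mem_cons, Prod.mk.injEq, List.not_mem_nil, or_false] at this
    rcases this with h | h | h <;> obtain ⟨rfl, rfl, rfl, rfl⟩ := h <;> assumption
  have k2 : ∀ i j a b : Fin 4, i < j → a < b → i ≠ a → i ≠ b → j ≠ a → j ≠ b →
      Commute (t i j) (t a b) := by
    intro i j a b h1 h2 h3 h4 h5 h6
    rcases lt_or_gt_of_ne h3 with h | h
    · exact k1 i j a b h1 h2 h h5 h6
    · exact (k1 a b i j h2 h1 h h4.symm h6.symm).symm
  have k3 : ∀ i j a b : Fin 4, i < j → a ≠ b → i ≠ a → i ≠ b → j ≠ a → j ≠ b →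
      Commute (t i j) (t a b) := by
    intro i j a b h1 h2 h3 h4 h5 h6
    rcases lt_or_gt_of_ne h2 with h | h
    · exact k2 i j a b h1 h h3 h4 h5 h6
    · rw [hs a b]; exact k2 i j b a h1 h h4 h3 h6 h5
  have dec' : ∀ i j a : Fin 4, i < j → i ≠ a → j ≠ a →
      (i, j, a) ∈ ([(0, 1, 2), (0, 1, 3), (0, 2, 1), (0, 2, 3), (0, 3, 1), (0, 3, 2), (1, 2, 0),
        (1, 2, 3), (1, 3, 0), (1, 3, 2), (2, 3, 0), (2, 3, 1)] :
          List (Fin 4 × Fin 4 × Fin 4)) := by decide
  have k4 : ∀ i j a : Fin 4, i < j → i ≠ a → j ≠ a → Commute (t i j) (t i a + t j a) := by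
    intro i j a h1 h2 h3
    have := dec' i j a h1 h2 h3
    simp only [List.mem_cons, Prod.mk.injEq, List.not_mem_nil, or_false] at this
    rcases this with h | h | h | h | h | h | h | h | h | h | h | h <;>
      obtain ⟨rfl, rfl, rfl⟩ := h <;> assumption
  refine ⟨hs, fun i j a b h1 h2 h3 h4 h5 h6 => ?_, fun i j a h1 h2 h3 => ?_⟩
  · rcases lt_or_gt_of_ne h1 with h | h
    · exact k3 i j a b h h6 h2 h3 h4 h5
    · rw [hs i j]; exact k3 j i a b h h6 h4 h5 h2 h3
  · rcases lt_or_gt_of_ne h1 with h | h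
    · exact k4 i j a h h2 h3
    · rw [hs i j, add_comm]; exact k4 j i a h h3 h2

/-- The five-strand structure built from five chords `a = 01, b = 02, d = 12, e = 13, f = 23`. -/
theorem braid_T5_of_five {a b d e f : R} (af : Commute a f) (be : Commute b e)
    (a1 : Commute a (b + d)) (b1 : Commute b (a + d)) (d1 : Commute d (a + b))
    (d2 : Commute d (e + f)) (e1 : Commute e (d + f)) (f1 : Commute f (d + e)) :
    IsT5 (![![0, a, b, -(a + b + d + e + f), d + e + f],
      ![a, 0, d, e, -(a + d + e)],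
      ![b, d, 0, f, -(b + d + f)],
      ![-(a + b + d + e + f), e, f, 0, a + b + d],
      ![d + e + f, -(a + d + e), -(b + d + f), a + b + d, 0]] : Fin 5 → Fin 5 → R) := by
  have p1 : Commute a (b + d + f) := a1.add_right af
  have p2 : Commute a (a + b + d) := by
    rw [add_assoc]; exact (Commute.refl a).add_right a1
  have p3 : Commute b (a + d + e) := b1.add_right be
  have p4 : Commute b (a + b + d) := by
    rw [show a + b + d = b + (a + d) by abel]; exact (Commute.refl b).add_right b1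
  have p5 : Commute d (a + b + d) := d1.add_right (Commute.refl d)
  have p6 : Commute d (a + b + d + e + f) := by
    rw [add_assoc (a + b + d)]; exact p5.add_right d2
  have p7 : Commute f (a + d + e) := by
    rw [add_assoc]; exact af.symm.add_right f1
  have p8 : Commute e (b + d + f) := by
    rw [add_assoc]; exact be.symm.add_right e1
  have p9 : Commute (a + b + d + e + f) (a + d + e) := by
    rw [show a + b + d + e + f = (a + d + e) + (b + f) by abel]
    exact (Commute.refl _).add_left (p3.add_left p7)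
  have p10 : Commute (a + b + d + e + f) (b + d + f) := by
    rw [show a + b + d + e + f = (b + d + f) + (a + e) by abel]
    exact (Commute.refl _).add_left (p1.add_left p8)
  have p11 : Commute d (d + e + f) := by
    rw [add_assoc]; exact (Commute.refl d).add_right d2
  have p12 : Commute e (d + e + f) := by
    rw [show d + e + f = e + (d + f) by abel]; exact (Commute.refl e).add_right e1
  have p13 : Commute f (d + e + f) := f1.add_right (Commute.refl f)
  refine braid_isT5_of (fun i j => ?_) (fun i => ?_) (fun i => ?_) af p1.neg_right p2 be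
    p3.neg_right p4 p6.symm.neg_left p9.neg_left.neg_right p10.neg_left.neg_right p11.symm
    p12.symm p13.symm p5 p8.neg_right p7.symm.neg_left
  · fin_cases i <;> fin_cases j <;> rfl
  · fin_cases i <;> rfl
  · rw [Fin.sum_univ_five]
    fin_cases i
    · change 0 + a + b + -(a + b + d + e + f) + (d + e + f) = 0
      abel
    · change a + 0 + d + e + -(a + d + e) = 0
      abel
    · change b + d + 0 + f + -(b + d + f) = 0
      abel
    · change -(a + b + d + e + f) + e + f + 0 + (a + b + d) = 0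
      abel
    · change d + e + f + -(a + d + e) + -(b + d + f) + (a + b + d) + 0 = 0
      abel

/-- The five-strand structure attached to a four-strand structure: `X 0 3 = t 0 3 - C` with
`C = ∑_{i<j} t i j` (central), `X i 4 = -∑_{j<4} X i j`. -/
theorem IsT4.exists_T5 {t : Fin 4 → Fin 4 → R} (h : IsT4 t) :
    ∃ X : Fin 5 → Fin 5 → R, IsT5 X ∧ X 0 1 = t 0 1 ∧ X 0 2 = t 0 2 ∧ X 1 2 = t 1 2 ∧
      X 1 3 = t 1 3 ∧ X 2 3 = t 2 3 := by
  refine ⟨_, braid_T5_of_five (a := t 0 1) (b := t 0 2) (d := t 1 2) (e := t 1 3) (f := t 2 3)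
    (h.comm 0 1 2 3 (by decide) (by decide) (by decide) (by decide) (by decide) (by decide))
    (h.comm 0 2 1 3 (by decide) (by decide) (by decide) (by decide) (by decide) (by decide))
    (h.tri 0 1 2 (by decide) (by decide) (by decide)) ?_ ?_
    (h.tri 1 2 3 (by decide) (by decide) (by decide)) ?_ ?_, rfl, rfl, rfl, rfl, rfl⟩
  · have := h.tri 0 2 1 (by decide) (by decide) (by decide)
    rwa [h.symm 2 1] at this
  · have := h.tri 1 2 0 (by decide) (by decide) (by decide)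
    rwa [h.symm 1 0, h.symm 2 0] at this
  · have := h.tri 1 3 2 (by decide) (by decide) (by decide)
    rwa [h.symm 3 2] at this
  · have := h.tri 2 3 1 (by decide) (by decide) (by decide)
    rwa [h.symm 2 1, h.symm 3 1] at this

theorem braid_comm_der_Lm {k : Type} [CommRing k] [Algebra k R] {D : Module.End k R} (h : IsDer D)
    {a : R} (ha : D a = 0) : Commute D (Lm a) := by
  rw [← lie_eq_zero_iff_commute, h.lie_Lm, ha]
  exact LinearMap.mulLeft_zero_eq_zero k R

theorem braid_comm_der_Lm2 {k : Type} [CommRing k] [Algebra k R] {D : Module.End k R} (h : IsDer D)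
    {a b : R} (ha : D a + D b = 0) : Commute D (Lm a + Lm b) := by
  have e : (Lm a + Lm b : Module.End k R) = Lm (a + b) := by
    ext x; simp [add_mul]
  rw [e]
  exact braid_comm_der_Lm h (by rw [map_add, ha])

theorem braid_comm_Lm_der {k : Type} [CommRing k] [Algebra k R] {D : Module.End k R} (h : IsDer D)
    {a b : R} (ha : D a = ⁅a, b⁆) : Commute (Lm a : Module.End k R) (D + Lm b) := by
  refine LinearMap.ext fun x => ?_
  simp only [Module.End.mul_apply, LinearMap.add_apply, LinearMap.mulLeft_apply]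
  rw [h a x, ha, Ring.lie_def]
  noncomm_ring

theorem braid_comm_neg {a b : R} (h : Commute a b) : Commute a (-b) := h.neg_right

theorem braid_lie_swap (a b : R) : ⁅a, b⁆ + ⁅b, a⁆ = 0 := by
  rw [Ring.lie_def, Ring.lie_def]; abel

/-- The operators on `M = k⟨a,b,t⟩` satisfy the four-strand relations.  Use
`IsDer.lie_Lm`, and `opA + opB + opC = -ad(a+b+t)` (`IsDer.ext`), `IsDer.lie_adm`. -/
theorem isT4_opT (k : Type) [CommRing k] : IsT4 (opT k) := by
  have hA : IsDer (opA k) := isDer_der _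
  have hB : IsDer (opB k) := isDer_der _
  have hC : IsDer (opC k) := isDer_der _
  have A0 : opA k (gen 0) = ⁅(gen 0 : FA k (Fin 3)), gen 2⁆ := der_gen _ _
  have A1 : opA k (gen 1) = 0 := der_gen _ _
  have A2 : opA k (gen 2) = ⁅(gen 2 : FA k (Fin 3)), gen 0⁆ := der_gen _ _
  have B0 : opB k (gen 0) = 0 := der_gen _ _
  have B1 : opB k (gen 1) = ⁅(gen 1 : FA k (Fin 3)), gen 2⁆ := der_gen _ _
  have B2 : opB k (gen 2) = ⁅(gen 2 : FA k (Fin 3)), gen 1⁆ := der_gen _ _
  have C0 : opC k (gen 0) = ⁅(gen 0 : FA k (Fin 3)), gen 1⁆ := der_gen _ _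
  have C1 : opC k (gen 1) = ⁅(gen 1 : FA k (Fin 3)), gen 0⁆ := der_gen _ _
  have C2 : opC k (gen 2) = 0 := der_gen _ _
  have hsum : opA k + opB k + opC k = -adm (gen 0 + gen 1 + gen 2 : FA k (Fin 3)) := by
    refine ((hA.add hB).add hC).ext (isDer_adm _).neg fun c => ?_
    fin_cases c
    · change (opA k + opB k + opC k) (gen 0) = (-adm (gen 0 + gen 1 + gen 2 : FA k (Fin 3))) (gen 0)
      simp only [LinearMap.add_apply, LinearMap.neg_apply, adm_apply, A0, B0, C0, Ring.lie_def]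
      noncomm_ring
    · change (opA k + opB k + opC k) (gen 1) = (-adm (gen 0 + gen 1 + gen 2 : FA k (Fin 3))) (gen 1)
      simp only [LinearMap.add_apply, LinearMap.neg_apply, adm_apply, A1, B1, C1, Ring.lie_def]
      noncomm_ring
    · change (opA k + opB k + opC k) (gen 2) = (-adm (gen 0 + gen 1 + gen 2 : FA k (Fin 3))) (gen 2)
      simp only [LinearMap.add_apply, LinearMap.neg_apply, adm_apply, A2, B2, C2, Ring.lie_def]
      noncomm_ring
  have hcen : ∀ D : Module.End k (FA k (Fin 3)), IsDer D → D (gen 0 + gen 1 + gen 2) = 0 →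
      Commute D (opA k + opB k + opC k) := by
    intro D hD h0
    rw [hsum]
    refine braid_comm_neg (R := Module.End k (FA k (Fin 3))) ?_
    rw [← lie_eq_zero_iff_commute, hD.lie_adm, h0]
    refine LinearMap.ext fun x => ?_
    rw [adm_apply, Ring.lie_def]
    simp
  have sA := hcen _ hA (by rw [map_add, map_add, A0, A1, A2, add_zero, braid_lie_swap])
  have sB := hcen _ hB (by rw [map_add, map_add, B0, B1, B2, zero_add, braid_lie_swap])
  have sC := hcen _ hC (by rw [map_add, map_add, C0, C1, C2, add_zero, braid_lie_swap])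
  have tA : Commute (opA k) (opC k + opB k) := by
    have := sA.sub_right (Commute.refl (opA k))
    rwa [show opA k + opB k + opC k - opA k = opC k + opB k by abel] at this
  have tB : Commute (opB k) (opA k + opC k) := by
    have := sB.sub_right (Commute.refl (opB k))
    rwa [show opA k + opB k + opC k - opB k = opA k + opC k by abel] at this
  have tC : Commute (opC k) (opA k + opB k) := by
    have := sC.sub_right (Commute.refl (opC k))
    rwa [show opA k + opB k + opC k - opC k = opA k + opB k by abel] at this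
  refine braid_isT4_of (fun i j => ?_) (braid_comm_der_Lm hA A1) (braid_comm_der_Lm hB B0).symm
    (braid_comm_der_Lm hC C2) (braid_comm_der_Lm2 hA (by rw [A0, A2, braid_lie_swap])) tA
    (braid_comm_Lm_der hA A0) (braid_comm_Lm_der hC C0) tC
    (braid_comm_der_Lm2 hC (by rw [C0, C1, braid_lie_swap])) (braid_comm_Lm_der hA A2)
    (braid_comm_Lm_der hB B2) tB (braid_comm_der_Lm2 hB (by rw [B2, B1, braid_lie_swap])) ?_ ?_
  · fin_cases i <;> fin_cases j <;> rfl
  · have := braid_comm_Lm_der hC C1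
    rw [add_comm] at this
    exact this
  · have := braid_comm_Lm_der hB B1
    rw [add_comm] at this
    exact this

/-- A five-strand structure whose strand `4` is a free fibre. -/
theorem exists_free_T5 (k : Type) [CommRing k] :
    ∃ X : Fin 5 → Fin 5 → Module.End k (FA k (Fin 3)), IsT5 X ∧
      X 0 4 = Lm (gen 0) ∧ X 1 4 = Lm (gen 1) ∧ X 2 4 = Lm (gen 2) := by
  obtain ⟨X, hX, -, h02, h12, -, h23⟩ := (isT4_opT k).exists_T5
  obtain ⟨π, p0, p1, p2, -, p4⟩ :=
    exists_perm_of_nodup (i := 0) (j := 3) (s := 1) (l := 4) (m := 2) (by decide)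
  refine ⟨_, hX.perm π, ?_, ?_, ?_⟩
  · rw [p0, p4]; exact h02
  · rw [p1, p4, hX.symm]; exact h23
  · rw [p2, p4]; exact h12

end General

section CharZero

variable {K : Type} [Field K] [CharZero K] {R : Type} [Ring R] [Algebra K R]

/-- `X l m = X i j + X j s + X i s` (sum the relations of `i, j, s`, subtract those of `l, m`,
divide by two). -/
theorem IsT5.compl (K : Type) [Field K] [CharZero K] [Algebra K R] {X : Fin 5 → Fin 5 → R}
    (h : IsT5 X) {i j s l m : Fin 5} (hd : [i, j, s, l, m].Nodup) :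
    X l m = X i j + X j s + X i s := by
  obtain ⟨π, rfl, rfl, rfl, rfl, rfl⟩ := exists_perm_of_nodup hd
  have hY := h.perm π
  have r0 := hY.sum 0
  have r1 := hY.sum 1
  have r2 := hY.sum 2
  have r3 := hY.sum 3
  have r4 := hY.sum 4
  simp only [Fin.sum_univ_five, h.diag] at r0 r1 r2 r3 r4
  rw [h.symm (π 1) (π 0)] at r1
  rw [h.symm (π 2) (π 0), h.symm (π 2) (π 1)] at r2
  rw [h.symm (π 3) (π 0), h.symm (π 3) (π 1), h.symm (π 3) (π 2)] at r3
  rw [h.symm (π 4) (π 0), h.symm (π 4) (π 1), h.symm (π 4) (π 2), h.symm (π 4) (π 3)] at r4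
  have key : (2 : K) • (X (π 0) (π 1) + X (π 1) (π 2) + X (π 0) (π 2) - X (π 3) (π 4)) = 0 := by
    rw [two_smul]
    have := congrArg₂ (· - ·) (congrArg₂ (· - ·) (congrArg₂ (· + ·) (congrArg₂ (· + ·) r0 r1) r2) r3) r4
    simp only [add_zero, sub_zero] at this
    refine Eq.trans ?_ this
    abel
  have h2 : X (π 0) (π 1) + X (π 1) (π 2) + X (π 0) (π 2) - X (π 3) (π 4) = 0 := by
    have := congrArg (fun x => (2 : K)⁻¹ • x) key
    simpa only [smul_smul, inv_mul_cancel₀ (two_ne_zero : (2 : K) ≠ 0), one_smul, smul_zero]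
      using this
  exact (sub_eq_zero.1 h2).symm

theorem IsT5.comm_of_nodup {X : Fin 5 → Fin 5 → R} (h : IsT5 X) {i j s l m : Fin 5}
    (hd : [i, j, s, l, m].Nodup) :
    Commute (X l m) (X i j) ∧ Commute (X l m) (X j s) ∧ Commute (X l m) (X i s) := by
  simp only [List.nodup_cons, List.mem_cons, List.not_mem_nil, or_false, not_or] at hd
  obtain ⟨⟨h1, h2, h3, h4⟩, ⟨h5, h6, h7⟩, ⟨h8, h9⟩, h10, -⟩ := hd
  exact ⟨h.comm _ _ _ _ h10 (Ne.symm h3) (Ne.symm h6) (Ne.symm h4) (Ne.symm h7) h1,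
    h.comm _ _ _ _ h10 (Ne.symm h6) (Ne.symm h8) (Ne.symm h7) (Ne.symm h9) h5,
    h.comm _ _ _ _ h10 (Ne.symm h3) (Ne.symm h8) (Ne.symm h4) (Ne.symm h9) h2⟩

theorem IsT5.tri (K : Type) [Field K] [CharZero K] [Algebra K R] {X : Fin 5 → Fin 5 → R}
    (h : IsT5 X) {i j a : Fin 5} (h1 : i ≠ j) (h2 : i ≠ a) (h3 : j ≠ a) :
    Commute (X i j) (X i a + X j a) := by
  have ex : ∀ i j a : Fin 5, i ≠ j → i ≠ a → j ≠ a → ∃ l m : Fin 5, [i, j, a, l, m].Nodup := by
    decide
  obtain ⟨l, m, hd⟩ := ex i j a h1 h2 h3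
  have e := h.compl K hd
  have c := ((h.comm_of_nodup hd).1.symm).sub_right (Commute.refl (X i j))
  rwa [e, show X i j + X j a + X i a - X i j = X i a + X j a by abel] at c

theorem IsT5.isT4 (K : Type) [Field K] [CharZero K] [Algebra K R] {X : Fin 5 → Fin 5 → R}
    (h : IsT5 X) : IsT4 (fun i j : Fin 4 => X i.castSucc j.castSucc) := by
  have hi := Fin.castSucc_injective 4
  exact ⟨fun i j => h.symm _ _, fun i j a b h1 h2 h3 h4 h5 h6 =>
    h.comm _ _ _ _ (hi.ne h1) (hi.ne h2) (hi.ne h3) (hi.ne h4) (hi.ne h5) (hi.ne h6),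
    fun i j a h1 h2 h3 => h.tri K (hi.ne h1) (hi.ne h2) (hi.ne h3)⟩

/-- The cyclic relation `∑ ⁅X_{i,i+1}, X_{i+1,i+2}⁆ = 0`. -/
theorem IsT5.cyc (K : Type) [Field K] [CharZero K] [Algebra K R] {X : Fin 5 → Fin 5 → R}
    (h : IsT5 X) : ∑ i : Fin 5, ⁅X i (i + 1), X (i + 1) (i + 1 + 1)⁆ = 0 := by
  rw [Fin.sum_univ_five]
  change ⁅X 0 1, X 1 2⁆ + ⁅X 1 2, X 2 3⁆ + ⁅X 2 3, X 3 4⁆ + ⁅X 3 4, X 4 0⁆ + ⁅X 4 0, X 0 1⁆ = 0
  have e1 : X 0 2 = X 3 4 - X 0 1 - X 1 2 := by
    rw [h.compl K (i := 0) (j := 1) (s := 2) (l := 3) (m := 4) (by decide)]; abel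
  have e2 : X 1 3 = X 4 0 - X 1 2 - X 2 3 := by
    rw [h.compl K (i := 1) (j := 2) (s := 3) (l := 4) (m := 0) (by decide)]; abel
  have c1 := (h.comm 0 2 1 3 (by decide) (by decide) (by decide) (by decide) (by decide)
    (by decide)).eq
  have c2 := (h.comm 3 4 1 2 (by decide) (by decide) (by decide) (by decide) (by decide)
    (by decide)).eq
  have c3 := (h.comm 0 1 2 3 (by decide) (by decide) (by decide) (by decide) (by decide)
    (by decide)).eq
  have c4 := (h.comm 1 2 4 0 (by decide) (by decide) (by decide) (by decide) (by decide)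
    (by decide)).eq
  rw [e1, e2] at c1
  simp only [Ring.lie_def]
  have := congrArg₂ (· + ·) (congrArg₂ (· - ·) (congrArg₂ (· + ·) (sub_eq_zero.2 c1)
    (sub_eq_zero.2 c2)) (sub_eq_zero.2 c3)) (sub_eq_zero.2 c4)
  simp only [add_zero, sub_zero] at this
  refine Eq.trans ?_ this
  noncomm_ring

/-- Forget strand `2`: `X01 = X34 = x`, `X04 = X13 = y`, `X03 = X14 = -x-y`, `X2j = 0`. -/
theorem antiD_eq_zero_of_APent {ψ : FA K (Fin 2)} (hψ : ψ ∈ LieD K (Fin 2)) (h : APent ψ) :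
    antiD ψ = 0 := by
  have hX := braid_T5_of_five (R := FA K (Fin 2)) (a := gX) (b := 0) (d := 0) (e := gY) (f := 0)
    (by simp) (by simp) (by simp) (by simp) (by simp) (by simp) (by simp) (by simp)
  have h5 := h _ _ hX
  change ev2 gX 0 ψ + ev2 0 0 ψ + ev2 0 (gX + 0 + 0) ψ + ev2 (gX + 0 + 0) (0 + gY + 0) ψ +
    ev2 (0 + gY + 0) gX ψ = (0 : FA K (Fin 2)) at h5
  rw [ev2_eq_zero_of_commute (Commute.zero_right _) hψ, ev2_eq_zero_of_commute (Commute.refl _) hψ,
    ev2_eq_zero_of_commute (Commute.zero_left _) hψ] at h5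
  simp only [add_zero, zero_add, ev2_self] at h5
  exact h5

theorem ev2_swap_of_antiD {k : Type} [CommRing k] [Algebra k R] {ψ : FA k (Fin 2)}
    (h : antiD ψ = 0) (p q : R) : ev2 q p ψ = -ev2 p q ψ := by
  have h1 := congrArg (ev2 p q : FA k (Fin 2) →ₐ[k] R) h
  rw [antiD, map_add, map_ev2, map_zero, ev_gen, ev_gen] at h1
  exact eq_neg_of_add_eq_zero_right h1

/-- `t02 + t12 = X34 - X01`, `t12 + t13 = X04 - X23`, `t01 + t02 = X34 - X12`,
`t13 + t23 = X04 - X12`; remove the central terms with `ev2_add_central`. -/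
theorem pent4_eq_neg_pent5 {ψ : FA K (Fin 2)} (hψ : ψ ∈ LieD K (Fin 2)) (ha : antiD ψ = 0)
    {X : Fin 5 → Fin 5 → R} (hX : IsT5 X) :
    pent4 ψ (fun i j : Fin 4 => X i.castSucc j.castSucc) = -pent5 ψ X := by
  change ev2 (X 0 1) (X 1 2 + X 1 3) ψ + ev2 (X 0 2 + X 1 2) (X 2 3) ψ - ev2 (X 1 2) (X 2 3) ψ
    - ev2 (X 0 1 + X 0 2) (X 1 3 + X 2 3) ψ - ev2 (X 0 1) (X 1 2) ψ =
    -(ev2 (X 0 1) (X 1 2) ψ + ev2 (X 1 2) (X 2 3) ψ + ev2 (X 2 3) (X 3 4) ψ +
      ev2 (X 3 4) (X 4 0) ψ + ev2 (X 4 0) (X 0 1) ψ)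
  have e1 := hX.compl K (i := 0) (j := 1) (s := 2) (l := 3) (m := 4) (by decide)
  have e2 := hX.compl K (i := 1) (j := 2) (s := 3) (l := 4) (m := 0) (by decide)
  obtain ⟨c1, c2, -⟩ := hX.comm_of_nodup (i := 0) (j := 1) (s := 2) (l := 3) (m := 4) (by decide)
  obtain ⟨c3, c4, -⟩ := hX.comm_of_nodup (i := 1) (j := 2) (s := 3) (l := 4) (m := 0) (by decide)
  have c5 := hX.comm 0 1 2 3 (by decide) (by decide) (by decide) (by decide) (by decide) (by decide)
  have f1 : ev2 (X 0 1) (X 1 2 + X 1 3) ψ = ev2 (X 0 1) (X 4 0) ψ := by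
    rw [← ev2_add_central (p := X 0 1) (q := X 4 0) (z := 0) (z' := -X 2 3) (Commute.zero_left _)
      (Commute.zero_left _) c5.symm.neg_left c4.symm.neg_left (Commute.zero_left _) hψ, add_zero,
      show X 4 0 + -X 2 3 = X 1 2 + X 1 3 by rw [e2]; abel]
  have f2 : ev2 (X 0 2 + X 1 2) (X 2 3) ψ = ev2 (X 3 4) (X 2 3) ψ := by
    rw [← ev2_add_central (p := X 3 4) (q := X 2 3) (z := -X 0 1) (z' := 0) c1.symm.neg_left
      c5.neg_left (Commute.zero_left _) (Commute.zero_left _) (Commute.zero_right _) hψ, add_zero,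
      show X 3 4 + -X 0 1 = X 0 2 + X 1 2 by rw [e1]; abel]
  have f3 : ev2 (X 0 1 + X 0 2) (X 1 3 + X 2 3) ψ = ev2 (X 3 4) (X 4 0) ψ := by
    rw [← ev2_add_central (p := X 3 4) (q := X 4 0) (z := -X 1 2) (z' := -X 1 2) c2.symm.neg_left
      c3.symm.neg_left c2.symm.neg_left c3.symm.neg_left (Commute.refl _) hψ,
      show X 3 4 + -X 1 2 = X 0 1 + X 0 2 by rw [e1]; abel,
      show X 4 0 + -X 1 2 = X 1 3 + X 2 3 by rw [e2]; abel]
  rw [f1, f2, f3, ev2_swap_of_antiD ha (X 4 0) (X 0 1), ev2_swap_of_antiD ha (X 2 3) (X 3 4)]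
  abel

theorem pent4_eq_zero_of_APent {ψ : FA K (Fin 2)} (hψ : ψ ∈ LieD K (Fin 2)) (h : APent ψ)
    {t : Fin 4 → Fin 4 → R} (ht : IsT4 t) : pent4 ψ t = 0 := by
  obtain ⟨X, hX, h01, h02, h12, h13, h23⟩ := ht.exists_T5
  have e := pent4_eq_neg_pent5 hψ (antiD_eq_zero_of_APent hψ h) hX
  rw [h R X hX, neg_zero] at e
  rw [← e, pent4, ← h01, ← h02, ← h12, ← h13, ← h23]
  rfl

theorem APent_of_pent4 {ψ : FA K (Fin 2)} (hψ : ψ ∈ LieD K (Fin 2)) (ha : antiD ψ = 0)
    (h : ∀ (R : Type) [Ring R] [Algebra K R] (t : Fin 4 → Fin 4 → R), IsT4 t → pent4 ψ t = 0) :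
    APent ψ := by
  intro R _ _ X hX
  have e := pent4_eq_neg_pent5 hψ ha hX
  rw [h R _ (hX.isT4 K)] at e
  exact neg_eq_zero.1 e.symm

theorem Pmod_eq_zero_of_APent {ψ : FA K (Fin 2)} (hψ : ψ ∈ LieD K (Fin 2)) (h : APent ψ) :
    Pmod ψ = 0 := by
  simp [Pmod, pent4_eq_zero_of_APent hψ h (isT4_opT K)]

theorem mem_Sol {k : Type} [CommRing k] {n : ℕ} {ψ : FA k (Fin 2)} :
    ψ ∈ Sol k n ↔ ψ ∈ LieW k (one (Fin 2)) n ∧ APent ψ := Iff.rfl

/-- The five-cycle relation for any ordering of the strands. -/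
theorem edge_pent {k : Type} [CommRing k] [Algebra k R] {ψ : FA k (Fin 2)} (h : APent ψ)
    {X : Fin 5 → Fin 5 → R} (hX : IsT5 X) {i j s l m : Fin 5} (hd : [i, j, s, l, m].Nodup) :
    edge ψ X i j s + edge ψ X j s l + edge ψ X s l m + edge ψ X l m i + edge ψ X m i j = 0 := by
  obtain ⟨π, rfl, rfl, rfl, rfl, rfl⟩ := exists_perm_of_nodup hd
  have := h R _ (hX.perm π)
  simp only [pent5, edge] at this
  simp only [edge]
  exact this

theorem edge_anti {k : Type} [CommRing k] [Algebra k R] {ψ : FA k (Fin 2)} (h : antiD ψ = 0)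
    {X : Fin 5 → Fin 5 → R} (hX : IsT5 X) (i j s : Fin 5) :
    edge ψ X s j i = -edge ψ X i j s := by
  rw [edge, edge, hX.symm s j, hX.symm j i]
  exact ev2_swap_of_antiD h _ _

/-- `X l m` commutes with `φ_{ijs}`. -/
theorem commute_edge {k : Type} [CommRing k] [Algebra k R] (ψ : FA k (Fin 2))
    {X : Fin 5 → Fin 5 → R} (hX : IsT5 X) {i j s l m : Fin 5} (hd : [i, j, s, l, m].Nodup) :
    Commute (X l m) (edge ψ X i j s) := by
  obtain ⟨c1, c2, -⟩ := hX.comm_of_nodup hd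
  unfold edge
  exact commute_ev (v := ![X i j, X j s]) (Fin.forall_fin_two.2 ⟨c1, c2⟩) ψ

end CharZero

end Crest.Agent.R010
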