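import Crest.Agent.R010.Elim
import Crest.Agent.R010.Braid

/-! # Row 10, part B: the cocycle lemma, the hexagon, potentials -/

set_option autoImplicit false

noncomputable section

namespace Crest.Agent.R010

variable {K : Type} [Field K] [CharZero K]

/-- `F(a,b) + F(a+b,c) - F(b,c) - F(a,b+c)`. -/
def cocD {k : Type} [CommRing k] (F : FA k (Fin 2)) : FA k (Fin 3) :=
  ev2 (gen 0) (gen 1) F + ev2 (gen 0 + gen 1) (gen 2) F - ev2 (gen 1) (gen 2) F
    - ev2 (gen 0) (gen 1 + gen 2) F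

theorem cocycle_split {k : Type} [CommRing k] {F : FA k (Fin 2)} (h : cf 1 F = 0) :
    F = stripR 0 F * gX + stripR 1 F * gY := by
  conv_lhs => rw [eq_sum_stripR F]
  rw [h, zero_smul, zero_add, Fin.sum_univ_two]

theorem cocycle_ev2_split {k : Type} [CommRing k] {R : Type} [Ring R] [Algebra k R]
    {F : FA k (Fin 2)} (h : cf 1 F = 0) (p q : R) :
    ev2 p q F = ev2 p q (stripR 0 F) * p + ev2 p q (stripR 1 F) * q := by
  conv_lhs => rw [cocycle_split h]
  simp

theorem cocycle_ev2_zero {k : Type} [CommRing k] {R : Type} [Ring R] [Algebra k R] {m : ℕ}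
    {g : FA k (Fin 2)} (hg : g ∈ hom (one (Fin 2)) m) :
    ∃ β : k, ∀ p : R, ev2 p 0 g = β • p ^ m := by
  have hw : ∀ w : FreeMonoid (Fin 2), ∃ β : k, ∀ p : R,
      ev2 p 0 (wd w : FA k (Fin 2)) = β • p ^ wdeg (one (Fin 2)) w := by
    intro w
    induction w using basic1_word_ind with
    | one => exact ⟨1, fun p => by simp⟩
    | mul_of w c ih =>
      obtain ⟨β, hβ⟩ := ih
      fin_cases c
      · exact ⟨β, fun p => by rw [wd_mul, map_mul, hβ]; simp [pow_succ]⟩
      · exact ⟨0, fun p => by rw [wd_mul, map_mul, hβ]; simp⟩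
  refine supp_induction hg (fun w hw' => ?_) ⟨0, fun p => by simp⟩ ?_ ?_
  · obtain ⟨β, hβ⟩ := hw w
    exact ⟨β, fun p => by rw [hβ, hw']⟩
  · rintro a b ⟨α, hα⟩ ⟨β, hβ⟩
    exact ⟨α + β, fun p => by rw [map_add, hα, hβ, add_smul]⟩
  · rintro c a ⟨α, hα⟩
    exact ⟨c * α, fun p => by rw [map_smul, hα, smul_smul]⟩

theorem cocycle_der_pow {k : Type} [CommRing k] {R : Type} [Ring R] [Algebra k R]
    {D : Module.End k R} (hD : IsDer D) {a : R} (ha : D a = 1) (j : ℕ) :
    D (a ^ (j + 1)) = ((j : k) + 1) • a ^ j := by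
  induction j with
  | zero => simp [ha]
  | succ j ih =>
    rw [pow_succ, hD, ih, ha, mul_one, smul_mul_assoc, ← pow_succ]
    push_cast
    module

/-- **Cocycle lemma.** Let `g = stripR 1 F` (degree `n - 1`), `F = F_x x + g y`.  Stripping a last
letter `c` from the cocycle identity gives `g(a+b,c) = g(b,c) + g(a,b+c)`.  Setting `c = 0` and
`g(x,0) = β x^(n-1)` gives `g = β ((x+y)^(n-1) - y^(n-1))`.  The shift derivation
`δ : x ↦ 0, y ↦ 1` kills `F` (`der_scalar_eq_zero`); stripping a last `y` from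
`δ F = δ(F_x) x + δ(g) y + g = 0` gives `δ g + stripR 1 g = 0`, i.e.
`n β ((x+y)^(n-2) - y^(n-2)) = 0`, so `β = 0` as `n ≥ 3` (coefficient of `x^(n-2)`), `g = 0` and
`F = 0` by `eq_zero_of_stripR_one`. -/
theorem eq_zero_of_cocD {n : ℕ} (hn : 3 ≤ n) {F : FA K (Fin 2)} (hF : F ∈ LieW K (one (Fin 2)) n)
    (h : cocD F = 0) : F = 0 := by
  obtain ⟨m, rfl⟩ : ∃ m, n = m + 3 := ⟨n - 3, by omega⟩
  have hD := mem_LieD_of_LieW hF (by omega)
  have h0 : cf 1 F = 0 := mem_fil_one_iff.1 (mem_fil_of_hom hF.2 (by omega))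
  have hg : stripR 1 F ∈ hom (one (Fin 2)) (m + 2) := stripR_mem_hom 1 hF.2
  have h1 := congrArg (stripR 2) h
  have n0 : (0 : Fin 3) ≠ 2 := by decide
  have n1 : (1 : Fin 3) ≠ 2 := by decide
  rw [cocD, cocycle_ev2_split h0, cocycle_ev2_split h0 (gen 0 + gen 1),
    cocycle_ev2_split h0 (gen 1), cocycle_ev2_split h0 (gen 0) (gen 1 + gen 2)] at h1
  simp only [mul_add, map_add, map_sub, stripR_mul_gen_self, stripR_mul_gen_ne n0,
    stripR_mul_gen_ne n1, zero_add, add_zero, map_zero] at h1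
  have h2 := congrArg (ev3 (gX : FA K (Fin 2)) gY 0) h1
  simp only [map_sub, map_ev2, map_add, ev_gen, map_zero, Matrix.cons_val_zero, Matrix.cons_val_one,
    Matrix.cons_val, add_zero, ev2_self] at h2
  obtain ⟨β, hβ⟩ := cocycle_ev2_zero (R := FA K (Fin 2)) hg
  rw [hβ, hβ, sub_eq_zero] at h2
  have h3 := der_scalar_eq_zero (![0, 1] : Fin 2 → K) hD
  have hδ := isDer_der (fun c => (![0, 1] : Fin 2 → K) c • (1 : FA K (Fin 2)))
  set δ := der (fun c => (![0, 1] : Fin 2 → K) c • (1 : FA K (Fin 2))) with hδdef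
  have dx : δ gX = 0 := by simp [hδdef]
  have dy : δ gY = 1 := by simp [hδdef]
  have dxy : δ (gX + gY) = 1 := by rw [map_add, dx, dy, zero_add]
  rw [cocycle_split h0, map_add, hδ, hδ, dx, dy] at h3
  have h4 := congrArg (stripR 1) h3
  have n2 : (0 : Fin 2) ≠ 1 := by decide
  simp only [mul_zero, add_zero, mul_one, map_add, stripR_mul_gen_self, stripR_mul_gen_ne n2,
    zero_add, map_zero] at h4
  have s1 : stripR 1 ((gX + gY : FA K (Fin 2)) ^ (m + 2)) = (gX + gY) ^ (m + 1) := by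
    rw [pow_succ, mul_add, map_add, stripR_mul_gen_self, stripR_mul_gen_ne n2, zero_add]
  have s2 : stripR 1 ((gY : FA K (Fin 2)) ^ (m + 2)) = gY ^ (m + 1) := by
    rw [pow_succ, stripR_mul_gen_self]
  rw [← h2, map_sub, map_sub, map_smul, map_smul, map_smul, map_smul, s1, s2,
    cocycle_der_pow hδ dxy, cocycle_der_pow hδ dy] at h4
  have h5 := congrArg (ev2 (1 : K) 0) h4
  simp only [map_add, map_sub, map_smul, map_pow, ev_gen, Matrix.cons_val_zero, Matrix.cons_val_one,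
    add_zero, one_pow, ne_eq, Nat.add_eq_zero_iff, one_ne_zero, and_false, not_false_eq_true,
    zero_pow, smul_eq_mul, mul_zero, sub_zero, mul_one, map_zero] at h5
  have h6 : β * ((m + 3 : ℕ) : K) = 0 := by push_cast at h5 ⊢; linear_combination h5
  have h7 : β = 0 := (mul_eq_zero.1 h6).resolve_right (Nat.cast_ne_zero.2 (by omega))
  refine eq_zero_of_stripR_one hD ?_
  rw [← h2, h7, zero_smul, zero_smul, sub_zero]

/-- It suffices to check the cocycle identity on the fibre strand of five-strand structures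
(`exists_free_T5`, `ev_Lm`, apply to `1`). -/
theorem cocD_eq_zero_of_T5 {k : Type} [CommRing k] {F : FA k (Fin 2)}
    (h : ∀ (R : Type) [Ring R] [Algebra k R] (X : Fin 5 → Fin 5 → R), IsT5 X →
      ev2 (X 0 4) (X 1 4) F + ev2 (X 0 4 + X 1 4) (X 2 4) F - ev2 (X 1 4) (X 2 4) F
        - ev2 (X 0 4) (X 1 4 + X 2 4) F = 0) : cocD F = 0 := by
  obtain ⟨X, hX, e0, e1, e2⟩ := exists_free_T5 k
  have h1 := h _ X hX
  rw [e0, e1, e2] at h1
  have h2 : Algebra.lmul k (FA k (Fin 3)) (cocD F) = 0 := by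
    simp only [cocD, map_sub, map_add, map_ev2]
    exact h1
  simpa using LinearMap.congr_fun h2 1

/-- The hexagon defect on a triangle: `X s i = X l m - X i j - X j s` with `X l m` central. -/
theorem ev2_hexD {ψ : FA K (Fin 2)} (hψ : ψ ∈ LieD K (Fin 2)) {R : Type} [Ring R] [Algebra K R]
    {X : Fin 5 → Fin 5 → R} (hX : IsT5 X) {i j s l m : Fin 5} (hd : [i, j, s, l, m].Nodup) :
    ev2 (X i j) (X j s) (hexD ψ) = edge ψ X i j s + edge ψ X j s i + edge ψ X s i j := by
  have hc := hX.compl K hd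
  simp only [List.nodup_cons, List.mem_cons, not_or, List.not_mem_nil, not_false_eq_true,
    and_true, List.nodup_nil] at hd
  obtain ⟨⟨ij, is, il, im⟩, ⟨js, jl, jm⟩, ⟨sl, sm⟩, lm⟩ := hd
  have c1 : Commute (X l m) (X i j) := (hX.comm i j l m ij il im jl jm lm).symm
  have c2 : Commute (X l m) (X j s) := (hX.comm j s l m js jl jm sl sm lm).symm
  have c3 : Commute (X l m) (-X i j - X j s) := c1.neg_right.sub_right c2
  have e : X s i = (-X i j - X j s) + X l m := by rw [hX.symm s i, hc]; abel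
  have e1 := ev2_add_central (Commute.zero_left (X j s)) (Commute.zero_left _) c2 c3
    (Commute.zero_left _) hψ
  have e2 := ev2_add_central c3 c1 (Commute.zero_left _) (Commute.zero_left (X i j))
    (Commute.zero_right _) hψ
  rw [add_zero] at e1 e2
  simp only [hexD, edge, map_add, map_ev2, map_sub, map_neg, ev_gen, Matrix.cons_val_zero,
    Matrix.cons_val_one, e, e1, e2]

theorem cocycle_hex_comb {V : Type} [AddCommGroup V] (φ : Fin 5 → Fin 5 → Fin 5 → V)
    (anti : ∀ i j s, φ s j i = -φ i j s)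
    (pent : ∀ i j s l m : Fin 5, [i, j, s, l, m].Nodup →
      φ i j s + φ j s l + φ s l m + φ l m i + φ m i j = 0) :
    (φ 0 4 1 + φ 4 1 0 + φ 1 0 4) + (φ 3 2 4 + φ 2 4 3 + φ 4 3 2) - (φ 1 4 2 + φ 4 2 1 + φ 2 1 4)
      - (φ 4 0 3 + φ 0 3 4 + φ 3 4 0) = 0 := by
  have p1 := pent 0 1 2 3 4 (by decide)
  have p2 := pent 0 1 2 4 3 (by decide)
  have p3 := pent 0 1 4 2 3 (by decide)
  have p4 := pent 0 3 2 1 4 (by decide)
  simp only [fun j => anti 0 j 1, fun j => anti 0 j 2, fun j => anti 0 j 3, fun j => anti 0 j 4,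
    fun j => anti 1 j 2, fun j => anti 1 j 3, fun j => anti 1 j 4, fun j => anti 2 j 3,
    fun j => anti 2 j 4, fun j => anti 3 j 4] at p1 p2 p3 p4 ⊢
  linear_combination (norm := abel) -p1 + p2 - p3 - p4

/-- **Pentagon implies hexagon.** `F = hexD ψ` is a cocycle: with `h(i,j,s)` the sum in
`ev2_hexD`, `F(X04,X14) = h(0,4,1)`, `F(X14,X24) = h(1,4,2)`,
`F(X04+X14,X24) = F(X23-X01,X24) = h(3,2,4) = h(2,4,3)`,
`F(X04,X14+X24) = F(X04,X03-X12) = h(4,0,3) = h(3,4,0)`, and modulo antisymmetry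
`h(0,4,1) + h(2,4,3) - h(1,4,2) - h(3,4,0) = -P(0,1,2,3,4) + P(0,1,2,4,3) - P(0,1,4,2,3)
- P(0,3,2,1,4)` where `P` is the five-cycle sum of `edge_pent`. -/
theorem hexD_eq_zero {n : ℕ} (hn : 3 ≤ n) {ψ : FA K (Fin 2)} (hψ : ψ ∈ Sol K n) : hexD ψ = 0 := by
  have hD := mem_LieD_of_LieW hψ.1 (by omega)
  have ha := antiD_eq_zero_of_APent hD hψ.2
  have hx : (gX : FA K (Fin 2)) ∈ LieW K (one (Fin 2)) 1 := ⟨gen_mem_LieS _, gen_mem_hom _ _⟩
  have hy : (gY : FA K (Fin 2)) ∈ LieW K (one (Fin 2)) 1 := ⟨gen_mem_LieS _, gen_mem_hom _ _⟩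
  have hz : (-gX - gY : FA K (Fin 2)) ∈ LieW K (one (Fin 2)) 1 := sub_mem (neg_mem hx) hy
  have hev : ∀ p q : FA K (Fin 2), p ∈ LieW K (one (Fin 2)) 1 → q ∈ LieW K (one (Fin 2)) 1 →
      ev2 p q ψ ∈ LieW K (one (Fin 2)) n := fun p q hp hq =>
    ⟨ev_mem_LieS (fun c => by fin_cases c; exacts [hp.1, hq.1]) hψ.1.1,
      ev_mem_hom (δ := one (Fin 2)) (fun c => by fin_cases c; exacts [hp.2, hq.2]) hψ.1.2⟩
  have hF : hexD ψ ∈ LieW K (one (Fin 2)) n :=
    add_mem (add_mem hψ.1 (hev _ _ hy hz)) (hev _ _ hz hx)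
  have hFD := mem_LieD_of_LieW hF (by omega)
  refine eq_zero_of_cocD hn hF (cocD_eq_zero_of_T5 fun R _ _ X hX => ?_)
  have e1 : X 0 4 + X 1 4 = X 3 2 + -X 0 1 := by
    rw [hX.compl K (i := 0) (j := 4) (s := 1) (l := 3) (m := 2) (by decide), hX.symm 4 1]; abel
  have e2 : X 1 4 + X 2 4 = X 0 3 + -X 1 2 := by
    rw [hX.compl K (i := 1) (j := 4) (s := 2) (l := 0) (m := 3) (by decide), hX.symm 4 2]; abel
  have t1 : ev2 (X 0 4) (X 1 4) (hexD ψ) = edge ψ X 0 4 1 + edge ψ X 4 1 0 + edge ψ X 1 0 4 := by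
    rw [hX.symm 1 4]; exact ev2_hexD hD hX (l := 2) (m := 3) (by decide)
  have t3 : ev2 (X 1 4) (X 2 4) (hexD ψ) = edge ψ X 1 4 2 + edge ψ X 4 2 1 + edge ψ X 2 1 4 := by
    rw [hX.symm 2 4]; exact ev2_hexD hD hX (l := 0) (m := 3) (by decide)
  have t2 : ev2 (X 0 4 + X 1 4) (X 2 4) (hexD ψ) =
      edge ψ X 3 2 4 + edge ψ X 2 4 3 + edge ψ X 4 3 2 := by
    have := ev2_add_central (p := X 3 2) (q := X 2 4) (z := -X 0 1) (z' := 0)
      (hX.comm 0 1 3 2 (by decide) (by decide) (by decide) (by decide) (by decide) (by decide)).neg_left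
      (hX.comm 0 1 2 4 (by decide) (by decide) (by decide) (by decide) (by decide) (by decide)).neg_left
      (Commute.zero_left _) (Commute.zero_left _) (Commute.zero_right _) hFD
    rw [add_zero] at this
    rw [e1, this]
    exact ev2_hexD hD hX (l := 0) (m := 1) (by decide)
  have t4 : ev2 (X 0 4) (X 1 4 + X 2 4) (hexD ψ) =
      edge ψ X 4 0 3 + edge ψ X 0 3 4 + edge ψ X 3 4 0 := by
    have := ev2_add_central (p := X 4 0) (q := X 0 3) (z := 0) (z' := -X 1 2)
      (Commute.zero_left _) (Commute.zero_left _)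
      (hX.comm 1 2 4 0 (by decide) (by decide) (by decide) (by decide) (by decide) (by decide)).neg_left
      (hX.comm 1 2 0 3 (by decide) (by decide) (by decide) (by decide) (by decide) (by decide)).neg_left
      (Commute.zero_left _) hFD
    rw [add_zero] at this
    rw [e2, hX.symm 0 4, this]
    exact ev2_hexD hD hX (l := 1) (m := 2) (by decide)
  rw [t1, t2, t3, t4]
  exact cocycle_hex_comb (edge ψ X) (edge_anti ha hX) fun i j s l m hd => edge_pent hψ.2 hX hd

theorem edge_hex {n : ℕ} (hn : 3 ≤ n) {ψ : FA K (Fin 2)} (hψ : ψ ∈ Sol K n) {R : Type} [Ring R]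
    [Algebra K R] {X : Fin 5 → Fin 5 → R} (hX : IsT5 X) {i j s l m : Fin 5}
    (hd : [i, j, s, l, m].Nodup) : edge ψ X i j s + edge ψ X j s i + edge ψ X s i j = 0 := by
  rw [← ev2_hexD (mem_LieD_of_LieW hψ.1 (by omega)) hX hd, hexD_eq_zero hn hψ, map_zero]

/-- The potential at the vertex `{ij|lm}` (`s` the fifth index). -/
def potF {V : Type} [AddCommGroup V] [Module K V] (φ : Fin 5 → Fin 5 → Fin 5 → V)
    (i j s l m : Fin 5) : V :=
  (1 / 60 : K) • (-(14 : K) • (φ j i s + φ i j s) - (5 : K) • (φ j i l + φ j i m + φ i j l + φ i j m)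
    - (φ s i l + φ s i m + φ s j l + φ s j m) + (φ i l s + φ j l s + φ i m s + φ j m s)
    + (5 : K) • (φ i l m + φ j l m + φ i m l + φ j m l) + (14 : K) • (φ s l m + φ s m l))

theorem cocycle_pot_core {V : Type} [AddCommGroup V] [Module K V]
    (φ : Fin 5 → Fin 5 → Fin 5 → V)
    (anti : ∀ i j s, φ s j i = -φ i j s)
    (hex : ∀ i j s l m : Fin 5, [i, j, s, l, m].Nodup → φ i j s + φ j s i + φ s i j = 0)
    (pent : ∀ i j s l m : Fin 5, [i, j, s, l, m].Nodup →
      φ i j s + φ j s l + φ s l m + φ l m i + φ m i j = 0) :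
    potF (K := K) φ 1 0 2 3 4 = potF (K := K) φ 0 1 2 3 4 ∧
      potF (K := K) φ 3 4 2 0 1 = potF (K := K) φ 0 1 2 3 4 ∧
      potF (K := K) φ 1 2 0 3 4 = potF (K := K) φ 0 1 2 3 4 + φ 0 1 2 := by
  have p1 := pent 0 1 2 3 4 (by decide)
  have p2 := pent 0 1 2 4 3 (by decide)
  have p3 := pent 0 1 3 2 4 (by decide)
  have p4 := pent 0 1 3 4 2 (by decide)
  have p5 := pent 0 1 4 2 3 (by decide)
  have p6 := pent 0 1 4 3 2 (by decide)
  have p7 := pent 0 2 1 3 4 (by decide)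
  have p8 := pent 0 2 1 4 3 (by decide)
  have p9 := pent 0 2 3 1 4 (by decide)
  have p10 := pent 0 2 4 1 3 (by decide)
  have p11 := pent 0 3 1 2 4 (by decide)
  have p12 := pent 0 3 2 1 4 (by decide)
  have h0 := hex 0 1 2 3 4 (by decide)
  simp only [potF, fun j => anti 0 j 1, fun j => anti 0 j 2, fun j => anti 0 j 3, fun j => anti 0 j 4,
    fun j => anti 1 j 2, fun j => anti 1 j 3, fun j => anti 1 j 4, fun j => anti 2 j 3,
    fun j => anti 2 j 4, fun j => anti 3 j 4] at p1 p2 p3 p4 p5 p6 p7 p8 p9 p10 p11 p12 h0 ⊢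
  refine ⟨by module, by module, ?_⟩
  linear_combination (norm := module) (-1 / 10 : K) • p1 - (1 / 10 : K) • p2 + (1 / 60 : K) • p3
    + (1 / 20 : K) • p4 + (1 / 60 : K) • p5 + (1 / 20 : K) • p6 - (1 / 20 : K) • p7
    - (1 / 20 : K) • p8 + (1 / 30 : K) • p9 + (1 / 30 : K) • p10 + (1 / 60 : K) • p11
    - (1 / 60 : K) • p12 - (1 / 3 : K) • h0

theorem cocycle_missing (π : Equiv.Perm (Fin 5)) : π 0 + π 1 + π 2 + π 3 + π 4 = 0 := by
  have h := Equiv.sum_comp π (fun i : Fin 5 => i)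
  rw [Fin.sum_univ_five, Fin.sum_univ_five] at h
  exact h.trans (by decide)

/-- **Potentials.** `φ i j s` is an edge from the vertex `{ij|lm}` to the vertex `{js|lm}`.  Take
`a i j l m = potF φ i j s l m` with `s = -(i+j+l+m)` the missing index.  Symmetries follow from
antisymmetry; the edge identity for `(i,j,s,l,m) = (0,1,2,3,4)` is the combination
`-1/10 P01234 - 1/10 P01243 + 1/60 P01324 + 1/20 P01342 + 1/60 P01423 + 1/20 P01432
- 1/20 P02134 - 1/20 P02143 + 1/30 P02314 + 1/30 P02413 + 1/60 P03124 - 1/60 P03214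
- 1/3 h012` modulo antisymmetry (`linear_combination (norm := module)`). -/
theorem exists_potential {V : Type} [AddCommGroup V] [Module K V]
    (φ : Fin 5 → Fin 5 → Fin 5 → V)
    (anti : ∀ i j s, φ s j i = -φ i j s)
    (hex : ∀ i j s l m : Fin 5, [i, j, s, l, m].Nodup → φ i j s + φ j s i + φ s i j = 0)
    (pent : ∀ i j s l m : Fin 5, [i, j, s, l, m].Nodup →
      φ i j s + φ j s l + φ s l m + φ l m i + φ m i j = 0) :
    ∃ a : Fin 5 → Fin 5 → Fin 5 → Fin 5 → V,
      (∀ i j l m, a i j l m ∈ Submodule.span K {z | ∃ i j s, z = φ i j s}) ∧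
      (∀ i j s l m : Fin 5, [i, j, s, l, m].Nodup →
        a j i l m = a i j l m ∧ a l m i j = a i j l m ∧ a j s l m = a i j l m + φ i j s) := by
  refine ⟨fun i j l m => potF (K := K) φ i j (-(i + j + l + m)) l m, fun i j l m => ?_,
    fun i j s l m hd => ?_⟩
  · have hm : ∀ i j s, φ i j s ∈ Submodule.span K {z | ∃ i j s, z = φ i j s} := fun i j s =>
      Submodule.subset_span ⟨i, j, s, rfl⟩
    unfold potF
    repeat' first
      | exact hm _ _ _
      | apply Submodule.smul_mem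
      | apply Submodule.add_mem
      | apply Submodule.sub_mem
  · obtain ⟨π, rfl, rfl, rfl, rfl, rfl⟩ := exists_perm_of_nodup hd
    have hs := cocycle_missing π
    have e1 : -(π 0 + π 1 + π 3 + π 4) = π 2 := by linear_combination (norm := abel) -hs
    have e2 : -(π 1 + π 0 + π 3 + π 4) = π 2 := by linear_combination (norm := abel) -hs
    have e3 : -(π 3 + π 4 + π 0 + π 1) = π 2 := by linear_combination (norm := abel) -hs
    have e4 : -(π 1 + π 2 + π 3 + π 4) = π 0 := by linear_combination (norm := abel) -hs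
    have nd : ∀ i j s l m : Fin 5, [i, j, s, l, m].Nodup → [π i, π j, π s, π l, π m].Nodup :=
      fun i j s l m h => h.map π.injective
    simp only [e1, e2, e3, e4]
    exact cocycle_pot_core (K := K) (fun a b c => φ (π a) (π b) (π c)) (fun i j s => anti _ _ _)
      (fun i j s l m h => hex _ _ _ _ _ (nd i j s l m h))
      (fun i j s l m h => pent _ _ _ _ _ (nd i j s l m h))

end Crest.Agent.R010
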