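import Crest.Agent.R010.Iota
import Crest.Agent.R010.Cocycle

/-! # Row 10: `grtSpace` versus `Sol ℚ n` -/

set_option autoImplicit false

noncomputable section

namespace Crest.Agent.R010

open Crest.NumberTheoryR.GT

section BridgeAux

attribute [local instance 100] LieRing.ofAssociativeRing

theorem bridge_lieHom_gtSubst {M M' : Type} [LieRing M] [LieAlgebra ℚ M] [LieRing M']
    [LieAlgebra ℚ M'] (F : M →ₗ⁅ℚ⁆ M') (a b : M) (ψ : GTLie) :
    F (gtSubst a b ψ) = gtSubst (F a) (F b) ψ := by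
  have : F.comp (gtSubst a b) = gtSubst (F a) (F b) := by
    apply FreeLieAlgebra.hom_ext
    intro x
    simp only [gtSubst, LieHom.comp_apply, FreeLieAlgebra.lift_of_apply]
    split_ifs <;> rfl
  exact LieHom.congr_fun this ψ

theorem bridge_tFree_symm (i j : Fin 4) : tFree i j = tFree j i := by
  unfold tFree
  rcases lt_trichotomy i j with h | h | h
  · rw [dif_pos h, dif_neg (lt_asymm h), dif_pos h]
  · subst h; rfl
  · rw [dif_neg (lt_asymm h), dif_pos h, dif_pos h]

/-- The Lie map on the free Lie algebra of braid generators. -/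
def bridgeFree {R : Type} [Ring R] [Algebra ℚ R] (t : Fin 4 → Fin 4 → R) : FreeBraid4 →ₗ⁅ℚ⁆ R :=
  FreeLieAlgebra.lift ℚ (fun p : BraidGen4 => t p.1.1 p.1.2)

theorem bridgeFree_tFree {R : Type} [Ring R] [Algebra ℚ R] {t : Fin 4 → Fin 4 → R} (ht : IsT4 t)
    {i j : Fin 4} (h : i ≠ j) : bridgeFree t (tFree i j) = t i j := by
  unfold tFree bridgeFree
  rcases lt_or_gt_of_ne h with h | h
  · rw [dif_pos h, FreeLieAlgebra.lift_of_apply]
  · rw [dif_neg (lt_asymm h), dif_pos h, FreeLieAlgebra.lift_of_apply, ht.symm]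

theorem bridgeFree_ker {R : Type} [Ring R] [Algebra ℚ R] {t : Fin 4 → Fin 4 → R} (ht : IsT4 t) :
    braidIdeal4 ≤ (bridgeFree t).ker := by
  rw [braidIdeal4, LieSubmodule.lieSpan_le]
  rintro r (⟨i, j, a, b, h1, h2, h3, h4, h5, h6, rfl⟩ | ⟨i, j, a, h1, h2, h3, rfl⟩)
  · rw [SetLike.mem_coe, LieHom.mem_ker, LieHom.map_lie, bridgeFree_tFree ht h1,
      bridgeFree_tFree ht h6]
    exact (lie_eq_zero_iff_commute _ _).2 (ht.comm i j a b h1 h2 h3 h4 h5 h6)
  · rw [SetLike.mem_coe, LieHom.mem_ker, LieHom.map_lie, map_add, bridgeFree_tFree ht h1,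
      bridgeFree_tFree ht h2, bridgeFree_tFree ht h3]
    exact (lie_eq_zero_iff_commute _ _).2 (ht.tri i j a h1 h2 h3)

/-- The Lie map out of `braidLie4`. -/
def bridgeLift {R : Type} [Ring R] [Algebra ℚ R] {t : Fin 4 → Fin 4 → R} (ht : IsT4 t) :
    braidLie4 →ₗ⁅ℚ⁆ R :=
  { braidIdeal4.toSubmodule.liftQ (bridgeFree t).toLinearMap
      (fun x hx => LieHom.mem_ker.1 (bridgeFree_ker ht hx)) with
    map_lie' := by
      intro x y
      induction x using Submodule.Quotient.induction_on with | _ x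
      induction y using Submodule.Quotient.induction_on with | _ y
      exact (bridgeFree t).map_lie x y }

theorem bridgeLift_tB {R : Type} [Ring R] [Algebra ℚ R] {t : Fin 4 → Fin 4 → R} (ht : IsT4 t)
    {i j : Fin 4} (h : i ≠ j) : bridgeLift ht (tB i j) = t i j :=
  bridgeFree_tFree ht h

theorem bridge_pentagonDefect_apply (ψ : GTLie) : pentagonDefect ψ =
    gtSubst (tB 0 1) (tB 1 2 + tB 1 3) ψ + gtSubst (tB 0 2 + tB 1 2) (tB 2 3) ψ
      - gtSubst (tB 1 2) (tB 2 3) ψ - gtSubst (tB 0 1 + tB 0 2) (tB 1 3 + tB 2 3) ψ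
      - gtSubst (tB 0 1) (tB 1 2) ψ := rfl

theorem bridge_pent4 {ψ : GTLie} {R : Type} [Ring R] [Algebra ℚ R] {t : Fin 4 → Fin 4 → R}
    (ht : IsT4 t) : pent4 (iota (Fin 2) ψ) t = bridgeLift ht (pentagonDefect ψ) := by
  rw [bridge_pentagonDefect_apply]
  simp only [map_add, map_sub, bridge_lieHom_gtSubst, pent4, ev2_iota]
  rw [bridgeLift_tB ht (show (0 : Fin 4) ≠ 1 by decide),
    bridgeLift_tB ht (show (0 : Fin 4) ≠ 2 by decide),
    bridgeLift_tB ht (show (1 : Fin 4) ≠ 2 by decide),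
    bridgeLift_tB ht (show (1 : Fin 4) ≠ 3 by decide),
    bridgeLift_tB ht (show (2 : Fin 4) ≠ 3 by decide)]

end BridgeAux

theorem bridge_commute_dyn {L : Type} [LieRing L] [LieAlgebra ℚ L] {p q : L} (h : ⁅p, q⁆ = 0) :
    Commute (dyn p : Module.End ℚ (L × ℚ)) (dyn q) := by
  have h' : ⁅q, p⁆ = 0 := by rw [← lie_skew, h, neg_zero]
  apply LinearMap.ext
  rintro ⟨y, s⟩
  simp only [Module.End.mul_apply, dyn_apply, lie_add, lie_smul, h, h', smul_zero, add_zero,
    zero_smul]
  rw [leibniz_lie p q y, h, zero_lie, zero_add]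

theorem bridge_isT4_dyn : IsT4 (fun i j => (dyn (tB i j) : Module.End ℚ (braidLie4 × ℚ))) where
  symm i j := by rw [tB, tB, bridge_tFree_symm]
  comm i j a b h1 h2 h3 h4 h5 h6 := by
    apply bridge_commute_dyn
    rw [tB, tB, ← LieSubmodule.Quotient.mk_bracket, LieSubmodule.Quotient.mk_eq_zero']
    exact LieSubmodule.subset_lieSpan (Or.inl ⟨i, j, a, b, h1, h2, h3, h4, h5, h6, rfl⟩)
  tri i j a h1 h2 h3 := by
    rw [← map_add]
    apply bridge_commute_dyn
    have e : tB i a + tB j a = LieSubmodule.Quotient.mk (tFree i a + tFree j a) := rfl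
    rw [e, tB, ← LieSubmodule.Quotient.mk_bracket, LieSubmodule.Quotient.mk_eq_zero']
    exact LieSubmodule.subset_lieSpan (Or.inr ⟨i, j, a, h1, h2, h3, rfl⟩)

theorem bridge_ev2_dyn {L : Type} [LieRing L] [LieAlgebra ℚ L] (p q : L) {n : ℕ} {ψ : GTLie}
    (hw : ψ ∈ weightSubspace (one (Fin 2)) n) :
    ((ev2 (dyn p) (dyn q) (iota (Fin 2) ψ) : Module.End ℚ (L × ℚ)) (0, 1)).1 =
      (n : ℚ) • gtSubst p q ψ := by
  have e : (![dyn p, dyn q] : Fin 2 → Module.End ℚ (L × ℚ)) =
      fun c => dyn ((fun i : Fin 2 => if i = 0 then p else q) c) := by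
    funext c
    fin_cases c <;> rfl
  rw [ev2, e, ev_dyn _ hw]
  simp [gtSubst]

theorem bridge_coeff_ev {k σ : Type} [CommRing k] {R : Type} [Ring R] [Algebra k R] (v : σ → R)
    (n : ℕ) (f : FA k σ) :
    (ev (fun c => Polynomial.monomial 1 (v c)) f : Polynomial R).coeff n =
      ev v (proj (one σ) n f) := by
  have hw : ∀ w : FreeMonoid σ,
      (ev (fun c => Polynomial.monomial 1 (v c)) (wd w : FA k σ) : Polynomial R) =
        Polynomial.monomial (wdeg (one σ) w) (ev v (wd w : FA k σ)) := by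
    intro w
    induction w using FreeMonoid.inductionOn' with
    | one => simp
    | of_mul c w ih =>
      rw [wd_mul, map_mul, map_mul, ih, wd_of, ev_gen, ev_gen, Polynomial.monomial_mul_monomial,
        wdeg_mul, wdeg_of]
  refine induction_wd f (fun w => ?_) (by simp) (fun a b ha hb => ?_) (fun c a ha => ?_)
  · rw [hw, Polynomial.coeff_monomial]
    split_ifs with h
    · rw [proj_of_hom (h ▸ wd_mem_hom _ w)]
    · rw [proj_of_hom_ne (wd_mem_hom _ w) h, map_zero]
  · rw [map_add, map_add, map_add, Polynomial.coeff_add, ha, hb]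
  · rw [map_smul, map_smul, map_smul, Polynomial.coeff_smul, ha]

theorem bridge_coeff_ev2 {k : Type} [CommRing k] {R : Type} [Ring R] [Algebra k R] (p q : R)
    (n : ℕ) (f : FA k (Fin 2)) :
    (ev2 (Polynomial.monomial 1 p) (Polynomial.monomial 1 q) f : Polynomial R).coeff n =
      ev2 p q (proj (one (Fin 2)) n f) := by
  have e : (![Polynomial.monomial 1 p, Polynomial.monomial 1 q] : Fin 2 → Polynomial R) =
      fun c => Polynomial.monomial 1 ((![p, q] : Fin 2 → R) c) := by
    funext c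
    fin_cases c <;> rfl
  rw [ev2, e, bridge_coeff_ev]

theorem bridge_isT4_monomial {R : Type} [Ring R] {t : Fin 4 → Fin 4 → R} (ht : IsT4 t) :
    IsT4 (fun i j => (Polynomial.monomial 1 (t i j) : Polynomial R)) := by
  have hc : ∀ a b : R, Commute a b →
      Commute (Polynomial.monomial 1 a : Polynomial R) (Polynomial.monomial 1 b) := by
    intro a b h
    change _ * _ = _ * _
    rw [Polynomial.monomial_mul_monomial, Polynomial.monomial_mul_monomial, h.eq]
  refine ⟨fun i j => by rw [ht.symm], fun i j a b h1 h2 h3 h4 h5 h6 => ?_,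
    fun i j a h1 h2 h3 => ?_⟩
  · exact hc _ _ (ht.comm i j a b h1 h2 h3 h4 h5 h6)
  · rw [← map_add]
    exact hc _ _ (ht.tri i j a h1 h2 h3)

theorem bridge_proj_ev2 {k : Type} [CommRing k] {p q : FA k (Fin 2)} (hp : p ∈ hom (one (Fin 2)) 1)
    (hq : q ∈ hom (one (Fin 2)) 1) (n : ℕ) (f : FA k (Fin 2)) :
    proj (one (Fin 2)) n (ev2 p q f) = ev2 p q (proj (one (Fin 2)) n f) := by
  refine proj_ev (δ := one (Fin 2)) (fun c => ?_) n f
  fin_cases c
  · exact hp
  · exact hq

theorem bridge_hexD_two {f : FA ℚ (Fin 2)} (hf : f ∈ LieW ℚ (one (Fin 2)) 2) :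
    hexD f = (3 : ℚ) • f := by
  rw [LieW_eq_span] at hf
  induction hf using Submodule.span_induction with
  | mem x hx =>
    obtain ⟨m, hm, rfl⟩ := hx
    cases m with
    | of c => exact absurd hm (by change ¬ 1 = 2; omega)
    | mul a b =>
      have ha := mdeg_one_pos a
      have hb := mdeg_one_pos b
      have hm' : mdeg (one (Fin 2)) a + mdeg (one (Fin 2)) b = 2 := hm
      cases a with
      | mul a₁ a₂ =>
        have h1 := mdeg_one_pos a₁
        have h2 := mdeg_one_pos a₂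
        have e : mdeg (one (Fin 2)) (FreeMagma.mul a₁ a₂) =
          mdeg (one (Fin 2)) a₁ + mdeg (one (Fin 2)) a₂ := rfl
        omega
      | of a =>
        cases b with
        | mul b₁ b₂ =>
          have h1 := mdeg_one_pos b₁
          have h2 := mdeg_one_pos b₂
          have e : mdeg (one (Fin 2)) (FreeMagma.mul b₁ b₂) =
            mdeg (one (Fin 2)) b₁ + mdeg (one (Fin 2)) b₂ := rfl
          omega
        | of b =>
          have e : (br (FreeMagma.mul (FreeMagma.of a) (FreeMagma.of b)) : FA ℚ (Fin 2)) =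
            gen a * gen b - gen b * gen a := rfl
          have e3 : ∀ z : FA ℚ (Fin 2), (3 : ℚ) • z = z + z + z := fun z => by module
          rw [e, e3]
          simp only [hexD, map_sub, map_mul, ev_gen]
          fin_cases a <;> fin_cases b <;> simp <;> noncomm_ring
  | zero => simp [hexD]
  | add x y _ _ hx hy =>
    rw [smul_add, ← hx, ← hy]
    simp only [hexD, map_add]
    abel
  | smul c x _ hx =>
    rw [smul_comm, ← hx]
    simp only [hexD, map_smul, smul_add]

theorem bridge_isT4_comm (t : Fin 4 → Fin 4 → ℚ) (h : ∀ i j, t i j = t j i) : IsT4 t :=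
  ⟨h, fun _ _ _ _ _ _ _ _ _ _ => Commute.all _ _, fun _ _ _ _ _ _ => Commute.all _ _⟩


/-- A four-strand structure in an associative algebra gives a Lie map from `braidLie4` (lift on
`FreeBraid4`, the braid ideal is killed), so the pentagon holds there. -/
theorem pent4_of_pentagonDefect {ψ : GTLie} (h : pentagonDefect ψ = 0) {R : Type} [Ring R]
    [Algebra ℚ R] {t : Fin 4 → Fin 4 → R} (ht : IsT4 t) : pent4 (iota (Fin 2) ψ) t = 0 := by
  rw [bridge_pent4 ht, h, map_zero]

/-- The operators `dyn (tB i j)` form a four-strand structure (`dyn p` and `dyn q` commute when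
`⁅p,q⁆ = 0`); by `ev_dyn` the pentagon applied to `(0,1)` is `n • pentagonDefect ψ`. -/
theorem pentagonDefect_of_pent4 {n : ℕ} (hn : 1 ≤ n) {ψ : GTLie}
    (hw : ψ ∈ weightSubspace (one (Fin 2)) n)
    (h : ∀ (R : Type) [Ring R] [Algebra ℚ R] (t : Fin 4 → Fin 4 → R), IsT4 t →
      pent4 (iota (Fin 2) ψ) t = 0) : pentagonDefect ψ = 0 := by
  have h0 := h _ _ bridge_isT4_dyn
  have h1 := congrArg (fun φ : Module.End ℚ (braidLie4 × ℚ) => (φ (0, 1)).1) h0
  simp only [pent4, ← map_add, LinearMap.sub_apply, LinearMap.add_apply, Prod.fst_sub,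
    Prod.fst_add, bridge_ev2_dyn _ _ hw, LinearMap.zero_apply, Prod.fst_zero] at h1
  rw [← smul_add, ← smul_sub, ← smul_sub, ← smul_sub, ← bridge_pentagonDefect_apply] at h1
  have hn' : (n : ℚ) ≠ 0 := by
    have : n ≠ 0 := by omega
    exact_mod_cast this
  exact (smul_eq_zero.1 h1).resolve_left hn'

/-- The universal pentagon passes to homogeneous components: rescale `t` by `2^j`
(`ev_smul_of_hom`) and use a Vandermonde argument, or evaluate at `Polynomial.X • t` in
`Polynomial R` and read off coefficients. -/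
theorem pent4_proj {f : FA ℚ (Fin 2)}
    (h : ∀ (R : Type) [Ring R] [Algebra ℚ R] (t : Fin 4 → Fin 4 → R), IsT4 t → pent4 f t = 0)
    (n : ℕ) (R : Type) [Ring R] [Algebra ℚ R] (t : Fin 4 → Fin 4 → R) (ht : IsT4 t) :
    pent4 (proj (one (Fin 2)) n f) t = 0 := by
  have h0 := h _ _ (bridge_isT4_monomial ht)
  have h1 := congrArg (fun φ : Polynomial R => φ.coeff n) h0
  simp only [pent4, ← map_add, Polynomial.coeff_sub, Polynomial.coeff_add, bridge_coeff_ev2,
    Polynomial.coeff_zero] at h1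
  exact h1

theorem antiD_proj {k : Type} [CommRing k] (f : FA k (Fin 2)) (n : ℕ) :
    antiD (proj (one (Fin 2)) n f) = proj (one (Fin 2)) n (antiD f) := by
  rw [antiD, antiD, map_add, bridge_proj_ev2 (gen_mem_hom _ 1) (gen_mem_hom _ 0)]

theorem hexD_proj {k : Type} [CommRing k] (f : FA k (Fin 2)) (n : ℕ) :
    hexD (proj (one (Fin 2)) n f) = proj (one (Fin 2)) n (hexD f) := by
  have hz : (-gX - gY : FA k (Fin 2)) ∈ hom (one (Fin 2)) 1 :=
    sub_mem (neg_mem (gen_mem_hom _ 0)) (gen_mem_hom _ 1)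
  rw [hexD, hexD, map_add, map_add, bridge_proj_ev2 (gen_mem_hom _ 1) hz,
    bridge_proj_ev2 hz (gen_mem_hom _ 0)]

/-- Weight one: `α x + β y` has pentagon defect `-α t01 - β t23` (take `R = ℚ`; every symmetric
family in a commutative ring is a four-strand structure).  Weight two: `c ⁅x,y⁆` has hexagon
defect `3c ⁅x,y⁆`.  Weight zero: Lie polynomials have no constant term. -/
theorem low_weight {f : FA ℚ (Fin 2)} {n : ℕ} (hn : n < 3) (hf : f ∈ LieW ℚ (one (Fin 2)) n)
    (hh : hexD f = 0)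
    (h : ∀ (R : Type) [Ring R] [Algebra ℚ R] (t : Fin 4 → Fin 4 → R), IsT4 t → pent4 f t = 0) :
    f = 0 := by
  obtain rfl | rfl | rfl : n = 0 ∨ n = 1 ∨ n = 2 := by omega
  · exact eq_zero_of_hom_of_fil hf.2 (LieS_le_fil_one hf.1) Nat.one_pos
  · rw [LieW_one_eq_span, Submodule.mem_span_range_iff_exists_fun] at hf
    obtain ⟨c, rfl⟩ := hf
    have h1 := h ℚ (fun i j => if i.val + j.val = 1 then 1 else 0)
      (bridge_isT4_comm _ fun i j => by rw [add_comm])
    have h2 := h ℚ (fun i j => if i.val + j.val = 5 then 1 else 0)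
      (bridge_isT4_comm _ fun i j => by rw [add_comm])
    simp [pent4, Fin.sum_univ_two] at h1 h2
    simp [Fin.sum_univ_two, h1, h2]
  · rw [bridge_hexD_two hf] at hh
    exact (smul_eq_zero.1 hh).resolve_left (by norm_num)

theorem proj_mem_Sol {ψ : GTLie} (h : ψ ∈ grtSpace) (n : ℕ) :
    proj (one (Fin 2)) n (iota (Fin 2) ψ) ∈ Sol ℚ n ∧
      (n < 3 → proj (one (Fin 2)) n (iota (Fin 2) ψ) = 0) := by
  obtain ⟨⟨ha, hh⟩, hp⟩ := h
  have ha' : antisymDefect ψ = 0 := ha
  have hh' : threeTermDefect ψ = 0 := hh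
  have hp' : pentagonDefect ψ = 0 := hp
  have hL : proj (one (Fin 2)) n (iota (Fin 2) ψ) ∈ LieW ℚ (one (Fin 2)) n :=
    ⟨proj_mem_LieS _ n (iota_mem_LieS ψ), proj_mem_hom _ n _⟩
  have hA : antiD (proj (one (Fin 2)) n (iota (Fin 2) ψ)) = 0 := by
    rw [antiD_proj, ← iota_antisymDefect, ha', map_zero, map_zero]
  have hH : hexD (proj (one (Fin 2)) n (iota (Fin 2) ψ)) = 0 := by
    rw [hexD_proj, ← iota_threeTermDefect, hh', map_zero, map_zero]
  have hP := pent4_proj (f := iota (Fin 2) ψ)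
    (fun R _ _ t ht => pent4_of_pentagonDefect hp' ht) n
  have hlow : n < 3 → proj (one (Fin 2)) n (iota (Fin 2) ψ) = 0 := fun hn =>
    low_weight hn hL hH hP
  refine ⟨?_, hlow⟩
  by_cases hn : n < 3
  · rw [hlow hn]; exact zero_mem _
  · exact mem_Sol.2 ⟨hL, APent_of_pent4 (mem_LieD_of_LieW hL (by omega)) hA hP⟩

theorem mem_grtSpace_of_Sol {n : ℕ} (hn : 3 ≤ n) {ψ : GTLie} (h : iota (Fin 2) ψ ∈ Sol ℚ n) :
    ψ ∈ grtSpace := by
  obtain ⟨hL, hP⟩ := mem_Sol.1 h
  have hD := mem_LieD_of_LieW hL (by omega : 2 ≤ n)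
  refine ⟨⟨?_, ?_⟩, ?_⟩
  · change antisymDefect ψ = 0
    apply iota_injective
    rw [iota_antisymDefect, map_zero]
    exact antiD_eq_zero_of_APent hD hP
  · change threeTermDefect ψ = 0
    apply iota_injective
    rw [iota_threeTermDefect, map_zero]
    exact hexD_eq_zero hn h
  · change pentagonDefect ψ = 0
    exact pentagonDefect_of_pent4 (by omega : 1 ≤ n) (mem_weightSubspace_iff.2 hL.2)
      fun R _ _ t ht => pent4_eq_zero_of_APent hD hP ht

end Crest.Agent.R010
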