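import Crest.Agent.R010.Cocycle

/-! # Row 10, part B: deformations of five-strand structures; closure under the Ihara bracket -/

set_option autoImplicit false

noncomputable section

namespace Crest.Agent.R010

variable {K : Type} [Field K] [CharZero K] {R : Type} [Ring R] [Algebra K R]

theorem deform_nd {i j s l m : Fin 5} : [i, j, s, l, m].Nodup ↔
    (i ≠ j ∧ i ≠ s ∧ i ≠ l ∧ i ≠ m) ∧ (j ≠ s ∧ j ≠ l ∧ j ≠ m) ∧ (s ≠ l ∧ s ≠ m) ∧ l ≠ m := by
  simp [not_or]

theorem deform_nd_swap {i j s l m : Fin 5} (h : [i, j, s, l, m].Nodup) :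
    [j, i, s, l, m].Nodup := by
  rw [deform_nd] at h ⊢
  tauto

theorem deform_nd_flip {i j s l m : Fin 5} (h : [i, j, s, l, m].Nodup) :
    [l, m, s, i, j].Nodup := by
  rw [deform_nd] at h ⊢
  tauto

theorem deform_nd_rot {i j s l m : Fin 5} (h : [i, j, s, l, m].Nodup) :
    [j, s, i, l, m].Nodup := by
  rw [deform_nd] at h ⊢
  tauto

theorem deform_cover {i j s l m : Fin 5} (h : [i, j, s, l, m].Nodup) (x : Fin 5) :
    x = i ∨ x = j ∨ x = s ∨ x = l ∨ x = m := by
  have h1 : [i, j, s, l, m].toFinset = Finset.univ :=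
    Finset.eq_univ_of_card _ (by rw [List.toFinset_card_of_nodup h]; rfl)
  have h2 : x ∈ [i, j, s, l, m].toFinset := h1 ▸ Finset.mem_univ x
  simpa using h2

theorem deform_ex2 : ∀ i j : Fin 5, i ≠ j → ∃ s l m, [i, j, s, l, m].Nodup := by decide

theorem deform_ex4 : ∀ i j l m : Fin 5, i ≠ j → i ≠ l → i ≠ m → j ≠ l → j ≠ m → l ≠ m →
    ∃ s, [i, j, s, l, m].Nodup := by decide

theorem deform_ex1 : ∀ i : Fin 5, [i, i + 1, i + 2, i + 3, i + 4].Nodup := by decide

theorem deform_lie_add (x y z : R) : ⁅x, y + z⁆ = ⁅x, y⁆ + ⁅x, z⁆ := by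
  simp only [Ring.lie_def]
  noncomm_ring

theorem deform_snd_edge (X d : Fin 5 → Fin 5 → R) (f : FA K (Fin 2)) (i j s : Fin 5) :
    (edge f (fun i j => (TrivSqZeroExt.inl (X i j) + TrivSqZeroExt.inr (d i j) :
      TrivSqZeroExt R R)) i j s).snd = derv ![X i j, X j s] ![d i j, d j s] f := by
  have h := ev_dual (k := K) ![X i j, X j s] ![d i j, d j s] f
  have h2 : edge f (fun i j => (TrivSqZeroExt.inl (X i j) + TrivSqZeroExt.inr (d i j) :
      TrivSqZeroExt R R)) i j s = ev (fun c => (TrivSqZeroExt.inl (![X i j, X j s] c) +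
        TrivSqZeroExt.inr (![d i j, d j s] c) : TrivSqZeroExt R R)) f := by
    unfold edge
    refine ev_congr (fun c => ?_) f
    fin_cases c <;> rfl
  rw [h2, h]
  simp

/-- Potentials `a` and the first-order deformation `d i j = ⁅X i j, a i j l m⁆`. -/
structure IsPot (ψ : FA K (Fin 2)) (X : Fin 5 → Fin 5 → R) (a : Fin 5 → Fin 5 → Fin 5 → Fin 5 → R)
    (d : Fin 5 → Fin 5 → R) : Prop where
  mem : ∀ i j l m, a i j l m ∈ Submodule.span K {z | ∃ i j s, z = edge ψ X i j s}
  swap : ∀ i j s l m : Fin 5, [i, j, s, l, m].Nodup → a j i l m = a i j l m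
  flip : ∀ i j s l m : Fin 5, [i, j, s, l, m].Nodup → a l m i j = a i j l m
  step : ∀ i j s l m : Fin 5, [i, j, s, l, m].Nodup → a j s l m = a i j l m + edge ψ X i j s
  diag : ∀ i, d i i = 0
  eq : ∀ i j s l m : Fin 5, [i, j, s, l, m].Nodup → d i j = ⁅X i j, a i j l m⁆

/-- `exists_potential`; `⁅X i j, a i j l m⁆` does not depend on `l, m` because changing the pair
changes `a` by an edge `φ` on the three other strands, which commutes with `X i j`
(`commute_edge`). -/
theorem exists_isPot {n : ℕ} (hn : 3 ≤ n) {ψ : FA K (Fin 2)} (hψ : ψ ∈ Sol K n)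
    {X : Fin 5 → Fin 5 → R} (hX : IsT5 X) : ∃ a d, IsPot ψ X a d := by
  classical
  have hD : ψ ∈ LieD K (Fin 2) := mem_LieD_of_LieW hψ.1 (by omega)
  have hA : antiD ψ = 0 := antiD_eq_zero_of_APent hD hψ.2
  obtain ⟨a, hmem, ha⟩ := exists_potential (K := K) (edge ψ X) (edge_anti hA hX)
    (fun i j s l m hd => edge_hex hn hψ hX hd) (fun i j s l m hd => edge_pent hψ.2 hX hd)
  -- swapping the second pair
  have hsw : ∀ i j s l m : Fin 5, [i, j, s, l, m].Nodup → a i j m l = a i j l m := by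
    intro i j s l m hd
    have h1 := (ha i j s l m hd).2.1
    have h2 := (ha l m s i j (deform_nd_flip hd)).1
    have h3 := (ha m l s i j (deform_nd_swap (deform_nd_flip hd))).2.1
    rw [h3, h2, h1]
  -- rotating the three other strands
  have hrot : ∀ i j s l m : Fin 5, [i, j, s, l, m].Nodup →
      ⁅X i j, a i j m s⁆ = ⁅X i j, a i j l m⁆ := by
    intro i j s l m hd
    have hf := deform_nd_flip hd
    have h1 := (ha i j s l m hd).2.1
    have h2 := (ha l m s i j hf).2.2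
    have h3 := (ha m s l i j (deform_nd_rot hf)).2.1
    rw [h3, h2, h1, deform_lie_add, (lie_eq_zero_iff_commute _ _).2 (commute_edge ψ hX hf),
      add_zero]
  have hind : ∀ i j s l m s' l' m' : Fin 5, [i, j, s, l, m].Nodup → [i, j, s', l', m'].Nodup →
      ⁅X i j, a i j l' m'⁆ = ⁅X i j, a i j l m⁆ := by
    intro i j s l m s' l' m' hd hd'
    have hd1 : [i, j, l, m, s].Nodup := deform_nd_flip (deform_nd_rot (deform_nd_flip hd))
    have hd2 : [i, j, m, s, l].Nodup := deform_nd_flip (deform_nd_rot (deform_nd_flip hd1))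
    have e1 := hrot i j s l m hd
    have e2 := hrot i j l m s hd1
    have f0 := hsw i j s l m hd
    have f1 := hsw i j l m s hd1
    have f2 := hsw i j m s l hd2
    obtain ⟨⟨-, -, n1, n2⟩, ⟨-, n3, n4⟩, -, n5⟩ := deform_nd.1 hd'
    rcases deform_cover hd l' with rfl | rfl | rfl | rfl | rfl <;>
      rcases deform_cover hd m' with rfl | rfl | rfl | rfl | rfl <;>
      first
        | exact absurd rfl n1
        | exact absurd rfl n2
        | exact absurd rfl n3
        | exact absurd rfl n4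
        | exact absurd rfl n5
        | rfl
        | exact e1
        | exact e2.trans e1
        | rw [f0]
        | rw [f1, e1]
        | rw [f2, e2, e1]
  refine ⟨a, fun i j => if h : ∃ t : Fin 5 × Fin 5 × Fin 5, [i, j, t.1, t.2.1, t.2.2].Nodup then
    ⁅X i j, a i j h.choose.2.1 h.choose.2.2⁆ else 0, hmem, fun i j s l m hd => (ha i j s l m hd).1,
    fun i j s l m hd => (ha i j s l m hd).2.1, fun i j s l m hd => (ha i j s l m hd).2.2,
    fun i => ?_, fun i j s l m hd => ?_⟩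
  · rw [dif_neg]
    rintro ⟨t, ht⟩
    exact (deform_nd.1 ht).1.1 rfl
  · have h : ∃ t : Fin 5 × Fin 5 × Fin 5, [i, j, t.1, t.2.1, t.2.2].Nodup := ⟨(s, l, m), hd⟩
    rw [dif_pos h]
    exact hind i j s l m _ _ _ hd h.choose_spec

theorem IsPot.symm {ψ : FA K (Fin 2)} {X : Fin 5 → Fin 5 → R} (hX : IsT5 X)
    {a : Fin 5 → Fin 5 → Fin 5 → Fin 5 → R} {d : Fin 5 → Fin 5 → R} (h : IsPot ψ X a d)
    (i j : Fin 5) : d i j = d j i := by
  by_cases hij : i = j
  · rw [hij]
  · obtain ⟨s, l, m, hd⟩ := deform_ex2 i j hij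
    rw [h.eq i j s l m hd, h.eq j i s l m (deform_nd_swap hd), h.swap i j s l m hd, hX.symm j i]

/-- `d ij + d js + d is - d lm = s(X ij, X js)`: take the base vertex `a = a i j l m`,
`a j s l m = a + φ_{ijs}`, `a i s l m = a + φ_{jis}`, `X ij + X js + X is = X lm`. -/
theorem IsPot.ev2_specD {ψ : FA K (Fin 2)} (hψ : ψ ∈ LieD K (Fin 2)) {X : Fin 5 → Fin 5 → R}
    (hX : IsT5 X) {a : Fin 5 → Fin 5 → Fin 5 → Fin 5 → R} {d : Fin 5 → Fin 5 → R}
    (h : IsPot ψ X a d) {i j s l m : Fin 5} (hd : [i, j, s, l, m].Nodup) :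
    ev2 (X i j) (X j s) (specD ψ) = d i j + d j s + d i s - d l m := by
  obtain ⟨⟨n1, n2, n3, n4⟩, ⟨n5, n6, n7⟩, ⟨n8, n9⟩, n10⟩ := deform_nd.1 hd
  have hc := hX.compl K hd
  have hz : -X i j - X j s = X i s + -X l m := by rw [hc]; abel
  have c1 : Commute (X l m) (X i j) := hX.comm l m i j n10 n3.symm n6.symm n4.symm n7.symm n1
  have c2 : Commute (X l m) (X i s) := hX.comm l m i s n10 n3.symm n8.symm n4.symm n9.symm n2
  have e1 : ev2 (X i j) (X i s + -X l m) ψ = edge ψ X j i s := by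
    have := ev2_add_central (k := K) (p := X i j) (q := X i s) (z := 0) (z' := -X l m)
      (Commute.zero_left _) (Commute.zero_left _) c1.neg_left c2.neg_left (Commute.zero_left _) hψ
    rw [add_zero] at this
    rw [this, edge, hX.symm j i]
  have c3 : Commute (X l m) (edge ψ X j i s) := commute_edge ψ hX (deform_nd_swap hd)
  have hL : ev2 (X i j) (X j s) (specD ψ) =
      ⁅X j s, edge ψ X i j s⁆ + ⁅X i s + -X l m, edge ψ X j i s⁆ := by
    unfold specD
    rw [map_add, map_lie', map_lie', map_ev2]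
    simp only [map_sub, map_neg, ev_gen, Matrix.cons_val_zero, Matrix.cons_val_one]
    rw [hz, e1]
    rfl
  rw [hL, h.eq i j s l m hd, h.eq j s i l m (deform_nd_rot hd),
    h.eq i s j l m (deform_nd_rot (deform_nd_swap hd)), h.eq l m s i j (deform_nd_flip hd),
    h.step i j s l m hd, h.step j i s l m (deform_nd_swap hd), h.swap i j s l m hd,
    h.flip i j s l m hd]
  have c4 := c3.eq
  simp only [Ring.lie_def]
  generalize a i j l m = A at *
  generalize edge ψ X i j s = P at *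
  generalize edge ψ X j i s = Q at *
  rw [hc] at c4 ⊢
  have : (X i s + -(X i j + X j s + X i s)) * Q - Q * (X i s + -(X i j + X j s + X i s)) =
      X i s * Q - Q * X i s - ((X i j + X j s + X i s) * Q - Q * (X i j + X j s + X i s)) := by
    noncomm_ring
  rw [this, c4]
  noncomm_ring

/-- **Solutions are special.** `specD ψ` (Lie of weight `n + 1`) is a cocycle:
`s(X04,X14)`, `s(X04+X14,X24) = s(X32,X24)`, `s(X14,X24)`, `s(X04,X14+X24) = s(X40,X03)`
are given by `IsPot.ev2_specD`, and the alternating sum of the `d`'s cancels: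
`(d04+d41+d01-d23) + (d32+d24+d34-d01) - (d14+d42+d12-d03) - (d40+d03+d43-d12) = 0`. -/
theorem specD_eq_zero {n : ℕ} (hn : 3 ≤ n) {ψ : FA K (Fin 2)} (hψ : ψ ∈ Sol K n) :
    specD ψ = 0 := by
  have hD : ψ ∈ LieD K (Fin 2) := mem_LieD_of_LieW hψ.1 (by omega)
  have hx : (gX : FA K (Fin 2)) ∈ LieW K (one (Fin 2)) 1 := ⟨gen_mem_LieS _, gen_mem_hom _ _⟩
  have hy : (gY : FA K (Fin 2)) ∈ LieW K (one (Fin 2)) 1 := ⟨gen_mem_LieS _, gen_mem_hom _ _⟩
  have hz : (-gX - gY : FA K (Fin 2)) ∈ LieW K (one (Fin 2)) 1 := sub_mem (neg_mem hx) hy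
  have hw : (ev2 gX (-gX - gY) ψ : FA K (Fin 2)) ∈ LieW K (one (Fin 2)) n := by
    refine ⟨ev_mem_LieS (fun c => ?_) hψ.1.1, ev_mem_hom (δ := one (Fin 2)) (fun c => ?_) hψ.1.2⟩
    · fin_cases c
      · exact hx.1
      · exact hz.1
    · fin_cases c
      · exact hx.2
      · exact hz.2
  have hF : specD ψ ∈ LieW K (one (Fin 2)) (1 + n) :=
    add_mem (lie_mem_LieW hy hψ.1) (lie_mem_LieW hz hw)
  have hFD : specD ψ ∈ LieD K (Fin 2) := mem_LieD_of_LieW hF (by omega)
  refine eq_zero_of_cocD (by omega) hF (cocD_eq_zero_of_T5 fun R _ _ X hX => ?_)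
  obtain ⟨a, d, h⟩ := exists_isPot hn hψ hX
  have e1 := h.ev2_specD hD hX (i := 0) (j := 4) (s := 1) (l := 2) (m := 3) (by decide)
  have e2 := h.ev2_specD hD hX (i := 3) (j := 2) (s := 4) (l := 0) (m := 1) (by decide)
  have e3 := h.ev2_specD hD hX (i := 1) (j := 4) (s := 2) (l := 0) (m := 3) (by decide)
  have e4 := h.ev2_specD hD hX (i := 4) (j := 0) (s := 3) (l := 1) (m := 2) (by decide)
  have c1 := hX.compl K (i := 0) (j := 4) (s := 1) (l := 2) (m := 3) (by decide)
  have c2 := hX.compl K (i := 1) (j := 4) (s := 2) (l := 0) (m := 3) (by decide)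
  have f2 : ev2 (X 0 4 + X 1 4) (X 2 4) (specD ψ) = ev2 (X 3 2) (X 2 4) (specD ψ) := by
    have k1 : Commute (X 0 1) (X 3 2) :=
      hX.comm 0 1 3 2 (by decide) (by decide) (by decide) (by decide) (by decide) (by decide)
    have k2 : Commute (X 0 1) (X 2 4) :=
      hX.comm 0 1 2 4 (by decide) (by decide) (by decide) (by decide) (by decide) (by decide)
    have := ev2_add_central (k := K) (p := X 3 2) (q := X 2 4) (z := -X 0 1) (z' := 0)
      k1.neg_left k2.neg_left (Commute.zero_left _) (Commute.zero_left _) (Commute.zero_right _) hFD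
    rw [add_zero] at this
    rw [← this, hX.symm 3 2, c1, hX.symm 4 1]
    congr 2
    abel
  have f4 : ev2 (X 0 4) (X 1 4 + X 2 4) (specD ψ) = ev2 (X 4 0) (X 0 3) (specD ψ) := by
    have k1 : Commute (X 1 2) (X 4 0) :=
      hX.comm 1 2 4 0 (by decide) (by decide) (by decide) (by decide) (by decide) (by decide)
    have k2 : Commute (X 1 2) (X 0 3) :=
      hX.comm 1 2 0 3 (by decide) (by decide) (by decide) (by decide) (by decide) (by decide)
    have := ev2_add_central (k := K) (p := X 4 0) (q := X 0 3) (z := 0) (z' := -X 1 2)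
      (Commute.zero_left _) (Commute.zero_left _) k1.neg_left k2.neg_left (Commute.zero_left _) hFD
    rw [add_zero] at this
    rw [← this, hX.symm 4 0, c2, hX.symm 4 2]
    congr 2
    abel
  rw [hX.symm 4 1] at e1
  rw [hX.symm 4 2] at e3
  rw [f2, f4, e1, e2, e3, e4, h.symm hX 4 1, h.symm hX 3 2, h.symm hX 4 2, h.symm hX 4 0,
    h.symm hX 4 3]
  abel

/-- With `specD ψ = 0` we get `d lm = d ij + d js + d is` for all triples, hence
`∑_j d i j = 0` (linear algebra over `K`); commutation of disjoint pairs: use the same potential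
`a i j l m = a l m i j` and the Jacobi identity. -/
theorem IsPot.isT5 {n : ℕ} (hn : 3 ≤ n) {ψ : FA K (Fin 2)} (hψ : ψ ∈ Sol K n)
    {X : Fin 5 → Fin 5 → R} (hX : IsT5 X) {a : Fin 5 → Fin 5 → Fin 5 → Fin 5 → R}
    {d : Fin 5 → Fin 5 → R} (h : IsPot ψ X a d) :
    IsT5 (fun i j => (TrivSqZeroExt.inl (X i j) + TrivSqZeroExt.inr (d i j) :
      TrivSqZeroExt R R)) := by
  have hD : ψ ∈ LieD K (Fin 2) := mem_LieD_of_LieW hψ.1 (by omega)
  have htri : ∀ i j s l m : Fin 5, [i, j, s, l, m].Nodup → d l m = d i j + d j s + d i s := by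
    intro i j s l m hd
    have := h.ev2_specD hD hX hd
    rw [specD_eq_zero hn hψ, map_zero] at this
    exact (sub_eq_zero.1 this.symm).symm
  refine ⟨fun i j => by rw [hX.symm i j, h.symm hX i j], fun i => by simp [hX.diag i, h.diag i],
    fun i j l m n1 n2 n3 n4 n5 n6 => ?_, fun i => ?_⟩
  · obtain ⟨s, hd⟩ := deform_ex4 i j l m n1 n2 n3 n4 n5 n6
    have hc := (hX.comm i j l m n1 n2 n3 n4 n5 n6).eq
    have e1 := h.eq i j s l m hd
    have e2 := h.eq l m s i j (deform_nd_flip hd)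
    rw [h.flip i j s l m hd] at e2
    refine TrivSqZeroExt.ext ?_ ?_
    · simpa using hc
    · simp only [TrivSqZeroExt.snd_mul, TrivSqZeroExt.fst_add, TrivSqZeroExt.fst_inl,
        TrivSqZeroExt.fst_inr, add_zero, TrivSqZeroExt.snd_add, TrivSqZeroExt.snd_inl,
        TrivSqZeroExt.snd_inr, zero_add, smul_eq_mul, MulOpposite.smul_eq_mul_unop,
        MulOpposite.unop_op]
      rw [e1, e2]
      simp only [Ring.lie_def]
      generalize a i j l m = A
      generalize X i j = P at *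
      generalize X l m = Q at *
      have : P * (Q * A - A * Q) + (P * A - A * P) * Q - (Q * (P * A - A * P) + (Q * A - A * Q) * P)
          = (P * Q - Q * P) * A - A * (P * Q - Q * P) := by noncomm_ring
      rw [hc, sub_self, zero_mul, mul_zero, sub_zero] at this
      exact sub_eq_zero.1 this
  · have hs : ∑ j, d i j = 0 := by
      have hd := deform_ex1 i
      generalize i + 1 = j at hd
      generalize i + 2 = s at hd
      generalize i + 3 = l at hd
      generalize i + 4 = m at hd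
      obtain ⟨π, p0, p1, p2, p3, p4⟩ := exists_perm_of_nodup hd
      rw [← Equiv.sum_comp π, Fin.sum_univ_five, p0, p1, p2, p3, p4, h.diag i]
      have hh := deform_nd.1 hd
      have t1 := htri i j s l m hd
      have t2 := htri i j l s m (by rw [deform_nd]; tauto)
      have t3 := htri i j m s l (by rw [deform_nd]; tauto)
      have t4 := htri i s l j m (by rw [deform_nd]; tauto)
      have t5 := htri i s m j l (by rw [deform_nd]; tauto)
      have t6 := htri i l m j s (by rw [deform_nd]; tauto)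
      linear_combination (norm := module) (-(1 / 3 : K)) • (t1 + t2 + t3 + t4 + t5 + t6)
    refine TrivSqZeroExt.ext ?_ ?_
    · simpa [TrivSqZeroExt.fst_sum] using hX.sum i
    · simpa [TrivSqZeroExt.snd_sum] using hs

/-- The first-order variation of an edge. -/
theorem IsPot.derv_edge {ψ : FA K (Fin 2)} {X : Fin 5 → Fin 5 → R}
    {a : Fin 5 → Fin 5 → Fin 5 → Fin 5 → R} {d : Fin 5 → Fin 5 → R} (h : IsPot ψ X a d)
    {i j s l m : Fin 5} (hd : [i, j, s, l, m].Nodup) (f : FA K (Fin 2)) :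
    derv ![X i j, X j s] ![d i j, d j s] f =
      ⁅edge f X i j s, a i j l m⁆ + edge (Dih ψ f) X i j s := by
  rw [h.eq i j s l m hd, h.eq j s i l m (deform_nd_rot hd), h.step i j s l m hd]
  exact derv_pair _ _ _ ψ f

/-- **Closure.** Let `a`, `b` be potentials of `ψ`, `φ`.  The `ε`-part of the five-cycle relation
of `φ` at `X + ε d^ψ` gives `∑_e (D_ψ φ)_e = -∑_e ⁅φ_e, a_v⁆` (`ev_dual`, `IsPot.derv_edge`), and
symmetrically.  For an edge `e : v → v'` one has `ψ_e = a' - a`, `φ_e = b' - b` and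
`-⁅φ_e,a⁆ + ⁅ψ_e,b⁆ + ⁅ψ_e,φ_e⁆ = ⁅a',b'⁆ - ⁅a,b⁆`; this telescopes along
`{01|34} → {12|34} = {34|12} → {40|12} → {23|40} → {01|23} → {34|01}` (edges
`012, 340, 123, 401, 234`). -/
theorem ihara_mem_Sol {m n : ℕ} (hm : 3 ≤ m) (hn : 3 ≤ n) {ψ φ : FA K (Fin 2)}
    (hψ : ψ ∈ Sol K m) (hφ : φ ∈ Sol K n) : ihara ψ φ ∈ Sol K (m + n) := by
  refine ⟨ihara_mem_LieW hψ.1 hφ.1, fun R _ _ X hX => ?_⟩
  obtain ⟨a, d, ha⟩ := exists_isPot hm hψ hX
  obtain ⟨b, e, hb⟩ := exists_isPot hn hφ hX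
  have n1 : ([0, 1, 2, 3, 4] : List (Fin 5)).Nodup := by decide
  have n2 : ([1, 2, 3, 4, 0] : List (Fin 5)).Nodup := by decide
  have n3 : ([2, 3, 4, 0, 1] : List (Fin 5)).Nodup := by decide
  have n4 : ([3, 4, 0, 1, 2] : List (Fin 5)).Nodup := by decide
  have n5 : ([4, 0, 1, 2, 3] : List (Fin 5)).Nodup := by decide
  have h1 := congrArg TrivSqZeroExt.snd (hφ.2 _ _ (ha.isT5 hm hψ hX))
  have h2 := congrArg TrivSqZeroExt.snd (hψ.2 _ _ (hb.isT5 hn hφ hX))
  simp only [pent5, TrivSqZeroExt.snd_add, deform_snd_edge, TrivSqZeroExt.snd_zero] at h1 h2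
  rw [ha.derv_edge n1, ha.derv_edge n2, ha.derv_edge n3, ha.derv_edge n4, ha.derv_edge n5] at h1
  rw [hb.derv_edge n1, hb.derv_edge n2, hb.derv_edge n3, hb.derv_edge n4, hb.derv_edge n5] at h2
  have key : ∀ i j s l m : Fin 5, [i, j, s, l, m].Nodup → edge (ihara ψ φ) X i j s =
      (⁅edge φ X i j s, a i j l m⁆ + edge (Dih ψ φ) X i j s) -
        (⁅edge ψ X i j s, b i j l m⁆ + edge (Dih φ ψ) X i j s) +
        (⁅a j s l m, b j s l m⁆ - ⁅a i j l m, b i j l m⁆) := by
    intro i j s l m hd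
    rw [ha.step i j s l m hd, hb.step i j s l m hd]
    simp only [edge, ihara, map_add, map_sub, map_mul, Ring.lie_def]
    noncomm_ring
  unfold pent5
  rw [key _ _ _ _ _ n1, key _ _ _ _ _ n2, key _ _ _ _ _ n3, key _ _ _ _ _ n4, key _ _ _ _ _ n5]
  have a1 := ha.flip 1 2 0 3 4 (by decide)
  have a2 := ha.flip 2 3 1 4 0 (by decide)
  have a3 := ha.flip 3 4 2 0 1 (by decide)
  have a4 := ha.flip 4 0 3 1 2 (by decide)
  have a5 := ha.flip 0 1 4 2 3 (by decide)
  have b1 := hb.flip 1 2 0 3 4 (by decide)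
  have b2 := hb.flip 2 3 1 4 0 (by decide)
  have b3 := hb.flip 3 4 2 0 1 (by decide)
  have b4 := hb.flip 4 0 3 1 2 (by decide)
  have b5 := hb.flip 0 1 4 2 3 (by decide)
  rw [← a1, ← a2, ← a3, ← a4, ← a5, ← b1, ← b2, ← b3, ← b4, ← b5]
  linear_combination (norm := abel) h1 - h2

end Crest.Agent.R010
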