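import Mathlib
import Crest.Prelude.Def_GTLie

/-!
# Row 10 (S0011): definitions

`FA k σ` is the free associative `k`-algebra on the alphabet `σ`.
All brackets `⁅a, b⁆` in rings are ring commutators (`Ring.lie_def`).
-/

set_option autoImplicit false

noncomputable section

namespace Crest.Agent.R010

/-- The free associative algebra on `σ` over `k`. -/
abbrev FA (k σ : Type) [CommRing k] : Type := MonoidAlgebra k (FreeMonoid σ)

section Free

variable {k : Type} [CommRing k] {σ τ : Type}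

/-- A word as an element of `FA k σ`. -/
def wd (w : FreeMonoid σ) : FA k σ := MonoidAlgebra.single w 1

/-- A letter as an element of `FA k σ`. -/
def gen (c : σ) : FA k σ := wd (FreeMonoid.of c)

/-- The coefficient of a word, as a linear functional. -/
def cf (w : FreeMonoid σ) : FA k σ →ₗ[k] k :=
  Finsupp.lapply w ∘ₗ (MonoidAlgebra.coeffLinearEquiv k).toLinearMap

/-- Evaluation: the algebra hom sending the letter `c` to `v c`. -/
def ev {R : Type} [Ring R] [Algebra k R] (v : σ → R) : FA k σ →ₐ[k] R :=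
  MonoidAlgebra.lift k R (FreeMonoid σ) (FreeMonoid.lift v)

/-- Evaluation of a polynomial in two letters. -/
abbrev ev2 {R : Type} [Ring R] [Algebra k R] (p q : R) : FA k (Fin 2) →ₐ[k] R := ev ![p, q]

/-- Evaluation of a polynomial in three letters. -/
abbrev ev3 {R : Type} [Ring R] [Algebra k R] (p q r : R) : FA k (Fin 3) →ₐ[k] R := ev ![p, q, r]

/-- The `δ`-degree of a word. -/
def wdeg (δ : σ → ℕ) (w : FreeMonoid σ) : ℕ := (w.toList.map δ).sum

/-- The length weight: every letter has degree one. -/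
abbrev one (σ : Type) : σ → ℕ := fun _ => 1

/-- Elements all of whose words satisfy `p`. -/
def supp (p : FreeMonoid σ → Prop) : Submodule k (FA k σ) where
  carrier := {f | ∀ w, ¬ p w → cf w f = 0}
  add_mem' := by
    intro a b ha hb w hw
    rw [map_add, ha w hw, hb w hw, add_zero]
  zero_mem' := by intro w _; simp
  smul_mem' := by
    intro c a ha w hw
    rw [map_smul, ha w hw, smul_zero]

/-- Homogeneous elements of `δ`-degree `n`. -/
def hom (δ : σ → ℕ) (n : ℕ) : Submodule k (FA k σ) := supp (fun w => wdeg δ w = n)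

/-- Elements of `δ`-degree at least `n`. -/
def fil (δ : σ → ℕ) (n : ℕ) : Submodule k (FA k σ) := supp (fun w => n ≤ wdeg δ w)

open Classical in
/-- Keep only the words satisfying `p`. -/
def restr (p : FreeMonoid σ → Prop) : FA k σ →ₗ[k] FA k σ where
  toFun f := MonoidAlgebra.ofCoeff (f.coeff.filter p)
  map_add' a b := by simp [Finsupp.filter_add]
  map_smul' c a := by simp [Finsupp.filter_smul]

/-- The component of `δ`-degree `n`. -/
def proj (δ : σ → ℕ) (n : ℕ) : FA k σ →ₗ[k] FA k σ := restr (fun w => wdeg δ w = n)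

/-- Iterated commutators in a ring, indexed by the free magma. -/
def brR {R : Type} [Ring R] (v : σ → R) : FreeMagma σ → R
  | FreeMagma.of c => v c
  | FreeMagma.mul a b => ⁅brR v a, brR v b⁆

/-- Lie monomials of the free associative algebra. -/
def br (m : FreeMagma σ) : FA k σ := brR gen m

/-- The `δ`-degree of a bracketing. -/
def mdeg (δ : σ → ℕ) : FreeMagma σ → ℕ
  | FreeMagma.of c => δ c
  | FreeMagma.mul a b => mdeg δ a + mdeg δ b

/-- Lie polynomials. -/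
def LieS (k σ : Type) [CommRing k] : Submodule k (FA k σ) :=
  Submodule.span k (Set.range (br : FreeMagma σ → FA k σ))

/-- Lie polynomials that are homogeneous of `δ`-degree `n`. -/
def LieW (k : Type) [CommRing k] (δ : σ → ℕ) (n : ℕ) : Submodule k (FA k σ) :=
  LieS k σ ⊓ hom δ n

/-- Lie polynomials without linear part (the derived algebra). -/
def LieD (k σ : Type) [CommRing k] : Submodule k (FA k σ) := LieS k σ ⊓ fil (one σ) 2

/-- The derivation along `ev v` sending the letter `c` to `d c`. -/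
def derv {R : Type} [Ring R] [Algebra k R] (v d : σ → R) : FA k σ →ₗ[k] R :=
  (TrivSqZeroExt.sndHom R R).restrictScalars k ∘ₗ
    (ev (fun c => (TrivSqZeroExt.inl (v c) + TrivSqZeroExt.inr (d c) : TrivSqZeroExt R R))
      : FA k σ →ₐ[k] TrivSqZeroExt R R).toLinearMap

/-- The derivation of `FA k σ` sending the letter `c` to `d c`. -/
def der (d : σ → FA k σ) : Module.End k (FA k σ) := derv gen d

/-- Left multiplication. -/
abbrev Lm {R : Type} [Ring R] [Algebra k R] (a : R) : Module.End k R := LinearMap.mulLeft k a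

/-- Right multiplication. -/
abbrev Rm {R : Type} [Ring R] [Algebra k R] (a : R) : Module.End k R := LinearMap.mulRight k a

/-- `ad a = ⁅a, ·⁆`. -/
def adm {R : Type} [Ring R] [Algebra k R] (a : R) : Module.End k R := Lm a - Rm a

/-- Change of coefficients. -/
abbrev mapC {k' : Type} [CommRing k'] (φ : k →+* k') : FA k σ →+* FA k' σ :=
  MonoidAlgebra.mapRingHom (FreeMonoid σ) φ

/-- All products of `N + 1` members of the family `v` vanish. -/
def Nil {ι R : Type} [Ring R] (N : ℕ) (v : ι → R) : Prop :=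
  ∀ l : List ι, l.length = N + 1 → (l.map v).prod = 0

end Free

/-! ## Two letters: Ihara bracket -/

section Two

variable {k : Type} [CommRing k]

/-- The letter `x` (also called `a` or `X`). -/
abbrev gX : FA k (Fin 2) := gen 0
/-- The letter `y` (also called `b` or `Y`). -/
abbrev gY : FA k (Fin 2) := gen 1

/-- `y`-depth. -/
def dep : Fin 2 → ℕ := ![0, 1]

/-- The weight `2k+3` of the generator `e_k`. -/
def wt : ℕ → ℕ := fun j => 2 * j + 3

/-- The word `x^(n-1) y`. -/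
def wXY (n : ℕ) : FreeMonoid (Fin 2) := FreeMonoid.of 0 ^ (n - 1) * FreeMonoid.of 1

/-- The Ihara derivation `x ↦ 0`, `y ↦ ⁅y, ψ⁆`. -/
def Dih (ψ : FA k (Fin 2)) : Module.End k (FA k (Fin 2)) := der ![0, ⁅(gY : FA k (Fin 2)), ψ⁆]

/-- `∇_ψ = D_ψ + L_ψ`. -/
def nabla (ψ : FA k (Fin 2)) : Module.End k (FA k (Fin 2)) := Dih ψ + Lm ψ

/-- The Ihara bracket. -/
def ihara (ψ φ : FA k (Fin 2)) : FA k (Fin 2) := Dih ψ φ - Dih φ ψ + ⁅ψ, φ⁆

/-- `Φ_s(f) = f(∇_{s 0}, ∇_{s 1}, …) 1`. -/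
def PhiS (s : ℕ → FA k (Fin 2)) : FA k ℕ →ₗ[k] FA k (Fin 2) :=
  LinearMap.applyₗ (1 : FA k (Fin 2)) ∘ₗ
    (ev (fun j => nabla (s j)) : FA k ℕ →ₐ[k] Module.End k (FA k (Fin 2))).toLinearMap

/-- Antisymmetry defect. -/
def antiD (ψ : FA k (Fin 2)) : FA k (Fin 2) := ψ + ev2 gY gX ψ

/-- Hexagon defect. -/
def hexD (ψ : FA k (Fin 2)) : FA k (Fin 2) :=
  ψ + ev2 gY (-gX - gY) ψ + ev2 (-gX - gY) gX ψ

/-- Special defect `⁅y, ψ(x,y)⁆ + ⁅z, ψ(x,z)⁆`, `z = -x-y`. -/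
def specD (ψ : FA k (Fin 2)) : FA k (Fin 2) :=
  ⁅(gY : FA k (Fin 2)), ψ⁆ +
    ⁅(-gX - gY : FA k (Fin 2)), (ev2 gX (-gX - gY) ψ : FA k (Fin 2))⁆

end Two

/-! ## Braid structures -/

section Braid

variable {k : Type} [CommRing k] {R : Type} [Ring R]

/-- Infinitesimal braid relations on four strands. -/
structure IsT4 (t : Fin 4 → Fin 4 → R) : Prop where
  symm : ∀ i j, t i j = t j i
  comm : ∀ i j a b, i ≠ j → i ≠ a → i ≠ b → j ≠ a → j ≠ b → a ≠ b → Commute (t i j) (t a b)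
  tri : ∀ i j a, i ≠ j → i ≠ a → j ≠ a → Commute (t i j) (t i a + t j a)

/-- Infinitesimal sphere braid relations on five strands. -/
structure IsT5 (X : Fin 5 → Fin 5 → R) : Prop where
  symm : ∀ i j, X i j = X j i
  diag : ∀ i, X i i = 0
  comm : ∀ i j a b, i ≠ j → i ≠ a → i ≠ b → j ≠ a → j ≠ b → a ≠ b → Commute (X i j) (X a b)
  sum : ∀ i, ∑ j, X i j = 0

variable [Algebra k R]

/-- The pentagon defect on four strands. -/
def pent4 (ψ : FA k (Fin 2)) (t : Fin 4 → Fin 4 → R) : R :=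
  ev2 (t 0 1) (t 1 2 + t 1 3) ψ + ev2 (t 0 2 + t 1 2) (t 2 3) ψ - ev2 (t 1 2) (t 2 3) ψ
    - ev2 (t 0 1 + t 0 2) (t 1 3 + t 2 3) ψ - ev2 (t 0 1) (t 1 2) ψ

/-- `φ_{ijl} = ψ(X_ij, X_jl)`. -/
def edge (ψ : FA k (Fin 2)) (X : Fin 5 → Fin 5 → R) (i j l : Fin 5) : R := ev2 (X i j) (X j l) ψ

/-- The five-cycle defect. -/
def pent5 (ψ : FA k (Fin 2)) (X : Fin 5 → Fin 5 → R) : R :=
  edge ψ X 0 1 2 + edge ψ X 1 2 3 + edge ψ X 2 3 4 + edge ψ X 3 4 0 + edge ψ X 4 0 1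

/-- The five-cycle relation in every algebra. -/
def APent (ψ : FA k (Fin 2)) : Prop :=
  ∀ (R : Type) [Ring R] [Algebra k R] (X : Fin 5 → Fin 5 → R), IsT5 X → pent5 ψ X = 0

/-- Homogeneous Lie solutions of weight `n`. -/
def Sol (k : Type) [CommRing k] (n : ℕ) : Submodule k (FA k (Fin 2)) where
  carrier := {ψ | ψ ∈ LieW k (one (Fin 2)) n ∧ APent ψ}
  add_mem' := by
    rintro a b ⟨ha, ha'⟩ ⟨hb, hb'⟩
    refine ⟨add_mem ha hb, fun R _ _ X hX => ?_⟩
    have h1 := ha' R X hX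
    have h2 := hb' R X hX
    simp only [pent5, edge, map_add] at *
    have h3 := congrArg₂ (· + ·) h1 h2
    simp only [add_zero] at h3
    rw [← h3]; abel
  zero_mem' := ⟨zero_mem _, fun R _ _ X _ => by simp [pent5, edge]⟩
  smul_mem' := by
    rintro c a ⟨ha, ha'⟩
    refine ⟨Submodule.smul_mem _ c ha, fun R _ _ X hX => ?_⟩
    have h1 := ha' R X hX
    simp only [pent5, edge, map_smul] at *
    rw [← smul_add, ← smul_add, ← smul_add, ← smul_add, h1, smul_zero]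

end Braid

/-! ## The module `M = k⟨a, b, t⟩` (letters `0 = a`, `1 = b`, `2 = t`) -/

section Mod

variable (k : Type) [CommRing k]

/-- `t₀₁`: `a ↦ ⁅a,t⁆`, `b ↦ 0`, `t ↦ ⁅t,a⁆`. -/
def opA : Module.End k (FA k (Fin 3)) :=
  der ![⁅(gen 0 : FA k (Fin 3)), gen 2⁆, 0, ⁅(gen 2 : FA k (Fin 3)), gen 0⁆]
/-- `t₁₃`: `a ↦ 0`, `b ↦ ⁅b,t⁆`, `t ↦ ⁅t,b⁆`. -/
def opB : Module.End k (FA k (Fin 3)) :=
  der ![0, ⁅(gen 1 : FA k (Fin 3)), gen 2⁆, ⁅(gen 2 : FA k (Fin 3)), gen 1⁆]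
/-- `t₀₃`: `a ↦ ⁅a,b⁆`, `b ↦ ⁅b,a⁆`, `t ↦ 0`. -/
def opC : Module.End k (FA k (Fin 3)) :=
  der ![⁅(gen 0 : FA k (Fin 3)), gen 1⁆, ⁅(gen 1 : FA k (Fin 3)), gen 0⁆, 0]

/-- The four-strand structure on `M`; strand `2` is the fibre. -/
def opT : Fin 4 → Fin 4 → Module.End k (FA k (Fin 3)) :=
  ![![0, opA k, Lm (gen 0), opC k],
    ![opA k, 0, Lm (gen 2), opB k],
    ![Lm (gen 0), Lm (gen 2), 0, Lm (gen 1)],
    ![opC k, opB k, Lm (gen 1), 0]]

variable {k}

/-- The pentagon defect applied to `1 ∈ M`. -/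
def Pmod (ψ : FA k (Fin 2)) : FA k (Fin 3) := pent4 ψ (opT k) 1

end Mod

/-! ## Characteristic two -/

section Two

/-- The field with two elements. -/
abbrev F2 : Type := ZMod 2

/-- `κ₀ : F⟨X,Y,Z⟩ → F⟨a,b⟩`, `X ↦ a+b`, `Y ↦ a²`, `Z ↦ b²`. -/
def kap0 : FA F2 (Fin 3) →ₐ[F2] FA F2 (Fin 2) := ev3 (gX + gY) (gX * gX) (gY * gY)

/-- The `2 × 2` matrix representation of `F⟨a,b⟩` over `F⟨X,Y,Z⟩` (basis `1, a`). -/
def rho0 : FA F2 (Fin 2) →ₐ[F2] Matrix (Fin 2) (Fin 2) (FA F2 (Fin 3)) :=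
  ev2 !![0, gen 1; 1, 0] !![gen 0, gen 0 * gen 0 + gen 2; 1, gen 0]

/-- A linear left inverse of `κ₀`. -/
def sec0 : FA F2 (Fin 2) →ₗ[F2] FA F2 (Fin 3) where
  toFun g := rho0 g 0 0
  map_add' a b := by simp
  map_smul' c a := by simp

/-- `Z ↦ 0`. -/
def killZ : FA F2 (Fin 3) →ₐ[F2] FA F2 (Fin 2) := ev3 gX gY 0

/-- `Q(ψ) = S(X; Y, 0)` where `ψ = S(a+b; a², b²)`. -/
def Qmap : FA F2 (Fin 2) →ₗ[F2] FA F2 (Fin 2) := killZ.toLinearMap ∘ₗ sec0

/-- `ad(X)^(2j+1) Y`. -/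
def eOdd (j : ℕ) : FA F2 (Fin 2) := (adm (k := F2) gX ^ (2 * j + 1)) gY

/-- `κ_odd : e_j ↦ ad(X)^(2j+1) Y`. -/
def kapOdd : FA F2 ℕ →ₐ[F2] FA F2 (Fin 2) := ev eOdd

/-- Weights of `X, Y, Z`. -/
def wt3 : Fin 3 → ℕ := ![1, 2, 2]
/-- Depth in `X, Y, Z`. -/
def dep3 : Fin 3 → ℕ := ![0, 1, 1]

/-- Solutions modulo two. -/
def Sol2 (n : ℕ) : Set (FA F2 (Fin 2)) :=
  {ψ | ψ ∈ LieW F2 (one (Fin 2)) n ∧ Pmod ψ = 0 ∧ antiD ψ = 0}

end Two

/-! ## Truncated associators -/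

section Assoc

variable {k : Type} [CommRing k]

/-- A group-like solution of the pentagon, modulo words of length `> N`. -/
structure IsAssoc (N : ℕ) (Φ : FA k (Fin 2)) : Prop where
  gl : ∀ (R : Type) [Ring R] [Algebra k R] (x₁ y₁ x₂ y₂ : R), Commute x₁ x₂ → Commute x₁ y₂ →
    Commute y₁ x₂ → Commute y₁ y₂ → Nil N ![x₁, y₁, x₂, y₂] →
    ev2 (x₁ + x₂) (y₁ + y₂) Φ = ev2 x₁ y₁ Φ * ev2 x₂ y₂ Φ
  pent : ∀ (R : Type) [Ring R] [Algebra k R] (X : Fin 5 → Fin 5 → R), IsT5 X →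
    Nil N (fun p : Fin 5 × Fin 5 => X p.1 p.2) →
    edge Φ X 2 3 4 * edge Φ X 4 0 1 * edge Φ X 1 2 3 * edge Φ X 3 4 0 * edge Φ X 0 1 2 = 1
  nx : ∀ (R : Type) [Ring R] [Algebra k R] (x : R), x ^ (N + 1) = 0 → ev2 x 0 Φ = 1
  ny : ∀ (R : Type) [Ring R] [Algebra k R] (y : R), y ^ (N + 1) = 0 → ev2 0 y Φ = 1

/-- Primitive elements. -/
def Prim {σ : Type} (ψ : FA k σ) : Prop :=
  ∀ (R : Type) [Ring R] [Algebra k R] (v v' : σ → R), (∀ c c', Commute (v c) (v' c')) →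
    ev (fun c => v c + v' c) ψ = ev v ψ + ev v' ψ

end Assoc

/-! ## The comparison map -/

section Iota

attribute [local instance 100] LieRing.ofAssociativeRing

/-- The map from the free Lie algebra to the free associative algebra. -/
def iota (σ : Type) : FreeLieAlgebra ℚ σ →ₗ[ℚ] FA ℚ σ :=
  (FreeLieAlgebra.lift ℚ (gen : σ → FA ℚ σ)).toLinearMap

end Iota

end Crest.Agent.R010
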