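import Crest.Agent.R010.Basic4

/-! # Row 10: elimination lemmas (last letters, Lazard elimination) -/

set_option autoImplicit false

noncomputable section

namespace Crest.Agent.R010

variable {k : Type} [CommRing k] {σ τ : Type}

open Classical in
/-- Kill the letters in `E`. -/
def killE (E : σ → Prop) : FA k σ →ₐ[k] FA k σ := ev (fun c => if E c then 0 else gen c)

open Classical in
/-- For a Lie polynomial `f`, letting `c ∈ E` act by `L_c` and `c ∉ E` by `ad c`, `f` acts by
`ad (r f) + L_(f - r f)`, `r = killE E`.  Lie induction with `lie_adm`, `lie_adm_Lm`, `lie_Lm`. -/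
theorem ev_elim (E : σ → Prop) {f : FA k σ} (hf : f ∈ LieS k σ) :
    ev (fun c => if E c then (Lm (gen c) : Module.End k (FA k σ)) else adm (gen c)) f
      = adm (killE E f) + Lm (f - killE E f) := by
  have key : ∀ x, (ev (fun c => if E c then (Lm (gen c) : Module.End k (FA k σ)) else adm (gen c)) f) x
      = f * x - x * killE E f := by
    refine LieS_induction hf (fun c => ?_) (fun a b _ _ ha hb => ?_) ?_ (fun a b _ _ ha hb => ?_)
      (fun c a _ ha => ?_)
    · intro x
      by_cases h : E c <;> simp [killE, h, lie_def']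
    · intro x
      rw [map_lie', map_lie', lie_def', lie_def', lie_def', LinearMap.sub_apply, Module.End.mul_apply,
        Module.End.mul_apply, ha, hb, hb, ha]
      noncomm_ring
    · intro x; simp
    · intro x
      rw [map_add, map_add, LinearMap.add_apply, ha, hb]
      noncomm_ring
    · intro x
      rw [map_smul, map_smul, LinearMap.smul_apply, ha, smul_sub, smul_mul_assoc, mul_smul_comm]
  refine LinearMap.ext fun x => ?_
  rw [key, LinearMap.add_apply, adm_apply, LinearMap.mulLeft_apply, lie_def']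
  noncomm_ring

/-- **Elimination**: a Lie polynomial none of whose words ends with a letter of `E` does not
involve the letters of `E` (apply `ev_elim` to `1`: every word of `f` is nonempty and ends with
a letter acting by `ad`, which kills `1`). -/
theorem elim (E : σ → Prop) {f : FA k σ} (hf : f ∈ LieS k σ) (h : ∀ c, E c → stripR c f = 0) :
    f = killE E f := by
  classical
  have h1 : f ∈ supp (fun w => ∃ w' c, ¬ E c ∧ w = w' * FreeMonoid.of c) := by
    intro w hw
    induction w using basic1_word_ind with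
    | one => exact mem_fil_one_iff.1 (LieS_le_fil_one hf)
    | mul_of w c _ =>
      have hc : E c := by
        by_contra hc
        exact hw ⟨w, c, hc, rfl⟩
      rw [← cf_stripR, h c hc, map_zero]
  have h2 : (ev (fun c => if E c then (Lm (gen c) : Module.End k (FA k σ)) else adm (gen c)) f) 1 = 0 := by
    refine supp_induction (q := fun f => (ev (fun c => if E c then (Lm (gen c) : Module.End k (FA k σ))
      else adm (gen c)) f) 1 = 0) h1 ?_ (by simp) (fun a b ha hb => ?_) (fun c a ha => ?_)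
    · rintro _ ⟨w, c, hc, rfl⟩
      rw [wd_mul, map_mul, wd_of, ev_gen, if_neg hc, Module.End.mul_apply, adm_apply, lie_def']
      simp
    · rw [map_add, LinearMap.add_apply, ha, hb, add_zero]
    · rw [map_smul, LinearMap.smul_apply, ha, smul_zero]
  rw [ev_elim E hf, LinearMap.add_apply, adm_apply, LinearMap.mulLeft_apply, lie_def'] at h2
  simpa [sub_eq_zero] using h2

theorem eq_zero_of_stripR_one {f : FA k (Fin 2)} (hf : f ∈ LieD k (Fin 2))
    (h : stripR 1 f = 0) : f = 0 := by
  rw [elim (fun c => c = 1) hf.1 (fun c hc => hc ▸ h), killE]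
  refine ev_eq_zero_of_commute (fun c c' => ?_) hf
  fin_cases c <;> fin_cases c' <;> simp

open Classical in
/-- **Lazard elimination** of the letter `x`, abstractly.  `τ` is a new alphabet with a shift
`sh`, base letters `b c` (`c ≠ x`) and values `κ t` with `κ (sh t) = ⁅x, κ t⁆`, `κ (b c) = c`.
Let `x` act on `FA k τ` by the derivation `ξ : t ↦ sh t` and `c ≠ x` by `L_(b c)`.
Lie induction: `⁅aξ + L_g, a'ξ + L_g'⁆ = L_(a ξ g' - a' ξ g + ⁅g,g'⁆)` and
`ev κ (ξ g) = ⁅x, ev κ g⁆` (`IsDer.intertwine`). -/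
theorem lazard (x : σ) (sh : τ → τ) (b : σ → τ) (κ : τ → FA k σ)
    (hsh : ∀ t, κ (sh t) = ⁅(gen x : FA k σ), κ t⁆) (hb : ∀ c, c ≠ x → κ (b c) = gen c)
    {f : FA k σ} (hf : f ∈ LieS k σ) :
    ∃ (a : k) (g : FA k τ), g ∈ LieS k τ ∧
      ev (fun c => if c = x then der (fun t => (gen (sh t) : FA k τ)) else Lm (gen (b c))) f
        = a • der (fun t => (gen (sh t) : FA k τ)) + Lm g ∧
      f = a • gen x + ev κ g := by
  have hξ : IsDer (der (fun t => (gen (sh t) : FA k τ))) := isDer_der _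
  have hκ : ∀ g : FA k τ, ev κ (der (fun t => (gen (sh t) : FA k τ)) g) = ⁅(gen x : FA k σ), ev κ g⁆ := by
    intro g
    rw [hξ.intertwine (isDer_adm (gen x : FA k σ)) (ev κ) (fun t => by simp [hsh]) g, adm_apply]
  set ξ := der (fun t => (gen (sh t) : FA k τ)) with hξdef
  refine LieS_induction hf (fun c => ?_) (fun p q _ _ hp hq => ?_) ?_ (fun p q _ _ hp hq => ?_)
    (fun c p _ hp => ?_)
  · by_cases hc : c = x
    · subst hc
      refine ⟨1, 0, zero_mem _, ?_, by simp⟩
      rw [ev_gen, if_pos rfl]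
      ext1 y
      simp
    · refine ⟨0, gen (b c), gen_mem_LieS _, ?_, by simp [hb c hc]⟩
      rw [ev_gen, if_neg hc]
      simp
  · obtain ⟨a, g, hg, h1, h2⟩ := hp
    obtain ⟨a', g', hg', h1', h2'⟩ := hq
    have hL : ∀ {u : FA k τ}, u ∈ LieS k τ → ξ u ∈ LieS k τ := fun hu =>
      hξ.mem_LieS (fun t => by rw [hξdef, der_gen]; exact gen_mem_LieS _) hu
    refine ⟨0, a • ξ g' - a' • ξ g + ⁅g, g'⁆, add_mem (sub_mem (Submodule.smul_mem _ _ (hL hg'))
      (Submodule.smul_mem _ _ (hL hg))) (lie_mem_LieS hg hg'), ?_, ?_⟩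
    · rw [map_lie', h1, h1']
      refine LinearMap.ext fun y => ?_
      simp only [lie_def', LinearMap.sub_apply, Module.End.mul_apply, LinearMap.add_apply,
        LinearMap.smul_apply, LinearMap.mulLeft_apply, map_add, map_smul, hξ g' y, hξ g y, zero_smul, zero_add,
        smul_add, smul_smul, mul_add, add_mul, sub_mul, smul_mul_assoc, mul_smul_comm, mul_assoc,
        mul_comm a' a]
      abel
    · rw [map_add, map_sub, map_smul, map_smul, hκ, hκ, map_lie', h2, h2']
      simp only [lie_def', zero_smul, smul_add, smul_sub, smul_smul, mul_add, add_mul, smul_mul_assoc,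
        mul_smul_comm, mul_comm a' a]
      abel
  · exact ⟨0, 0, zero_mem _, by rw [map_zero]; ext1 y; simp, by simp⟩
  · obtain ⟨a, g, hg, h1, h2⟩ := hp
    obtain ⟨a', g', hg', h1', h2'⟩ := hq
    refine ⟨a + a', g + g', add_mem hg hg', ?_, ?_⟩
    · rw [map_add, h1, h1']
      refine LinearMap.ext fun y => ?_
      simp only [LinearMap.add_apply, LinearMap.smul_apply, LinearMap.mulLeft_apply, add_smul, add_mul]
      abel
    · rw [map_add, h2, h2', add_smul]
      abel
  · obtain ⟨a, g, hg, h1, h2⟩ := hp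
    refine ⟨c * a, c • g, Submodule.smul_mem _ _ hg, ?_, ?_⟩
    · rw [map_smul, h1]
      refine LinearMap.ext fun y => ?_
      simp only [LinearMap.add_apply, LinearMap.smul_apply, LinearMap.mulLeft_apply, smul_add, smul_smul,
        smul_mul_assoc]
    · rw [map_smul, h2, smul_add, smul_smul]

/-! ### two letters -/

/-- The shift derivation `e_j ↦ e_{j+1}`. -/
def xi (k : Type) [CommRing k] : Module.End k (FA k ℕ) := der (fun j => gen (j + 1))

/-- `ad(x)^j y`. -/
def sL (k : Type) [CommRing k] (j : ℕ) : FA k (Fin 2) := (adm (k := k) gX ^ j) gY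

/-- `κ : e_j ↦ ad(x)^j y`. -/
def kapL (k : Type) [CommRing k] : FA k ℕ →ₐ[k] FA k (Fin 2) := ev (sL k)

theorem elim_sL_zero : sL k 0 = gY := rfl
theorem elim_sL_succ (j : ℕ) : sL k (j + 1) = ⁅(gX : FA k (Fin 2)), sL k j⁆ := by
  rw [sL, pow_succ', Module.End.mul_apply, adm_apply, sL]

theorem sL_mem_LieS (j : ℕ) : sL k j ∈ LieS k (Fin 2) := by
  induction j with
  | zero => exact gen_mem_LieS _
  | succ j ih => rw [elim_sL_succ]; exact lie_mem_LieS (gen_mem_LieS _) ih
theorem sL_mem_hom (δ : Fin 2 → ℕ) (j : ℕ) : sL k j ∈ hom δ (j * δ 0 + δ 1) := by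
  induction j with
  | zero => simpa [elim_sL_zero] using gen_mem_hom (k := k) δ 1
  | succ j ih =>
    rw [elim_sL_succ, show (j + 1) * δ 0 + δ 1 = δ 0 + (j * δ 0 + δ 1) by ring]
    exact lie_mem_hom (gen_mem_hom δ 0) ih
theorem stripR_sL (j : ℕ) : stripR 1 (sL k j) = gX ^ j := by
  induction j with
  | zero => simpa [elim_sL_zero] using stripR_mul_gen_self (k := k) (1 : Fin 2) 1
  | succ j ih =>
    have h0 : stripR 1 (gX : FA k (Fin 2)) = 0 := by
      simpa using stripR_mul_gen_ne (k := k) (c := (1 : Fin 2)) (c' := 0) (by decide) 1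
    rw [elim_sL_succ, lie_def', map_sub, stripR_mul, ih, h0, stripR_mul_gen_ne (by decide), pow_succ']
    simp
theorem kapL_xi (g : FA k ℕ) : kapL k (xi k g) = ⁅(gX : FA k (Fin 2)), kapL k g⁆ := by
  rw [xi, (isDer_der _).intertwine (isDer_adm (gX : FA k (Fin 2))) (kapL k)
    (fun t => by simp [kapL, elim_sL_succ]) g, adm_apply]

/-- Lazard elimination in two letters. -/
theorem lazard2 {f : FA k (Fin 2)} (hf : f ∈ LieS k (Fin 2)) (h1 : f ∈ fil dep 1) :
    (ev2 (xi k) (Lm (gen 0)) f : Module.End k (FA k ℕ)) 1 ∈ LieS k ℕ ∧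
      kapL k ((ev2 (xi k) (Lm (gen 0)) f : Module.End k (FA k ℕ)) 1) = f := by
  obtain ⟨a, g, hg, h2, h3⟩ := lazard (0 : Fin 2) (fun j : ℕ => j + 1) (fun _ => 0) (sL k) elim_sL_succ
    (fun c hc => by
      fin_cases c
      · exact absurd rfl hc
      · rfl) hf
  have h4 : (ev2 (xi k) (Lm (gen 0)) f : Module.End k (FA k ℕ)) = a • xi k + Lm g := by
    rw [xi, ← h2]
    refine ev_congr (fun c => ?_) f
    fin_cases c <;> simp
  have h5 : (ev2 (xi k) (Lm (gen 0)) f : Module.End k (FA k ℕ)) 1 = g := by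
    rw [h4]
    simp [xi]
  have h6 : ev (sL k) g ∈ fil dep 1 :=
    ev_mem_fil (δ := one ℕ) (fun j => mem_fil_of_hom (sL_mem_hom dep j) (by simp [dep])) (LieS_le_fil_one hg)
  have h7 : a • (gen 0 : FA k (Fin 2)) = 0 := by
    refine eq_zero_of_hom_of_fil (δ := dep) (m := 0) (n := 1)
      (Submodule.smul_mem _ _ (gen_mem_hom dep 0)) ?_ one_pos
    rw [eq_sub_of_add_eq h3.symm]
    exact sub_mem h1 h6
  rw [h5]
  exact ⟨hg, by rw [h3, h7, zero_add]; rfl⟩

/-- `k⟨x,y⟩` is free over `κ(k⟨e_j⟩)` on the powers of `x`.  Let `k⟨x,y⟩` act on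
`P = ℕ → FA k ℕ` (or on polynomials) by `y ↦ L_{e_0}` (coefficientwise) and `x ↦ ξ + shift`; then
`ad(x)^j y` acts as `L_{e_j}`, `κ W` as `L_W`, and `x^i` sends `δ_0` to `δ_i`. -/
theorem exists_mu (k : Type) [CommRing k] :
    ∃ μ : ℕ → (FA k (Fin 2) →ₗ[k] FA k ℕ), ∀ (j i : ℕ) (W : FA k ℕ),
      μ j (kapL k W * gX ^ i) = if i = j then W else 0 := by
  let Lp : FA k ℕ →ₐ[k] Module.End k (ℕ → FA k ℕ) := Algebra.lsmul k k (ℕ → FA k ℕ)
  have hLp : ∀ W p i, Lp W p i = W * p i := fun _ _ _ => rfl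
  let S : ℕ → ((ℕ → FA k ℕ) →ₗ[k] FA k ℕ) := fun i => Nat.casesOn i 0 fun i => LinearMap.proj i
  let X : Module.End k (ℕ → FA k ℕ) := LinearMap.pi fun i => xi k ∘ₗ LinearMap.proj i + S i
  have hX0 : ∀ p, X p 0 = xi k (p 0) := fun p => by simp [X, S]
  have hX1 : ∀ p i, X p (i + 1) = xi k (p (i + 1)) + p i := fun p i => by simp [X, S]
  have hξ : IsDer (xi k) := isDer_der _
  have hXL : ∀ W, ⁅X, Lp W⁆ = Lp (xi k W) := by
    intro W
    refine LinearMap.ext fun p => funext fun i => ?_
    rw [lie_def', LinearMap.sub_apply, Module.End.mul_apply, Module.End.mul_apply, Pi.sub_apply]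
    cases i with
    | zero => rw [hX0, hLp, hLp, hLp, hX0, hξ]; abel
    | succ i => rw [hX1, hLp, hLp, hLp, hLp, hX1, hξ, mul_add]; abel
  let ρ : FA k (Fin 2) →ₐ[k] Module.End k (ℕ → FA k ℕ) := ev2 X (Lp (gen 0))
  have hρX : ρ gX = X := by simp [ρ]
  have hρs : ∀ j, ρ (sL k j) = Lp (gen j) := by
    intro j
    induction j with
    | zero => simp [ρ, elim_sL_zero]
    | succ j ih => rw [elim_sL_succ, map_lie', ih, hρX, hXL, xi, der_gen]
  have hρκ : ∀ W, ρ (kapL k W) = Lp W := fun W =>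
    DFunLike.congr_fun (alg_ext (φ := ρ.comp (kapL k)) (ψ := Lp) fun c => by simp [kapL, hρs]) W
  have hpow : ∀ i, (X ^ i) (Pi.single 0 1) = Pi.single i 1 := by
    intro i
    induction i with
    | zero => simp
    | succ i ih =>
      rw [pow_succ', Module.End.mul_apply, ih]
      have h1 : ∀ m, xi k ((Pi.single i 1 : ℕ → FA k ℕ) m) = 0 := fun m => by
        rw [Pi.single_apply]
        split_ifs
        · exact hξ.map_one
        · exact map_zero _
      funext m
      cases m with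
      | zero => rw [hX0, h1]; simp
      | succ m => rw [hX1, h1]; simp [Pi.single_apply]
  refine ⟨fun j => LinearMap.proj j ∘ₗ LinearMap.applyₗ (Pi.single 0 1 : ℕ → FA k ℕ) ∘ₗ ρ.toLinearMap,
    fun j i W => ?_⟩
  change ρ (kapL k W * gX ^ i) (Pi.single 0 1) j = _
  rw [map_mul, map_pow, hρκ, hρX, Module.End.mul_apply, hpow, hLp, Pi.single_apply]
  by_cases h : i = j
  · simp [h]
  · simp [h, Ne.symm h]

theorem kapL_injective : Function.Injective (kapL k) := by
  obtain ⟨μ, hμ⟩ := exists_mu k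
  intro W W' h
  have h1 := hμ 0 0 W
  have h2 := hμ 0 0 W'
  rw [h, h2] at h1
  simpa using h1.symm

theorem kapOdd_eq (f : FA F2 ℕ) : kapOdd f = kapL F2 (ev (fun j => gen (2 * j + 1)) f) := by
  rw [map_ev, kapOdd]
  exact ev_congr (fun j => by rw [kapL, ev_gen]; rfl) f

theorem kapOdd_injective : Function.Injective kapOdd := by
  intro f g h
  rw [kapOdd_eq, kapOdd_eq] at h
  have h1 := congrArg (ev (fun i : ℕ => (gen (i / 2) : FA F2 ℕ))) (kapL_injective h)
  have h2 : ∀ f : FA F2 ℕ, ev (fun i : ℕ => (gen (i / 2) : FA F2 ℕ))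
      (ev (fun j => (gen (2 * j + 1) : FA F2 ℕ)) f) = f := fun f => by
    rw [map_ev]
    refine (ev_congr (fun j => ?_) f).trans (ev_gen_self f)
    rw [ev_gen, show (2 * j + 1) / 2 = j by omega]
  rwa [h2, h2] at h1

end Crest.Agent.R010
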