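import Crest.Agent.R010.KZ6

/-! # Row 10, KZ: the coefficient of `x^(n-1) y` is negative -/

set_option autoImplicit false

noncomputable section

namespace Crest.Agent.R010

open MvPowerSeries

/-- matrix entries of a model of the pair `A`, `B` -/
structure KZ7Model (n : ℕ) {R : Type} [Ring R] [Algebra ℝ R] (ent : ℕ → ℕ → R →ₗ[ℝ] ℝ) (A B : R) :
    Prop where
  mul : ∀ i j M M', ent i j (M * M') = ∑ k ∈ Finset.range (n + 1), ent i k M * ent k j M'
  one : ∀ i j, ent i j 1 = if i = j ∧ i ≤ n then 1 else 0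
  a : ∀ i j, ent i j A = if i = j + 1 ∧ 1 ≤ j ∧ i ≤ n then 1 else 0
  b : ∀ i j, ent i j B = if i = 1 ∧ j = 0 then 1 else 0
  ext : ∀ M, (∀ i j, ent i j M = 0) → M = 0

theorem kz7_exists_matrix {n : ℕ} (hn : 1 ≤ n) :
    ∃ (ent : ℕ → ℕ → Matrix (Fin (n + 1)) (Fin (n + 1)) ℝ →ₗ[ℝ] ℝ)
      (A B : Matrix (Fin (n + 1)) (Fin (n + 1)) ℝ), KZ7Model n ent A B := by
  refine ⟨fun i j => if h : i < n + 1 ∧ j < n + 1 then Matrix.entryLinearMap ℝ ℝ ⟨i, h.1⟩ ⟨j, h.2⟩
    else 0, Matrix.of fun i j => if (i : ℕ) = j + 1 ∧ 1 ≤ (j : ℕ) then 1 else 0,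
    Matrix.of fun i j => if (i : ℕ) = 1 ∧ (j : ℕ) = 0 then 1 else 0, ?_, ?_, ?_, ?_, ?_⟩
  · intro i j M M'
    rw [Finset.sum_range]
    by_cases hi : i < n + 1
    · by_cases hj : j < n + 1
      · simp [hi, hj, Matrix.mul_apply, Fin.is_lt, -Order.lt_add_one_iff]
      · simp [hj, -Order.lt_add_one_iff]
    · simp [hi, -Order.lt_add_one_iff]
  · intro i j
    split_ifs with h1 h2 h2
    · simp [h2.1]
    · have : i ≠ j := fun e => h2 ⟨e, by omega⟩
      simp [this]
    · omega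
    · rfl
  · intro i j
    split_ifs with h1 h2 h2
    · simp [h2.1, h2.2.1]
    · simp only [Matrix.entryLinearMap_apply, Matrix.of_apply]
      rw [if_neg (by omega)]
    · omega
    · rfl
  · intro i j
    split_ifs with h1 h2 h2
    · simp [h2.1, h2.2]
    · simp only [Matrix.entryLinearMap_apply, Matrix.of_apply]
      rw [if_neg h2]
    · omega
    · rfl
  · intro M hM
    ext i j
    have := hM i j
    simpa [Fin.is_lt, -Order.lt_add_one_iff] using this

theorem kz7_exists {n : ℕ} (hn : 1 ≤ n) :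
    ∃ (R : Type) (_ : NormedRing R) (_ : NormedAlgebra ℝ R) (_ : CompleteSpace R)
      (ent : ℕ → ℕ → R →ₗ[ℝ] ℝ) (A B : R), (∀ i j, Continuous (ent i j)) ∧ KZ7Model n ent A B := by
  obtain ⟨ent, A, B, h⟩ := kz7_exists_matrix hn
  obtain ⟨R, i1, i2, i3, ⟨e⟩⟩ := exists_banach (Matrix (Fin (n + 1)) (Fin (n + 1)) ℝ)
  have : FiniteDimensional ℝ R := e.toLinearEquiv.finiteDimensional
  refine ⟨R, i1, i2, i3, fun i j => ent i j ∘ₗ e.symm.toLinearMap, e A, e B,
    fun i j => LinearMap.continuous_of_finiteDimensional _, ?_, ?_, ?_, ?_, ?_⟩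
  · intro i j M M'
    simp [h.mul]
  · intro i j
    simp [h.one]
  · intro i j
    simp [h.a]
  · intro i j
    simp [h.b]
  · intro M hM
    have := h.ext (e.symm M) hM
    simpa using this

/-- the words `x^(i-1) y` -/
def kz7w : ℕ → List (Fin 2)
  | 0 => []
  | 1 => [1]
  | i + 2 => 0 :: kz7w (i + 1)

theorem kz7w_eq (i : ℕ) : (wXY (i + 1)).toList = kz7w (i + 1) := by
  induction i with
  | zero => rfl
  | succ i ih =>
    rw [kz7w, ← ih]
    simp [wXY, pow_succ', mul_assoc]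

namespace KZ7Model

section Alg

variable {n : ℕ} {R : Type} [Ring R] [Algebra ℝ R] {ent : ℕ → ℕ → R →ₗ[ℝ] ℝ} {A B : R}

theorem out (h : KZ7Model n ent A B) (i : ℕ) {j : ℕ} (hj : n < j) (M : R) : ent i j M = 0 := by
  rw [← mul_one M, h.mul]
  refine Finset.sum_eq_zero fun k _ => ?_
  rw [h.one, if_neg (by omega), mul_zero]

theorem out' (h : KZ7Model n ent A B) {i : ℕ} (j : ℕ) (hi : n < i) (M : R) : ent i j M = 0 := by
  rw [← one_mul M, h.mul]
  refine Finset.sum_eq_zero fun k _ => ?_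
  rw [h.one, if_neg (by omega), zero_mul]

theorem A_mul_low (h : KZ7Model n ent A B) {i : ℕ} (hi : i ≤ 1) (j : ℕ) (M : R) :
    ent i j (A * M) = 0 := by
  rw [h.mul]
  refine Finset.sum_eq_zero fun k _ => ?_
  rw [h.a, if_neg (by omega), zero_mul]

theorem A_mul (h : KZ7Model n ent A B) {i : ℕ} (hi : 1 ≤ i) (hi' : i + 1 ≤ n) (j : ℕ) (M : R) :
    ent (i + 1) j (A * M) = ent i j M := by
  rw [h.mul, Finset.sum_eq_single i]
  · rw [h.a, if_pos ⟨rfl, hi, hi'⟩, one_mul]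
  · intro k _ hk
    rw [h.a, if_neg (by omega), zero_mul]
  · intro hk
    exact absurd (Finset.mem_range.2 (by omega)) hk

theorem mul_A_zero (h : KZ7Model n ent A B) (i : ℕ) (M : R) : ent i 0 (M * A) = 0 := by
  rw [h.mul]
  refine Finset.sum_eq_zero fun k _ => ?_
  rw [h.a, if_neg (by omega), mul_zero]

theorem mul_A (h : KZ7Model n ent A B) (i : ℕ) {j : ℕ} (hj : 1 ≤ j) (M : R) :
    ent i j (M * A) = ent i (j + 1) M := by
  rw [h.mul, Finset.sum_eq_single (j + 1)]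
  · by_cases hn : j + 1 ≤ n
    · rw [h.a, if_pos ⟨rfl, hj, hn⟩, mul_one]
    · rw [h.out i (by omega) M, zero_mul]
  · intro k _ hk
    rw [h.a, if_neg (by omega), mul_zero]
  · intro hk
    rw [h.out i (by simpa using hk) M, zero_mul]

theorem B_mul (h : KZ7Model n ent A B) (i j : ℕ) (M : R) :
    ent i j (B * M) = if i = 1 then ent 0 j M else 0 := by
  rw [h.mul, Finset.sum_eq_single 0]
  · rw [h.b]; split_ifs <;> simp_all
  · intro k _ hk
    rw [h.b, if_neg (by omega), zero_mul]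
  · intro hk
    exact absurd (Finset.mem_range.2 (by omega)) hk

theorem mul_B (h : KZ7Model n ent A B) (hn : 1 ≤ n) (i j : ℕ) (M : R) :
    ent i j (M * B) = if j = 0 then ent i 1 M else 0 := by
  rw [h.mul, Finset.sum_eq_single 1]
  · rw [h.b]; split_ifs <;> simp_all
  · intro k _ hk
    rw [h.b, if_neg (by omega), mul_zero]
  · intro hk
    exact absurd (Finset.mem_range.2 (by omega)) hk

theorem prod_low (h : KZ7Model n ent A B) (l : List (Fin 2)) :
    ∀ i j, i < j + l.length → ent i j (l.map ![A, B]).prod = 0 := by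
  induction l with
  | nil => intro i j hij; simp only [List.map_nil, List.prod_nil, h.one]; exact if_neg (by simp at hij; omega)
  | cons c l ih =>
    intro i j hij
    rw [List.length_cons] at hij
    rw [List.map_cons, List.prod_cons]
    fin_cases c
    · change ent i j (A * _) = 0
      rcases le_or_gt i 1 with hi | hi
      · exact h.A_mul_low hi j _
      rcases le_or_gt i n with hi' | hi'
      · obtain ⟨i, rfl⟩ : ∃ m, i = m + 1 := ⟨i - 1, by omega⟩
        rw [h.A_mul (by omega) hi', ih _ _ (by omega)]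
      · exact h.out' j hi' _
    · change ent i j (B * _) = 0
      rw [h.B_mul]
      split_ifs with hi
      · exact ih _ _ (by omega)
      · rfl

theorem nil (h : KZ7Model n ent A B) : Nil n ![A, B] := by
  intro l hl
  refine h.ext _ fun i j => ?_
  rcases le_or_gt i n with hi | hi
  · exact h.prod_low l i j (by omega)
  · exact h.out' j hi _

theorem prod_col (h : KZ7Model n ent A B) (l : List (Fin 2)) :
    ∀ i ≤ n, ent i 0 (l.map ![A, B]).prod = if l = kz7w i then 1 else 0 := by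
  induction l with
  | nil =>
    intro i hi
    simp only [List.map_nil, List.prod_nil, h.one]
    match i with
    | 0 => simp [kz7w]
    | 1 => simp [kz7w]
    | i + 2 => simp [kz7w]
  | cons c l ih =>
    intro i hi
    rw [List.map_cons, List.prod_cons]
    fin_cases c
    · change ent i 0 (A * _) = _
      match i with
      | 0 => rw [h.A_mul_low (by omega)]; simp [kz7w]
      | 1 => rw [h.A_mul_low (by omega)]; simp [kz7w]
      | i + 2 => rw [h.A_mul (by omega) hi, ih _ (by omega)]; simp [kz7w]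
    · change ent i 0 (B * _) = _
      rw [h.B_mul]
      match i with
      | 0 => simp [kz7w]
      | 1 => rw [if_pos rfl, ih 0 (by omega)]; by_cases hl : l = [] <;> simp [kz7w, hl]
      | i + 2 => simp [kz7w]

theorem ent_ev (h : KZ7Model n ent A B) (hn : 1 ≤ n) (Φ : FA ℝ (Fin 2)) :
    ent n 0 (ev2 A B Φ) = cf (wXY n) Φ := by
  have : ent n 0 ∘ₗ (ev2 (k := ℝ) A B).toLinearMap = cf (wXY n) := by
    refine lin_ext fun w => ?_
    obtain ⟨m, rfl⟩ : ∃ m, n = m + 1 := ⟨n - 1, by omega⟩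
    rw [LinearMap.comp_apply, AlgHom.toLinearMap_apply, ev_wd, h.prod_col _ _ le_rfl, cf_wd,
      ← kz7w_eq]
    by_cases hw : w = wXY (m + 1)
    · rw [if_pos hw, if_pos (by rw [hw])]
    · rw [if_neg hw, if_neg fun hh => hw (FreeMonoid.toList.injective hh)]
  exact congrArg (fun φ : FA ℝ (Fin 2) →ₗ[ℝ] ℝ => φ Φ) this

open Classical in
theorem eqH (h : KZ7Model n ent A B) {H : PS R} (hH : IsSol A (-geo e0 B) 0 H) (d : Ix) (i : ℕ) :
    ((d 0 + d 1 : ℕ) : ℝ) * ent i 0 (coeff d H) = ent i 0 (A * coeff d H) -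
      ∑ p ∈ Finset.HasAntidiagonal.antidiagonal d,
        if (∃ j : ℕ, 1 ≤ j ∧ p.1 = j • e0) ∧ i = 1 then ent 0 0 (coeff p.2 H) else 0 := by
  have e := congrArg (fun f => ent i 0 (coeff d f)) hH.eq
  simp only [coeff_thr, mul_zero, add_zero, neg_mul, map_add, map_sub, map_neg, coeff_C_mul,
    coeff_mul_C, map_smul, smul_eq_mul, h.mul_A_zero, sub_zero] at e
  rw [e, coeff_mul, map_sum, sub_eq_add_neg]
  congr 2
  refine Finset.sum_congr rfl fun p _ => ?_
  rw [coeff_geo]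
  by_cases h1 : ∃ j : ℕ, 1 ≤ j ∧ p.1 = j • e0
  · rw [if_pos h1, h.B_mul]; simp [h1]
  · rw [if_neg h1, if_neg (fun hh => h1 hh.1), zero_mul, map_zero]

open Classical in
theorem eqJ (h : KZ7Model n ent A B) (hn : 2 ≤ n) {J : PS R} (hJ : IsSol B 0 (geo e1 A) J) (d : Ix)
    (j : ℕ) : ((d 0 + d 1 : ℕ) : ℝ) * ent n j (coeff d J) =
      -(if j = 0 then ent n 1 (coeff d J) else 0) +
      ∑ p ∈ Finset.HasAntidiagonal.antidiagonal d,
        if ∃ m : ℕ, 1 ≤ m ∧ p.2 = m • e1 then ent n j (coeff p.1 J * A) else 0 := by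
  have e := congrArg (fun f => ent n j (coeff d f)) hJ.eq
  simp only [coeff_thr, zero_mul, add_zero, map_add, map_sub, coeff_C_mul,
    coeff_mul_C, map_smul, smul_eq_mul, h.B_mul, h.mul_B (by omega)] at e
  rw [e, coeff_mul, map_sum, if_neg (show n ≠ 1 by omega), zero_sub]
  congr 1
  refine Finset.sum_congr rfl fun p _ => ?_
  rw [coeff_geo]
  split_ifs
  · rfl
  · rw [mul_zero, map_zero]

theorem deg_pos {d : Ix} (hd : d ≠ 0) : (0 : ℝ) < ((d 0 + d 1 : ℕ) : ℝ) := by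
  refine Nat.cast_pos.2 (Nat.pos_of_ne_zero fun h0 => hd ?_)
  ext i
  fin_cases i <;> simp <;> omega

theorem coeff_zero_sol {T : R} {S S' H : PS R} (hH : IsSol T S S' H) : coeff 0 H = 1 := by
  rw [coeff_zero_eq_constantCoeff_apply, hH.const]

theorem H_zero (h : KZ7Model n ent A B) {H : PS R} (hH : IsSol A (-geo e0 B) 0 H) (d : Ix) :
    0 ≤ ent 0 0 (coeff d H) := by
  by_cases hd : d = 0
  · rw [hd, coeff_zero_sol hH, h.one]; simp
  · have e := h.eqH hH d 0
    rw [h.A_mul_low (by omega)] at e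
    simp only [zero_ne_one, and_false, if_false, Finset.sum_const_zero, sub_zero] at e
    exact ((mul_eq_zero.1 e).resolve_left (deg_pos hd).ne').ge

theorem H_succ (h : KZ7Model n ent A B) {H : PS R} (hH : IsSol A (-geo e0 B) 0 H) (i : ℕ)
    (hi : i + 1 ≤ n) : (∀ d, ent (i + 1) 0 (coeff d H) ≤ 0) ∧ ent (i + 1) 0 (coeff e0 H) < 0 := by
  classical
  have h0 : ent (i + 1) 0 (coeff 0 H) = 0 := by rw [coeff_zero_sol hH, h.one]; simp
  induction i with
  | zero =>
    have nn : ∀ p : Ix × Ix, 0 ≤ (if (∃ j : ℕ, 1 ≤ j ∧ p.1 = j • e0) ∧ 0 + 1 = 1 then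
        ent 0 0 (coeff p.2 H) else 0) := fun p => by
      split_ifs
      · exact h.H_zero hH _
      · exact le_rfl
    refine ⟨fun d => ?_, ?_⟩
    · by_cases hd : d = 0
      · rw [hd, h0]
      have e := h.eqH hH d (0 + 1)
      rw [h.A_mul_low (by omega), zero_sub] at e
      refine nonpos_of_mul_nonpos_right ?_ (deg_pos hd)
      rw [e, neg_nonpos]
      exact Finset.sum_nonneg fun p _ => by convert nn p
    · have e := h.eqH hH e0 (0 + 1)
      rw [h.A_mul_low (by omega), zero_sub] at e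
      refine neg_of_mul_neg_right ?_ (deg_pos e0_ne).le
      rw [e, neg_lt_zero]
      refine Finset.sum_pos' (fun p _ => by convert nn p) ⟨(e0, 0), by simp, ?_⟩
      rw [if_pos ⟨⟨1, le_rfl, by simp⟩, rfl⟩, coeff_zero_sol hH, h.one]
      simp
  | succ i ih =>
    obtain ⟨i1, i2⟩ := ih (by omega) (by rw [coeff_zero_sol hH, h.one]; simp)
    have e : ∀ d : Ix, ((d 0 + d 1 : ℕ) : ℝ) * ent (i + 1 + 1) 0 (coeff d H) =
        ent (i + 1) 0 (coeff d H) := fun d => by
      rw [h.eqH hH d, h.A_mul (by omega) hi]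
      simp
    refine ⟨fun d => ?_, ?_⟩
    · by_cases hd : d = 0
      · rw [hd, h0]
      refine nonpos_of_mul_nonpos_right ?_ (deg_pos hd)
      rw [e]; exact i1 d
    · refine neg_of_mul_neg_right ?_ (deg_pos e0_ne).le
      rw [e]; exact i2

theorem J_pos (h : KZ7Model n ent A B) (hn : 2 ≤ n) {J : PS R} (hJ : IsSol B 0 (geo e1 A) J)
    (j : ℕ) (hj : 1 ≤ j) (d : Ix) : 0 ≤ ent n j (coeff d J) := by
  have key : ∀ m j, 1 ≤ j → n < j + m → ∀ d, 0 ≤ ent n j (coeff d J) := by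
    intro m
    induction m with
    | zero => intro j _ hj d; exact (h.out n hj _).ge
    | succ m ih =>
      intro j hj hm d
      by_cases hd : d = 0
      · rw [hd, coeff_zero_sol hJ, h.one]; split_ifs <;> simp
      refine nonneg_of_mul_nonneg_right ?_ (deg_pos hd)
      rw [h.eqJ hn hJ, if_neg (by omega), neg_zero, zero_add]
      refine Finset.sum_nonneg fun p _ => ?_
      split_ifs
      · rw [h.mul_A n hj]; exact ih _ (by omega) (by omega) _
      · exact le_rfl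
  exact key (n + 1) j hj (by omega) d

theorem J_zero (h : KZ7Model n ent A B) (hn : 2 ≤ n) {J : PS R} (hJ : IsSol B 0 (geo e1 A) J)
    (d : Ix) : ent n 0 (coeff d J) ≤ 0 := by
  by_cases hd : d = 0
  · rw [hd, coeff_zero_sol hJ, h.one, if_neg (by omega)]
  refine nonpos_of_mul_nonpos_right ?_ (deg_pos hd)
  rw [h.eqJ hn hJ, if_pos rfl]
  simp only [h.mul_A_zero, ite_self, Finset.sum_const_zero, add_zero, neg_nonpos]
  exact h.J_pos hn hJ 1 le_rfl d

end Alg

variable {n : ℕ} {R : Type} [NormedRing R] [NormedAlgebra ℝ R] [CompleteSpace R]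
  {ent : ℕ → ℕ → R →ₗ[ℝ] ℝ} {A B : R}

theorem mul_pw (h : KZ7Model n ent A B) (i : ℕ) (t : ℝ) (M : R) :
    ent i 0 (M * pw t A) = ent i 0 M := by
  have hA : A ^ (n + 1) = 0 := h.nil.pow_eq_zero (k := ℝ) (Submodule.subset_span ⟨0, rfl⟩)
  rw [pw_eq_sum hA, Finset.sum_range_succ', mul_add, Finset.mul_sum, map_add, map_sum,
    Finset.sum_eq_zero]
  · simp
  · intro j _
    rw [mul_smul_comm, map_smul, pow_succ A, ← mul_assoc, h.mul_A_zero, smul_zero]

theorem pw_mul (h : KZ7Model n ent A B) (hn : 2 ≤ n) (j : ℕ) (t : ℝ) (M : R) :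
    ent n j (pw t (-B) * M) = ent n j M := by
  have hB : (-B) ^ (n + 1) = 0 :=
    h.nil.pow_eq_zero (k := ℝ) (neg_mem (Submodule.subset_span ⟨1, rfl⟩))
  rw [pw_eq_sum hB, Finset.sum_range_succ', add_mul, Finset.sum_mul, map_add, map_sum,
    Finset.sum_eq_zero]
  · simp
  · intro j _
    rw [smul_mul_assoc, map_smul, pow_succ' (-B), mul_assoc, neg_mul, map_neg, h.B_mul,
      if_neg (by omega), neg_zero, smul_zero]

end KZ7Model

theorem kz7_hasSum {R : Type} [NormedRing R] [NormedAlgebra ℝ R] [CompleteSpace R]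
    (φ : R →ₗ[ℝ] ℝ) (hφ : Continuous φ) {f : PS R} (hf : Conv f) {u v : ℝ} (hu : |u| < 1)
    (hv : |v| < 1) :
    HasSum (fun d : Ix => (u ^ d 0 * v ^ d 1) * φ (coeff d f)) (φ (evalPS f u v)) := by
  have := (hf.hasSum hu hv).map φ hφ
  simpa [Function.comp_def] using this

/-- Use `R = Matrix (Fin (n+1)) (Fin (n+1)) ℝ` (Banach via `Matrix.linftyOpNormedRing`,
`Matrix.linftyOpNormedAlgebra`; or any other model) with `B e₀ = e₁`, `B e_i = 0` otherwise,
`A e_i = e_{i+1}` for `1 ≤ i < n`, `A e₀ = A e_n = 0`.  The pair is `n`-nilpotent and the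
`(n,0)` entry of a word `w(A,B)` is `1` if `w = x^(n-1) y` and `0` otherwise, so the `(n,0)` entry of
`ev2 A B Φ = PhiKZ A B H J` is the wanted coefficient.
`γ^A e₀ = e₀` and `e_nᵀ (1-γ)^{-B} = e_nᵀ` (`pw_eq_sum`).
Column `f_d = (coeff d H) e₀`: the equation of `H` gives, for `|d| ≥ 1`, `|d| f_d(0) = 0`,
`|d| f_d(1) = -∑_{j≥1} f_{d - j e0}(0)`, `|d| f_d(i+1) = f_d(i)`; hence `f_d(0) = δ_{d,0}`,
`f_d(i) ≤ 0` for `i ≥ 1`, `f_{e0}(i) = -1`.
Row `r_d = e_nᵀ (coeff d J)`: `|d| r_d(n) = 0`, `|d| r_d(i) = ∑_{j≥1} r_{d - j e1}(i+1)` for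
`1 ≤ i < n`, `|d| r_d(0) = -r_d(1)`; hence `r_d(n) = δ_{d,0}`, `r_d(i) ≥ 0` for `i ≥ 1`,
`r_d(0) ≤ 0`.  Summing the series (entries are continuous linear), the entry is
`r(0) · 1 + ∑_{i ≥ 1} r(i) f(i) ≤ f(n) < 0`. -/
theorem cf_wXY_neg {N : ℕ} {Φ : FA ℝ (Fin 2)} (h : IsUnivKZ N Φ) {n : ℕ} (h2 : 2 ≤ n)
    (hn : n ≤ N) : cf (wXY n) Φ < 0 := by
  obtain ⟨R, _, _, _, ent, A, B, hc, hm⟩ := kz7_exists (n := n) (by omega)
  have hnil : Nil N ![A, B] := hm.nil.mono hn
  obtain ⟨H, J, hp⟩ := exists_KZPair hnil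
  have g0 := gam_pos
  have g1 := gam_lt_one
  have a0 : |(0 : ℝ)| < 1 := by simp
  have a1 : |gam| < 1 := by rw [abs_of_pos g0]; exact g1
  have a2 : |1 - gam| < 1 := by rw [abs_of_pos (by linarith)]; linarith
  have sH := fun i => kz7_hasSum (ent i 0) (hc i 0) hp.convH a1 a0
  have sJ := fun j => kz7_hasSum (ent n j) (hc n j) hp.convJ a0 a2
  have wH : ∀ d : Ix, 0 ≤ gam ^ d 0 * (0 : ℝ) ^ d 1 := fun d => by positivity
  have wJ : ∀ d : Ix, 0 ≤ (0 : ℝ) ^ d 0 * (1 - gam) ^ d 1 := fun d =>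
    mul_nonneg (by positivity) (pow_nonneg (by linarith) _)
  rw [← hm.ent_ev (by omega), h R A B hnil H J hp, PhiKZ, hm.mul_pw, mul_assoc, hm.pw_mul h2,
    hm.mul]
  obtain ⟨m, rfl⟩ : ∃ m, n = m + 1 := ⟨n - 1, by omega⟩
  refine Finset.sum_neg' (fun k hk => ?_) ⟨m + 1, by simp, ?_⟩
  · rcases k with _ | k
    · exact mul_nonpos_of_nonpos_of_nonneg
        ((sJ 0).nonpos fun d => mul_nonpos_of_nonneg_of_nonpos (wJ d) (hm.J_zero h2 hp.solJ d))
        ((sH 0).nonneg fun d => mul_nonneg (wH d) (hm.H_zero hp.solH d))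
    · have hk' : k + 1 ≤ m + 1 := by have := Finset.mem_range.1 hk; omega
      exact mul_nonpos_of_nonneg_of_nonpos
        ((sJ (k + 1)).nonneg fun d => mul_nonneg (wJ d) (hm.J_pos h2 hp.solJ (k + 1) (by omega) d))
        ((sH (k + 1)).nonpos fun d =>
          mul_nonpos_of_nonneg_of_nonpos (wH d) ((hm.H_succ hp.solH k hk').1 d))
  · refine mul_neg_of_pos_of_neg ?_ ?_
    · refine lt_of_lt_of_le ?_ (le_hasSum (sJ (m + 1)) 0
        fun d _ => mul_nonneg (wJ d) (hm.J_pos h2 hp.solJ (m + 1) (by omega) d))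
      rw [KZ7Model.coeff_zero_sol hp.solJ, hm.one]
      simp
    · rw [← neg_pos]
      refine lt_of_lt_of_le ?_ (le_hasSum (sH (m + 1)).neg e0 fun d _ => neg_nonneg.2
        (mul_nonpos_of_nonneg_of_nonpos (wH d) ((hm.H_succ hp.solH m le_rfl).1 d)))
      rw [neg_pos]
      refine mul_neg_of_pos_of_neg ?_ (hm.H_succ hp.solH m le_rfl).2
      simpa [e0] using g0

end Crest.Agent.R010
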