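import Crest.Agent.R010.KZ5
import Crest.Agent.R010.KZ7

/-! # Row 10, KZ: the associator -/

set_option autoImplicit false

noncomputable section

namespace Crest.Agent.R010

open MvPowerSeries

theorem kz8_nil_comp {ι κ R : Type} [Ring R] {N : ℕ} {v : ι → R} (h : Nil N v) (f : κ → ι) :
    Nil N (fun c => v (f c)) := by
  intro l hl
  have := h (l.map f) (by simpa using hl)
  rwa [List.map_map] at this

theorem kz8_nil_pair {ι R : Type} [Ring R] [Algebra ℝ R] {N : ℕ} {v : ι → R} (h : Nil N v) {a b : R}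
    (ha : a ∈ Submodule.span ℝ (Set.range v)) (hb : b ∈ Submodule.span ℝ (Set.range v)) :
    Nil N ![a, b] :=
  h.of_mem_span (k := ℝ) fun c => by fin_cases c <;> assumption

theorem kz8_mem {ι R : Type} [Ring R] [Algebra ℝ R] (v : ι → R) (c : ι) :
    v c ∈ Submodule.span ℝ (Set.range v) := Submodule.subset_span ⟨c, rfl⟩

theorem kz8_step {N : ℕ} {Φ : FA ℝ (Fin 2)} (h : IsUnivKZ N Φ) {R : Type} [NormedRing R]
    [NormedAlgebra ℝ R] [CompleteSpace R] {T : Fin 5 → R} (hP : IsP5 T) (hN : Nil N T)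
    {H J H' J' : PS R} (h₁ : KZTwo T H J) (h₂ : KZTwo (sh3 T) H' J') :
    ev2 (T 0) (T 1) Φ = Ginv (sh3 T) J' * Gcen T H := by
  have hn := kz8_nil_pair hN (kz8_mem T 0) (kz8_mem T 1)
  obtain ⟨H₀, J₁, h₀⟩ := exists_KZPair hn
  rw [transition hP hN h₁ h₂ h₀, h R _ _ hn H₀ J₁ h₀]

theorem kz8_inv {N : ℕ} {R : Type} [NormedRing R] [NormedAlgebra ℝ R] [CompleteSpace R]
    {T : Fin 5 → R} (hP : IsP5 T) (hN : Nil N T) {H J : PS R} (h₁ : KZTwo T H J) :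
    Gcen T H * Ginv T J = 1 ∧ Ginv T J * Gcen T H = 1 :=
  Gcen_mul_Ginv hP ⟨N + 1, hN.pow_eq_zero (k := ℝ) (add_mem (kz8_mem T 0) (kz8_mem T 3))⟩ h₁

theorem kz8_tele {R : Type} [Monoid R] {a₀ a₁ a₂ a₃ a₄ b₀ b₁ b₂ b₃ b₄ : R} (h₀ : b₀ * a₀ = 1)
    (h₁ : a₁ * b₁ = 1) (h₂ : a₂ * b₂ = 1) (h₃ : a₃ * b₃ = 1) (h₄ : a₄ * b₄ = 1) :
    b₀ * a₄ * (b₄ * a₃) * (b₃ * a₂) * (b₂ * a₁) * (b₁ * a₀) = 1 := by
  have key : ∀ {x a b y : R}, a * b = 1 → x * a * (b * y) = x * y := fun {x a b y} h => by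
    rw [mul_assoc, ← mul_assoc a, h, one_mul]
  rw [key h₄, key h₃, key h₂, key h₁, h₀]

/-- With `T^{(j)} = sh3^[j] T` and `G_j`, `G̃_j` the sections of the five charts,
`transition` gives `G̃_{j+1} G_j = Φ(T^{(j)}_0, T^{(j)}_1)`; multiply and use `Gcen_mul_Ginv`
(`sh3^[5] T = T`). -/
theorem pent_banach {N : ℕ} {Φ : FA ℝ (Fin 2)} (h : IsUnivKZ N Φ) {R : Type} [NormedRing R]
    [NormedAlgebra ℝ R] [CompleteSpace R] {T : Fin 5 → R} (hP : IsP5 T) (hN : Nil N T) :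
    ev2 (T 2) (T 3) Φ * ev2 (T 4) (T 0) Φ * ev2 (T 1) (T 2) Φ * ev2 (T 3) (T 4) Φ *
      ev2 (T 0) (T 1) Φ = 1 := by
  have hN₁ : Nil N (sh3 T) := kz8_nil_comp hN _
  have hN₂ : Nil N (sh3 (sh3 T)) := kz8_nil_comp hN₁ _
  have hN₃ : Nil N (sh3 (sh3 (sh3 T))) := kz8_nil_comp hN₂ _
  have hN₄ : Nil N (sh3 (sh3 (sh3 (sh3 T)))) := kz8_nil_comp hN₃ _
  have e : sh3 (sh3 (sh3 (sh3 (sh3 T)))) = T := by
    funext i
    fin_cases i <;> rfl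
  obtain ⟨H₀, J₀, h₀⟩ := exists_KZTwo hN
  obtain ⟨H₁, J₁, h₁⟩ := exists_KZTwo hN₁
  obtain ⟨H₂, J₂, h₂⟩ := exists_KZTwo hN₂
  obtain ⟨H₃, J₃, h₃⟩ := exists_KZTwo hN₃
  obtain ⟨H₄, J₄, h₄⟩ := exists_KZTwo hN₄
  have e₀ := kz8_step h hP hN h₀ h₁
  have e₁ : ev2 (T 3) (T 4) Φ = _ := kz8_step h hP.sh3 hN₁ h₁ h₂
  have e₂ : ev2 (T 1) (T 2) Φ = _ := kz8_step h hP.sh3.sh3 hN₂ h₂ h₃
  have e₃ : ev2 (T 4) (T 0) Φ = _ := kz8_step h hP.sh3.sh3.sh3 hN₃ h₃ h₄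
  have e₄ : ev2 (T 2) (T 3) Φ = _ := kz8_step h hP.sh3.sh3.sh3.sh3 hN₄ h₄ (e.symm ▸ h₀)
  rw [e] at e₄
  rw [e₀, e₁, e₂, e₃, e₄]
  exact kz8_tele (kz8_inv hP hN h₀).2 (kz8_inv hP.sh3 hN₁ h₁).1 (kz8_inv hP.sh3.sh3 hN₂ h₂).1
    (kz8_inv hP.sh3.sh3.sh3 hN₃ h₃).1 (kz8_inv hP.sh3.sh3.sh3.sh3 hN₄ h₄).1

/-- Reduction to Banach algebras: a finite nilpotent family comes from a nilpotent family in a
Banach algebra `R₀` through an injective map on the generated subalgebra.  Concretely: `S` the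
subalgebra generated by `v` (`Nil.finite_adjoin`), `R₀ ≃ S` (`exists_banach`). -/
theorem exists_banach_cover {ι : Type} [Finite ι] {N : ℕ} {R : Type} [Ring R] [Algebra ℝ R]
    {v : ι → R} (hv : Nil N v) :
    ∃ (R₀ : Type) (_ : NormedRing R₀) (_ : NormedAlgebra ℝ R₀) (φ : R₀ →ₐ[ℝ] R) (v₀ : ι → R₀),
      CompleteSpace R₀ ∧ Function.Injective φ ∧ ∀ c, φ (v₀ c) = v c := by
  have := hv.finite_adjoin (k := ℝ)
  obtain ⟨R₀, i₁, i₂, hc, ⟨e⟩⟩ := exists_banach (Algebra.adjoin ℝ (Set.range v))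
  refine ⟨R₀, i₁, i₂, (Algebra.adjoin ℝ (Set.range v)).val.comp (e.symm : R₀ →ₐ[ℝ] _),
    fun c => e ⟨v c, Algebra.subset_adjoin ⟨c, rfl⟩⟩, hc,
    Subtype.val_injective.comp e.symm.injective, fun c => ?_⟩
  simp

theorem kz8_nil_one {R : Type} [Ring R] {N : ℕ} {x : R} (h : x ^ (N + 1) = 0) :
    Nil N (fun _ : Unit => x) := by
  intro l hl
  rw [List.map_const', List.prod_replicate, hl, h]

theorem isAssoc_of_isUnivKZ {N : ℕ} {Φ : FA ℝ (Fin 2)} (h : IsUnivKZ N Φ) : IsAssoc N Φ := by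
  refine ⟨?_, ?_, ?_, ?_⟩
  · intro R _ _ x₁ y₁ x₂ y₂ c₁ c₂ c₃ c₄ hN
    obtain ⟨R₀, _, _, φ, v, _, hφ, hv⟩ := exists_banach_cover hN
    have hN₀ : Nil N v := Nil.of_map φ hφ (by rwa [funext hv])
    obtain rfl : φ (v 0) = x₁ := hv 0
    obtain rfl : φ (v 1) = y₁ := hv 1
    obtain rfl : φ (v 2) = x₂ := hv 2
    obtain rfl : φ (v 3) = y₂ := hv 3
    have hn : ∀ c, IsNilpotent (v c) := fun c => ⟨N + 1, hN₀.pow_eq_zero (k := ℝ) (kz8_mem v c)⟩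
    have n₁ := kz8_nil_pair hN₀ (kz8_mem v 0) (kz8_mem v 1)
    have n₂ := kz8_nil_pair hN₀ (kz8_mem v 2) (kz8_mem v 3)
    have n₃ := kz8_nil_pair hN₀ (add_mem (kz8_mem v 0) (kz8_mem v 2))
      (add_mem (kz8_mem v 1) (kz8_mem v 3))
    obtain ⟨H₁, J₁, h₁⟩ := exists_KZPair n₁
    obtain ⟨H₂, J₂, h₂⟩ := exists_KZPair n₂
    obtain ⟨h₃, h₄⟩ := PhiKZ_add (c₁.of_map hφ) (c₂.of_map hφ) (c₃.of_map hφ) (c₄.of_map hφ)
      (hn 0) (hn 1) (hn 2) (hn 3) h₁ h₂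
    rw [← map_add, ← map_add, ← map_ev2, ← map_ev2, ← map_ev2, ← map_mul, h R₀ _ _ n₁ _ _ h₁,
      h R₀ _ _ n₂ _ _ h₂, h R₀ _ _ n₃ _ _ h₃, h₄]
  · intro R _ _ X hX hN
    obtain ⟨R₀, _, _, φ, v, _, hφ, hv⟩ := exists_banach_cover hN
    have hN₀ : Nil N v := Nil.of_map φ hφ (by rwa [funext hv])
    obtain rfl : (fun i j => φ (v (i, j))) = X := funext fun i => funext fun j => hv (i, j)
    have hX₀ : IsT5 fun i j => v (i, j) := IsT5.of_map φ hφ hX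
    have key := congrArg φ
      (pent_banach h hX₀.isP5 (kz8_nil_comp hN₀ fun i : Fin 5 => (i, i + 1)))
    simp only [map_mul, map_one, map_ev2] at key
    exact key
  · intro R _ _ x hx
    obtain ⟨R₀, _, _, φ, v, _, hφ, hv⟩ := exists_banach_cover (kz8_nil_one hx)
    have hN₀ : Nil N v := Nil.of_map φ hφ (by rw [funext hv]; exact kz8_nil_one hx)
    obtain rfl : φ (v ()) = x := hv ()
    have n₁ := kz8_nil_pair hN₀ (kz8_mem v ()) (zero_mem _)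
    obtain ⟨H, J, h₁⟩ := exists_KZPair n₁
    rw [← map_zero φ, ← map_ev2, h R₀ _ _ n₁ _ _ h₁,
      PhiKZ_zero_right ⟨N + 1, hN₀.pow_eq_zero (k := ℝ) (kz8_mem v ())⟩ h₁, map_one]
  · intro R _ _ x hx
    obtain ⟨R₀, _, _, φ, v, _, hφ, hv⟩ := exists_banach_cover (kz8_nil_one hx)
    have hN₀ : Nil N v := Nil.of_map φ hφ (by rw [funext hv]; exact kz8_nil_one hx)
    obtain rfl : φ (v ()) = x := hv ()
    have n₁ := kz8_nil_pair hN₀ (zero_mem _) (kz8_mem v ())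
    obtain ⟨H, J, h₁⟩ := exists_KZPair n₁
    rw [← map_zero φ, ← map_ev2, h R₀ _ _ n₁ _ _ h₁,
      PhiKZ_zero_left ⟨N + 1, hN₀.pow_eq_zero (k := ℝ) (kz8_mem v ())⟩ h₁, map_one]

theorem exists_isAssoc (N : ℕ) :
    ∃ Φ : FA ℝ (Fin 2), IsAssoc N Φ ∧ ∀ n, 2 ≤ n → n ≤ N → cf (wXY n) Φ ≠ 0 := by
  obtain ⟨Φ, h⟩ := exists_isUnivKZ N
  exact ⟨Φ, isAssoc_of_isUnivKZ h, fun n h2 hn => (cf_wXY_neg h h2 hn).ne⟩

end Crest.Agent.R010
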