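import Crest.Agent.R010.Flow
import Crest.Agent.R010.KZ8

/-! # Row 10, part C: existence of a solution with nonzero depth-one part in each odd weight -/

set_option autoImplicit false

noncomputable section

namespace Crest.Agent.R010

open scoped TensorProduct

theorem exist_wdeg_wXY {N : ℕ} (hN : 1 ≤ N) : wdeg (one (Fin 2)) (wXY N) = N := by
  rw [wXY, wdeg_mul, wdeg_pow, wdeg_of, wdeg_of]
  change (N - 1) * 1 + 1 = N
  omega

/-- Correct `Φ` by flows in weights `3, …, N-1` until it agrees with `Φ' = Φ(-x,-y)` below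
weight `N`; the coefficient of `x^(N-1) y` is unchanged, so the weight `N` difference has
coefficient `-2c ≠ 0`. -/
theorem exists_Sol_of_isAssoc {K : Type} [Field K] [CharZero K] {N : ℕ} (hN : 3 ≤ N) (ho : Odd N)
    {Φ : FA K (Fin 2)} (h : IsAssoc N Φ) (hc : cf (wXY N) Φ ≠ 0) :
    ∃ ψ ∈ Sol K N, cf (wXY N) ψ ≠ 0 := by
  have h' := h.neg
  set Φ' : FA K (Fin 2) := ev2 (-gX) (-gY) Φ with hΦ'
  have key : ∀ m, 3 ≤ m → m ≤ N → ∃ Ψ : FA K (Fin 2), IsAssoc N Ψ ∧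
      cf (wXY N) Ψ = cf (wXY N) Φ ∧ Φ' - Ψ ∈ fil (one (Fin 2)) m := by
    intro m hm
    induction m, hm using Nat.le_induction with
    | base => exact fun _ => ⟨Φ, h, rfl, h.neg_sub_mem (by omega)⟩
    | succ m hm ih =>
      intro hmN
      obtain ⟨Ψ, hΨ, hcf, hd⟩ := ih (by omega)
      have hs := hΨ.proj_sub_mem_Sol (by omega) (by omega) h' hd
      refine ⟨flow N (proj (one (Fin 2)) m (Φ' - Ψ)) Ψ, hΨ.flow hm hs,
        (cf_flow (by omega) (by omega) hs.1 hΨ).trans hcf, ?_⟩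
      have h1 := flow_sub_mem (N := N) (by omega) (by omega) hs.1.2 hΨ.cf_one
      have h2 := sub_proj_mem_fil hd
      convert sub_mem h2 h1 using 1
      abel
  obtain ⟨Ψ, hΨ, hcf, hd⟩ := key N hN le_rfl
  refine ⟨_, hΨ.proj_sub_mem_Sol (by omega) le_rfl h' hd, ?_⟩
  have e := exist_wdeg_wXY (N := N) (by omega)
  have e1 := cf_proj (one (Fin 2)) (wXY N) (Φ' - Ψ)
  rw [e] at e1
  rw [e1, map_sub, hcf, hΦ', cf_ev2_neg, e, ho.neg_one_pow]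
  intro h0
  apply hc
  linear_combination (-1 / 2 : K) * h0

/-- Apply a `ℚ`-linear functional to all coefficients. -/
def mapL {σ : Type} (l : ℝ →ₗ[ℚ] ℚ) (f : FA ℝ σ) : FA ℚ σ := MonoidAlgebra.map l.toAddMonoidHom f

theorem exist_cf_mapL {σ : Type} (l : ℝ →ₗ[ℚ] ℚ) (w : FreeMonoid σ) (f : FA ℝ σ) :
    cf w (mapL l f) = l (cf w f) := by
  simp [cf_apply, mapL]

theorem exist_mapL_add {σ : Type} (l : ℝ →ₗ[ℚ] ℚ) (f g : FA ℝ σ) :
    mapL l (f + g) = mapL l f + mapL l g := MonoidAlgebra.map_add _ f g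

theorem exist_mapL_zero {σ : Type} (l : ℝ →ₗ[ℚ] ℚ) : mapL l (0 : FA ℝ σ) = 0 :=
  ext_cf fun w => by rw [exist_cf_mapL]; simp

theorem exist_mapL_smul {σ : Type} (l : ℝ →ₗ[ℚ] ℚ) (c : ℝ) (g : FA ℚ σ) :
    mapL l (c • mapC (algebraMap ℚ ℝ) g) = l c • g := by
  refine ext_cf fun w => ?_
  rw [exist_cf_mapL, (cf w).map_smul, cf_mapC, (cf w).map_smul, smul_eq_mul, smul_eq_mul,
    mul_comm c, ← Algebra.smul_def, l.map_smul, smul_eq_mul, mul_comm]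

theorem exist_mapL_mem {σ : Type} (l : ℝ →ₗ[ℚ] ℚ) (S : Submodule ℚ (FA ℚ σ)) {s : Set (FA ℝ σ)}
    (hs : ∀ x ∈ s, ∃ g ∈ S, mapC (algebraMap ℚ ℝ) g = x) {f : FA ℝ σ}
    (hf : f ∈ Submodule.span ℝ s) : mapL l f ∈ S := by
  suffices H : ∀ c : ℝ, mapL l (c • f) ∈ S by simpa using H 1
  induction hf using Submodule.span_induction with
  | mem x hx =>
    intro c
    obtain ⟨g, hg, rfl⟩ := hs x hx
    rw [exist_mapL_smul]
    exact S.smul_mem _ hg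
  | zero => intro c; rw [smul_zero, exist_mapL_zero]; exact zero_mem _
  | add a b _ _ ha hb => intro c; rw [smul_add, exist_mapL_add]; exact add_mem (ha c) (hb c)
  | smul r a _ ha => intro c; rw [smul_smul]; exact ha _

/-- `l ⊗ id`. -/
def existL (l : ℝ →ₗ[ℚ] ℚ) (R : Type) [Ring R] [Algebra ℚ R] : ℝ ⊗[ℚ] R →ₗ[ℚ] R :=
  (TensorProduct.lid ℚ R).toLinearMap ∘ₗ l.rTensor R

theorem existL_ev {σ : Type} (l : ℝ →ₗ[ℚ] ℚ) {R : Type} [Ring R] [Algebra ℚ R] (v : σ → R)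
    (f : FA ℝ σ) :
    existL l R (ev (fun c => (1 : ℝ) ⊗ₜ[ℚ] v c) f) = ev v (mapL l f) := by
  suffices H : ∀ c : ℝ, existL l R (ev (fun c => (1 : ℝ) ⊗ₜ[ℚ] v c) (c • f)) =
      ev v (mapL l (c • f)) by simpa using H 1
  refine induction_wd (p := fun f => ∀ c : ℝ, existL l R (ev (fun c => (1 : ℝ) ⊗ₜ[ℚ] v c) (c • f)) =
      ev v (mapL l (c • f))) f (fun w c => ?_) (fun c => ?_) (fun a b ha hb c => ?_)
    fun r a ha c => ?_
  · have e : ev (k := ℝ) (fun c => (1 : ℝ) ⊗ₜ[ℚ] v c) (wd w) =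
        (1 : ℝ) ⊗ₜ[ℚ] ev (k := ℚ) v (wd w) := by
      rw [ev_wd, ev_wd]
      have := map_list_prod (Algebra.TensorProduct.includeRight : R →ₐ[ℚ] ℝ ⊗[ℚ] R)
        (w.toList.map v)
      rw [List.map_map] at this
      exact this.symm
    rw [map_smul, e, ← mapC_wd (algebraMap ℚ ℝ) w, exist_mapL_smul,
      TensorProduct.smul_tmul', smul_eq_mul, mul_one]
    simp [existL]
  · rw [smul_zero, exist_mapL_zero]; simp
  · rw [smul_add, exist_mapL_add, map_add, map_add, map_add, ha, hb]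
  · rw [smul_smul]; exact ha _

theorem existL_ev2 (l : ℝ →ₗ[ℚ] ℚ) {R : Type} [Ring R] [Algebra ℚ R] (p q : R)
    (f : FA ℝ (Fin 2)) :
    existL l R (ev2 ((1 : ℝ) ⊗ₜ[ℚ] p) ((1 : ℝ) ⊗ₜ[ℚ] q) f) = ev2 p q (mapL l f) := by
  rw [← existL_ev l ![p, q] f]
  congr 1
  exact ev_congr (fun c => by fin_cases c <;> rfl) f

/-- `mapL l (c • br m) = l c • br m`; for a `ℚ`-algebra `R` and `v : σ → R`,
`(l ⊗ id) (ev (1 ⊗ v) f) = ev v (mapL l f)` in `ℝ ⊗[ℚ] R → R`, and `1 ⊗ X` is a five-strand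
structure. -/
theorem mapL_mem_Sol (l : ℝ →ₗ[ℚ] ℚ) {n : ℕ} {ψ : FA ℝ (Fin 2)} (h : ψ ∈ Sol ℝ n) :
    mapL l ψ ∈ Sol ℚ n := by
  refine ⟨⟨?_, fun w hw => ?_⟩, fun R _ _ X hX => ?_⟩
  · refine exist_mapL_mem l _ ?_ h.1.1
    rintro _ ⟨m, rfl⟩
    exact ⟨br m, br_mem_LieS m, mapC_br _ m⟩
  · rw [exist_cf_mapL, h.1.2 w hw, map_zero]
  · have hX' := hX.map (Algebra.TensorProduct.includeRight : R →ₐ[ℚ] ℝ ⊗[ℚ] R)
    have := congrArg (existL l R) (h.2 (ℝ ⊗[ℚ] R) _ hX')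
    simp only [pent5, edge, map_add, map_zero, Algebra.TensorProduct.includeRight_apply,
      existL_ev2] at this
    exact this

theorem exists_Sol_rat {N : ℕ} (hN : 3 ≤ N) (ho : Odd N) :
    ∃ ψ ∈ Sol ℚ N, cf (wXY N) ψ ≠ 0 := by
  obtain ⟨Φ, h, hc⟩ := exists_isAssoc N
  obtain ⟨ψ, hψ, hc'⟩ := exists_Sol_of_isAssoc hN ho h (hc N (by omega) le_rfl)
  obtain ⟨l, hl⟩ := Module.Projective.exists_dual_ne_zero ℚ hc'
  exact ⟨mapL l ψ, mapL_mem_Sol l hψ, by rwa [exist_cf_mapL]⟩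

end Crest.Agent.R010
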