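import Crest.Agent.R010.Braid

/-! # Row 10, part C: Friedrichs' criterion; differences of associators -/

set_option autoImplicit false

noncomputable section

namespace Crest.Agent.R010

variable {K : Type} [Field K] [CharZero K] {σ : Type}

/-- For primitive `ψ` without constant term, `ψ(ad v) = ad ψ(v)`: the pairs `L_{v c}`, `-R_{v c}`
commute; `ψ(-R_v)` is a right multiplication `R_z`, and applying to `1` gives `z = -ψ(v)`. -/
theorem Prim.ev_adm {k : Type} [CommRing k] {ψ : FA k σ} (h : Prim ψ) (h1 : ψ ∈ fil (one σ) 1)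
    {R : Type} [Ring R] [Algebra k R] (v : σ → R) :
    ev (fun c => (adm (v c) : Module.End k R)) ψ = adm (ev v ψ) := by
  have hc : ∀ a b : R, Commute (Lm a : Module.End k R) (-Rm b) := fun a b =>
    Commute.neg_right (b := (Rm b : Module.End k R))
      (LinearMap.ext fun x => (mul_assoc a x b).symm)
  have e := h (Module.End k R) (fun c => Lm (v c)) (fun c => -Rm (v c)) fun c c' => hc _ _
  have e0 : ev (fun c => (adm (v c) : Module.End k R)) ψ 1 = 0 :=
    ev_apply_eq_zero (fun c => (isDer_adm (v c)).map_one) h1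
  simp only [← sub_eq_add_neg] at e
  change ev (fun c => (adm (v c) : Module.End k R)) ψ = _ at e
  rw [ev_Lm] at e
  rw [e] at e0 ⊢
  refine LinearMap.ext fun x => ?_
  have e1 := LinearMap.congr_fun (commute_ev (fun c => hc x (v c)) ψ).eq 1
  simp only [LinearMap.add_apply, Module.End.mul_apply, LinearMap.mulLeft_apply, mul_one] at e0 e1 ⊢
  rw [← e1, eq_neg_of_add_eq_zero_right e0, adm_apply, lie_def', mul_neg, sub_eq_add_neg]

/-- The Euler operator. -/
theorem ex_euler {k : Type} [CommRing k] {n : ℕ} {f : FA k σ} (hf : f ∈ hom (one σ) n) :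
    der gen f = (n : k) • f := by
  refine supp_induction (q := fun f => der gen f = (n : k) • f) hf (fun w hw => ?_) (by simp)
    (fun a b ha hb => ?_) (fun c a ha => ?_)
  · subst hw
    clear hf
    induction w using basic1_word_ind with
    | one => simp
    | mul_of w c ih =>
      rw [wd_mul, wd_of, isDer_der, ih, der_gen, wdeg_mul, wdeg_of, Nat.cast_add, Nat.cast_one,
        add_smul, one_smul, smul_mul_assoc]
  · rw [map_add, ha, hb, smul_add]
  · rw [map_smul, ha, smul_comm]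

/-- **Friedrichs.** Apply `Prim.ev_adm` in `R = End (FA K σ)` with `v c = L_c` to the Euler
operator `E` (`E w = |w| w`, a derivation with `E c = c`): `ad(L_c) E = -L_c`, so a nonempty word
`w' c` gives `-L_(w'(ad) c)` with `w'(ad) c` Lie, while `ad(L_ψ) E = -n L_ψ`. -/
theorem Prim.mem_LieS {ψ : FA K σ} (h : Prim ψ) {n : ℕ} (hn : 1 ≤ n) (hψ : ψ ∈ hom (one σ) n) :
    ψ ∈ LieS K σ := by
  have h1 := mem_fil_of_hom hψ hn
  have e := LinearMap.congr_fun
    (h.ev_adm h1 fun c => (Lm (gen c) : Module.End K (FA K σ))) (der gen)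
  have hE : ∀ a : FA K σ, adm (k := K) (Lm a : Module.End K (FA K σ)) (der gen) =
      -Lm (der gen a) := fun a => by
    rw [← (isDer_der _).lie_Lm, adm_apply, lie_def', lie_def', neg_sub]
  rw [ev_Lm, ev_gen_self, hE, ex_euler hψ] at e
  let W : Submodule K (Module.End K (FA K σ)) := (LieS K σ).map (Algebra.lmul K _).toLinearMap
  have hW : ev (fun c => adm (k := K) (Lm (gen c) : Module.End K (FA K σ))) ψ (der gen) ∈ W := by
    refine supp_induction (q := fun f =>
      ev (fun c => adm (k := K) (Lm (gen c) : Module.End K (FA K σ))) f (der gen) ∈ W) h1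
      (fun w hw => ?_) (by simp) (fun a b ha hb => ?_) (fun c a ha => ?_)
    · induction w using basic1_word_ind with
      | one => simp at hw
      | mul_of w c _ =>
        rw [wd_mul, wd_of, map_mul, ev_gen, Module.End.mul_apply, hE, der_gen]
        refine ev_mem_of_stable W _ ?_ _ (neg_mem ⟨gen c, gen_mem_LieS c, rfl⟩)
        rintro c' _ ⟨a, ha, rfl⟩
        exact ⟨_, lie_mem_LieS (gen_mem_LieS c') ha, ((adm_apply _ _).trans (lie_Lm _ _)).symm⟩
    · rw [map_add, LinearMap.add_apply]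
      exact add_mem ha hb
    · rw [map_smul, LinearMap.smul_apply]
      exact W.smul_mem c ha
  rw [e, neg_mem_iff] at hW
  obtain ⟨g, hg, e'⟩ := hW
  have e2 : g = (n : K) • ψ := by simpa using LinearMap.congr_fun e' 1
  rwa [e2, SetLike.mem_coe, Submodule.smul_mem_iff _ (Nat.cast_ne_zero.2 (by omega))] at hg

section

variable {k : Type} [CommRing k]

theorem ex_proj_zero (δ : σ → ℕ) (v : σ → FA k σ) (h0 : ∀ c, δ c = 0 → v c = gen c)
    (h1 : ∀ c, δ c ≠ 0 → v c = 0) (f : FA k σ) : proj δ 0 f = ev v f := by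
  refine induction_left f ?_ (by simp) (fun c a ha => ?_) (fun a b ha hb => ?_) (fun c a ha => ?_)
  · rw [proj_of_hom (one_mem_hom δ), map_one]
  · rw [map_mul (ev v), ev_gen, ← ha]
    refine (proj_mul_of_fil (mem_fil_zero δ _) (mem_fil_zero δ _)).trans ?_
    by_cases h : δ c = 0
    · rw [h0 c h, proj_of_hom (h ▸ gen_mem_hom δ c)]
    · rw [h1 c h, proj_of_hom_ne (gen_mem_hom δ c) h]
  · rw [map_add, map_add, ha, hb]
  · rw [map_smul, map_smul, ha]

theorem ex_sub_mem (f : FA k σ) : f - cf 1 f • 1 ∈ fil (one σ) 1 := by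
  rw [← proj_zero_one]
  exact sub_proj_mem_fil (mem_fil_zero _ f)

theorem ex_proj_zero' {N : ℕ} {Φ : FA k (Fin 2)} (h : IsAssoc N Φ) :
    proj ![1, 0] 0 Φ - 1 ∈ fil (one (Fin 2)) (N + 1) := by
  obtain ⟨U, _, _, u, -, hu, -, hker, -⟩ := exists_universal_nil k (Fin 2) N
  rw [← hker, ex_proj_zero _ ![0, gY] (fun c => by fin_cases c <;> simp)
    (fun c => by fin_cases c <;> simp), map_sub, map_one, map_ev2, map_zero, ev_gen,
    h.ny U _ (hu.pow_eq_zero (k := k) (Submodule.subset_span ⟨1, rfl⟩)), sub_self]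

theorem ex_ev2_neg {R : Type} [Ring R] [Algebra k R] (p q : R) (Φ : FA k (Fin 2)) :
    ev2 p q (ev2 (-gX) (-gY) Φ : FA k (Fin 2)) = ev2 (-p) (-q) Φ := by
  rw [map_ev2, map_neg, map_neg, ev_gen, ev_gen]
  rfl

theorem IsAssoc.cf_one {N : ℕ} {Φ : FA k (Fin 2)} (h : IsAssoc N Φ) : cf 1 Φ = 1 := by
  have hn : Nil 0 ![(0 : k), 0] := fun l hl => by
    obtain ⟨c, rfl⟩ := List.length_eq_one_iff.1 hl
    fin_cases c <;> simp
  have e := hn.ev_eq_zero (ex_sub_mem Φ)
  rw [map_sub, h.nx k 0 (by simp), map_smul, map_one, smul_eq_mul, mul_one, sub_eq_zero] at e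
  exact e.symm

/-- The part without `y` is `1` modulo length `> N` (`exists_universal_nil` on `Fin 2`, `nx`). -/
theorem IsAssoc.proj_dep_zero {N : ℕ} {Φ : FA k (Fin 2)} (h : IsAssoc N Φ) :
    proj dep 0 Φ - 1 ∈ fil (one (Fin 2)) (N + 1) := by
  obtain ⟨U, _, _, u, -, hu, -, hker, -⟩ := exists_universal_nil k (Fin 2) N
  rw [← hker, ex_proj_zero _ ![gX, 0] (fun c => by fin_cases c <;> simp [dep])
    (fun c => by fin_cases c <;> simp [dep]), map_sub, map_one, map_ev2, map_zero, ev_gen,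
    h.nx U _ (hu.pow_eq_zero (k := k) (Submodule.subset_span ⟨0, rfl⟩)), sub_self]

theorem IsAssoc.proj_one {N : ℕ} (hN : 1 ≤ N) {Φ : FA k (Fin 2)} (h : IsAssoc N Φ) :
    proj (one (Fin 2)) 1 Φ = 0 := by
  have key : ∀ (δ : Fin 2 → ℕ) (c : Fin 2), δ c = 0 →
      proj δ 0 Φ - 1 ∈ fil (one (Fin 2)) (N + 1) → cf (FreeMonoid.of c) Φ = 0 := by
    intro δ c hc hf
    have e := hf (FreeMonoid.of c) (by simp only [wdeg_of, one]; omega)
    rwa [map_sub, ← wd_one, cf_wd_ne (FreeMonoid.of_ne_one c).symm, sub_zero, ← hc,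
      ← wdeg_of δ c, cf_proj] at e
  refine ext_cf fun w => ?_
  rw [proj, cf_restr, map_zero]
  split_ifs with hw
  · rw [wdeg_one_eq_length] at hw
    obtain ⟨c, hc⟩ := List.length_eq_one_iff.1 hw
    obtain rfl : w = FreeMonoid.of c := FreeMonoid.toList.injective hc
    fin_cases c
    · exact key dep 0 rfl h.proj_dep_zero
    · exact key ![1, 0] 1 rfl (ex_proj_zero' h)
  · rfl

theorem IsAssoc.neg {N : ℕ} {Φ : FA k (Fin 2)} (h : IsAssoc N Φ) :
    IsAssoc N (ev2 (-gX) (-gY) Φ : FA k (Fin 2)) := by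
  refine ⟨fun R _ _ x₁ y₁ x₂ y₂ h1 h2 h3 h4 hn => ?_, fun R _ _ X hX hn => ?_,
    fun R _ _ x hx => ?_, fun R _ _ y hy => ?_⟩
  · simp only [ex_ev2_neg, neg_add]
    refine h.gl R _ _ _ _ h1.neg_left.neg_right h2.neg_left.neg_right h3.neg_left.neg_right
      h4.neg_left.neg_right (hn.of_mem_span (k := k) fun c => ?_)
    have := neg_mem (Submodule.subset_span (R := k) (Set.mem_range_self (f := ![x₁, y₁, x₂, y₂]) c))
    fin_cases c <;> exact this
  · simp only [edge, ex_ev2_neg]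
    exact h.pent R (fun i j => -X i j) hX.neg (hn.of_mem_span (k := k) fun c =>
      neg_mem (Submodule.subset_span ⟨c, rfl⟩))
  · rw [ex_ev2_neg, neg_zero]
    exact h.nx R _ (by rw [neg_pow x, hx, mul_zero])
  · rw [ex_ev2_neg, neg_zero]
    exact h.ny R _ (by rw [neg_pow y, hy, mul_zero])

theorem cf_ev2_neg (w : FreeMonoid (Fin 2)) (Φ : FA k (Fin 2)) :
    cf w (ev2 (-gX) (-gY) Φ : FA k (Fin 2)) = (-1) ^ wdeg (one (Fin 2)) w * cf w Φ := by
  have e : ![(-gX : FA k (Fin 2)), -gY] = fun c => (-1 : k) ^ one (Fin 2) c • gen c := by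
    funext c
    fin_cases c <;> simp
  rw [← cf_proj (one (Fin 2)) w]
  simp only [ev2, e]
  rw [proj_ev (δ := one (Fin 2)) (fun c => Submodule.smul_mem _ _ (gen_mem_hom _ c)),
    ev_smul_of_hom _ _ _ (proj_mem_hom _ _ Φ), ev_gen_self, map_smul, cf_proj, smul_eq_mul]

theorem IsAssoc.neg_sub_mem {N : ℕ} (hN : 1 ≤ N) {Φ : FA k (Fin 2)} (h : IsAssoc N Φ) :
    (ev2 (-gX) (-gY) Φ : FA k (Fin 2)) - Φ ∈ fil (one (Fin 2)) 3 := by
  intro w hw
  rw [map_sub, cf_ev2_neg]
  obtain h0 | h0 | h0 : wdeg (one (Fin 2)) w = 0 ∨ wdeg (one (Fin 2)) w = 1 ∨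
    wdeg (one (Fin 2)) w = 2 := by omega
  · simp [h0]
  · rw [← cf_proj (one (Fin 2)) w, h0, h.proj_one hN]
    simp
  · simp [h0]

/-- A truncated polynomial extension `R' = R[s]/(s^(m+1))` of an arbitrary algebra, e.g.
`Matrix (Fin (m+1)) (Fin (m+1)) R` with `ι r` the scalar (diagonal) matrix and `s` the shift matrix,
or a quotient of `Polynomial R`. -/
theorem exists_trunc_ext (R : Type) [Ring R] [Algebra k R] (m : ℕ) :
    ∃ (R' : Type) (_ : Ring R') (_ : Algebra k R') (ι : R →ₐ[k] R') (s : R'),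
      (∀ r, Commute s (ι r)) ∧ s ^ (m + 1) = 0 ∧ ∀ r, s ^ m * ι r = 0 → r = 0 := by
  let I : TwoSidedIdeal (Polynomial R) :=
    TwoSidedIdeal.mk' {f | Polynomial.X ^ (m + 1) ∣ f} (dvd_zero _) (fun h h' => dvd_add h h')
      (fun h => dvd_neg.2 h) (fun {x y} ⟨z, hz⟩ => ⟨x * z, by
        rw [hz, ← mul_assoc, ← mul_assoc, (Polynomial.commute_X_pow x _).eq]⟩)
      (fun h => h.mul_right _)
  let π : Polynomial R →ₐ[k] I.ringCon.Quotient := RingCon.mkₐ k I.ringCon
  have hπ : ∀ f, π f = 0 ↔ Polynomial.X ^ (m + 1) ∣ f := fun f => by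
    rw [← map_zero π]
    refine (RingCon.eq I.ringCon).trans ?_
    rw [TwoSidedIdeal.rel_iff, sub_zero, TwoSidedIdeal.mem_mk']
    rfl
  refine ⟨I.ringCon.Quotient, inferInstance, inferInstance, π.comp Polynomial.CAlgHom,
    π Polynomial.X, fun r => (Polynomial.commute_X _).map π, ?_, fun r hr => ?_⟩
  · rw [← map_pow, hπ]
  · rw [AlgHom.comp_apply, ← map_pow, ← map_mul, hπ, Polynomial.X_pow_dvd_iff] at hr
    simpa [Polynomial.coeff_X_pow_mul'] using hr m (Nat.lt_succ_self m)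

/-- Evaluation at `s · ι v`. -/
theorem ev_central_mul {R R' : Type} [Ring R] [Algebra k R] [Ring R'] [Algebra k R']
    (ι : R →ₐ[k] R') (s : R') (hs : ∀ r, Commute s (ι r)) (v : σ → R) {n : ℕ} {f : FA k σ}
    (hf : f ∈ hom (one σ) n) : ev (fun c => s * ι (v c)) f = s ^ n * ι (ev v f) := by
  refine supp_induction (q := fun f => ev (fun c => s * ι (v c)) f = s ^ n * ι (ev v f)) hf
    (fun w hw => ?_) (by simp) (fun a b ha hb => ?_) (fun c a ha => ?_)
  · subst hw
    clear hf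
    induction w using basic1_word_ind with
    | one => simp
    | mul_of w c ih =>
      rw [wd_mul, wd_of, map_mul, map_mul, map_mul, ih, ev_gen, ev_gen, wdeg_mul, wdeg_of, pow_succ,
        mul_assoc, mul_assoc, ← mul_assoc s, (hs (ev v _)).eq, mul_assoc]
  · rw [map_add, map_add, map_add, ha, hb, mul_add]
  · rw [map_smul, map_smul, map_smul, ha, mul_smul_comm]

end

/-- first order comparison: `a' = a + t b` with `t a = a t = t` -/
structure ExRel {R : Type} [Ring R] (t a a' b : R) : Prop where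
  l : t * a = t
  r : a * t = t
  e : a' = a + t * b
  c : Commute t b

theorem ExRel.mul {R : Type} [Ring R] {t a₁ a₁' b₁ a₂ a₂' b₂ : R} (ht : t * t = 0)
    (h₁ : ExRel t a₁ a₁' b₁) (h₂ : ExRel t a₂ a₂' b₂) :
    ExRel t (a₁ * a₂) (a₁' * a₂') (b₁ + b₂) where
  l := by rw [← mul_assoc, h₁.l, h₂.l]
  r := by rw [mul_assoc, h₂.r, h₁.r]
  e := by
    have e1 : a₁ * (t * b₂) = t * b₂ := by rw [← mul_assoc, h₁.r]
    have e2 : t * b₁ * a₂ = t * b₁ := by rw [h₁.c.eq, mul_assoc, h₂.l]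
    have e3 : t * b₁ * (t * b₂) = 0 := by
      rw [h₁.c.eq, mul_assoc, ← mul_assoc t, ht, zero_mul, mul_zero]
    rw [h₁.e, h₂.e, add_mul, mul_add, mul_add, e1, e2, e3, mul_add]
    abel
  c := h₁.c.add_right h₂.c

section

variable {k : Type} [CommRing k] {R R' : Type} [Ring R] [Algebra k R] [Ring R'] [Algebra k R']
  {ι : R →ₐ[k] R'} {s : R'} {m : ℕ}

theorem ex_nil (hs : ∀ r, Commute s (ι r)) (h0 : s ^ (m + 1) = 0) (v : σ → R) :
    Nil m (fun c => s * ι (v c)) :=
  nil_of_ev (k := k) fun f hf => by rw [ev_central_mul ι s hs v hf, h0, zero_mul]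

theorem ex_rel (hs : ∀ r, Commute s (ι r)) (h0 : s ^ (m + 1) = 0) (v : σ → R) {Φ Φ' : FA k σ}
    (h1 : cf 1 Φ = 1) (hd : Φ' - Φ ∈ fil (one σ) m) :
    ExRel (s ^ m) (ev (fun c => s * ι (v c)) Φ) (ev (fun c => s * ι (v c)) Φ')
      (ι (ev v (proj (one σ) m (Φ' - Φ)))) := by
  have hl : s ^ m * ev (fun c => s * ι (v c)) Φ = s ^ m := by
    have h2 : s ^ m * ev (fun c => s * ι (v c)) (Φ - cf 1 Φ • 1) = 0 := by
      refine supp_induction (q := fun f => s ^ m * ev (fun c => s * ι (v c)) f = 0)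
        (ex_sub_mem Φ) (fun w hw => ?_) (by simp) (fun a b ha hb => ?_) (fun c a ha => ?_)
      · rw [ev_central_mul ι s hs v (wd_mem_hom _ w), ← mul_assoc, ← pow_add,
          pow_eq_zero_of_le (by omega) h0, zero_mul]
      · rw [map_add, mul_add, ha, hb, add_zero]
      · rw [map_smul, mul_smul_comm, ha, smul_zero]
    rwa [h1, one_smul, map_sub, map_one, mul_sub, mul_one, sub_eq_zero] at h2
  refine ⟨hl, ?_, ?_, (hs _).pow_left m⟩
  · rw [← (commute_ev (fun c => ((Commute.refl s).mul_right (hs _)).pow_left m) Φ).eq, hl]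
  · have h2 := (ex_nil hs h0 v).ev_eq_zero (sub_proj_mem_fil hd)
    rw [map_sub, map_sub, ev_central_mul ι s hs v (proj_mem_hom _ m _), sub_sub, sub_eq_zero] at h2
    exact h2

theorem ex_rel2 (hs : ∀ r, Commute s (ι r)) (h0 : s ^ (m + 1) = 0) (p q : R)
    {Φ Φ' : FA k (Fin 2)} (h1 : cf 1 Φ = 1) (hd : Φ' - Φ ∈ fil (one (Fin 2)) m) :
    ExRel (s ^ m) (ev2 (s * ι p) (s * ι q) Φ) (ev2 (s * ι p) (s * ι q) Φ')
      (ι (ev2 p q (proj (one (Fin 2)) m (Φ' - Φ)))) := by
  have e : ![s * ι p, s * ι q] = fun c => s * ι (![p, q] c) := by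
    funext c
    fin_cases c <;> rfl
  rw [ev2, e]
  exact ex_rel hs h0 _ h1 hd

end

/-- **Extraction.** In `R' = R[s]/(s^(m+1))` at `s · X` one has `Φ'_e = Φ_e + s^m ψ_e` and
`s^m Φ_e = s^m` (constant term `1`), so comparing the two pentagon (resp. group-like) identities
gives `s^m ∑_e ψ_e = 0` (resp. primitivity; note `Prim` on `Fin 2` is about `ev2`). -/
theorem IsAssoc.proj_sub_mem_Sol {N m : ℕ} (hm : 1 ≤ m) (hmN : m ≤ N) {Φ Φ' : FA K (Fin 2)}
    (h : IsAssoc N Φ) (h' : IsAssoc N Φ') (hd : Φ' - Φ ∈ fil (one (Fin 2)) m) :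
    proj (one (Fin 2)) m (Φ' - Φ) ∈ Sol K m := by
  refine ⟨⟨Prim.mem_LieS (fun R _ _ v v' hv => ?_) hm (proj_mem_hom _ m _), proj_mem_hom _ m _⟩,
    fun R _ _ X hX => ?_⟩
  all_goals
    obtain ⟨R', _, _, ι, s, hs, h0, hi⟩ := exists_trunc_ext (k := K) R m
    have ht : s ^ m * s ^ m = 0 := by rw [← pow_add, pow_eq_zero_of_le (by omega) h0]
    have hr := fun p q => ex_rel2 hs h0 p q h.cf_one hd
  · have hc : ∀ c c', Commute (s * ι (v c)) (s * ι (v' c')) := fun c c' =>
      ((Commute.refl s).mul_right (hs _)).mul_left ((hs _).symm.mul_right ((hv c c').map ι))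
    have hn : Nil N ![s * ι (v 0), s * ι (v 1), s * ι (v' 0), s * ι (v' 1)] := by
      convert (ex_nil hs h0 ![v 0, v 1, v' 0, v' 1]).mono hmN with c
      fin_cases c <;> rfl
    have e := (hr (v 0 + v' 0) (v 1 + v' 1)).e
    have e' := ((hr (v 0) (v 1)).mul ht (hr (v' 0) (v' 1))).e
    rw [map_add, map_add, mul_add, mul_add,
      h.gl R' _ _ _ _ (hc 0 0) (hc 0 1) (hc 1 0) (hc 1 1) hn,
      h'.gl R' _ _ _ _ (hc 0 0) (hc 0 1) (hc 1 0) (hc 1 1) hn, e', add_right_inj, ← sub_eq_zero,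
      ← mul_sub, ← map_add, ← map_sub] at e
    have e2 : ∀ u : Fin 2 → R, ev (k := K) u = ev2 (u 0) (u 1) := fun u => by
      congr 1
      funext c
      fin_cases c <;> rfl
    rw [e2, e2 v, e2 v']
    exact (sub_eq_zero.1 (hi _ e)).symm
  · have hX' := (hX.map ι).central_mul s fun i j => hs _
    have hn := (ex_nil hs h0 fun p : Fin 5 × Fin 5 => X p.1 p.2).mono hmN
    have e := (((((hr (X 2 3) (X 3 4)).mul ht (hr (X 4 0) (X 0 1))).mul ht
      (hr (X 1 2) (X 2 3))).mul ht (hr (X 3 4) (X 4 0))).mul ht (hr (X 0 1) (X 1 2))).e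
    have p := h.pent R' _ hX' hn
    have p' := h'.pent R' _ hX' hn
    simp only [edge] at p p'
    rw [p, p', left_eq_add, ← map_add, ← map_add, ← map_add, ← map_add] at e
    rw [← hi _ e]
    simp only [pent5, edge]
    abel

end Crest.Agent.R010
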