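import Crest.Agent.R010.Flow0
import Crest.Agent.R010.Deform
import Crest.Agent.R010.Extract

/-! # Row 10, part C: the flow of a solution acts on associators -/

set_option autoImplicit false

noncomputable section

namespace Crest.Agent.R010

variable {K : Type} [Field K] [CharZero K]

/-- `exp(∇_ψ) Φ`, truncated. -/
def flow (N : ℕ) (ψ Φ : FA K (Fin 2)) : FA K (Fin 2) := expN N (nabla ψ) Φ

/-- If `D p = ⁅p, a⁆` and `D q = ⁅q, a + ψ(p,q)⁆` then `ev2 p q` intertwines `∇_ψ` with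
`D + L_(a + ψ(p,q)) - R_a` (`IsDer.map_ev`, `derv_pair`). -/
theorem ev2_nabla {R : Type} [Ring R] [Algebra K R] {D : Module.End K R} (hD : IsDer D)
    {p q a : R} {ψ : FA K (Fin 2)} (hp : D p = ⁅p, a⁆) (hq : D q = ⁅q, a + ev2 p q ψ⁆)
    (f : FA K (Fin 2)) : ev2 p q (nabla ψ f) = tw D (a + ev2 p q ψ) a (ev2 p q f) := by
  have h1 : D (ev2 p q f) = ⁅ev2 p q f, a⁆ + ev2 p q (Dih ψ f) := by
    rw [hD.map_ev, ← derv_pair]
    congr 2
    funext c
    fin_cases c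
    · exact hp
    · exact hq
  rw [nabla_apply, map_add, map_mul, tw_apply, h1, lie_def']
  noncomm_ring

theorem ev2_flow {R : Type} [Ring R] [Algebra K R] {N : ℕ} {D : Module.End K R} (hD : IsDer D)
    {p q a : R} {ψ : FA K (Fin 2)} (hp : D p = ⁅p, a⁆) (hq : D q = ⁅q, a + ev2 p q ψ⁆)
    (Φ : FA K (Fin 2)) :
    ev2 p q (flow N ψ Φ) = expN N (tw D (a + ev2 p q ψ) a) (ev2 p q Φ) :=
  expN_intertwine N (ev2 (k := K) p q).toLinearMap (fun f => ev2_nabla hD hp hq f) Φ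

theorem flow_exists_nodup : ∀ i j : Fin 5, i ≠ j → ∃ s l n : Fin 5, [i, j, s, l, n].Nodup := by
  decide

theorem flow_commute_lie {R : Type} [Ring R] {z p q : R} (hp : Commute z p) (hq : Commute z q) :
    Commute z ⁅p, q⁆ :=
  (hp.mul_right hq).sub_right (hq.mul_right hp)

theorem flow_commute_dual {R : Type} [Ring R] {p p' q q' : R} (h : Commute p q)
    (h₁ : Commute p q') (h₂ : Commute p' q) :
    Commute (TrivSqZeroExt.inl p + TrivSqZeroExt.inr p' : TrivSqZeroExt R R)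
      (TrivSqZeroExt.inl q + TrivSqZeroExt.inr q') := by
  refine TrivSqZeroExt.ext ?_ ?_
  · simp [h.eq]
  · simp [h₁.eq, h₂.eq, add_comm]

theorem flow_pent_core {N : ℕ} {ψ Φ : FA K (Fin 2)} (h : IsAssoc N Φ) {U : Type} [Ring U]
    [Algebra K U] {Y : Fin 5 → Fin 5 → U} (hY : IsT5 Y)
    (hNu : Nil N (fun p : Fin 5 × Fin 5 => Y p.1 p.2))
    (hsurj : Function.Surjective (ev (k := K) (fun p : Fin 5 × Fin 5 => Y p.1 p.2)))
    {a : Fin 5 → Fin 5 → Fin 5 → Fin 5 → U} {d : Fin 5 → Fin 5 → U} (hpot : IsPot ψ Y a d)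
    (ha : ∀ i j l n, a i j l n ∈ filR K (fun p : Fin 5 × Fin 5 => Y p.1 p.2) 1)
    {D : Module.End K U} (hD : IsDer D)
    (hDf : ∀ j, ∀ x ∈ filR K (fun p : Fin 5 × Fin 5 => Y p.1 p.2) j,
      D x ∈ filR K (fun p : Fin 5 × Fin 5 => Y p.1 p.2) (j + 1))
    (hDu : ∀ i j, D (Y i j) = d i j) :
    edge (flow N ψ Φ) Y 2 3 4 * edge (flow N ψ Φ) Y 4 0 1 * edge (flow N ψ Φ) Y 1 2 3 *
      edge (flow N ψ Φ) Y 3 4 0 * edge (flow N ψ Φ) Y 0 1 2 = 1 := by
  have hedge : ∀ i j s l n : Fin 5, [i, j, s, l, n].Nodup → [j, s, i, l, n].Nodup →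
      edge (flow N ψ Φ) Y i j s = expN N (tw D (a j s l n) (a i j l n)) (edge Φ Y i j s) := by
    intro i j s l n h1 h2
    have hs := hpot.step _ _ _ _ _ h1
    rw [hs]
    refine ev2_flow hD ?_ ?_ Φ
    · rw [hDu]; exact hpot.eq _ _ _ _ _ h1
    · rw [hDu]
      have := hpot.eq _ _ _ _ _ h2
      rw [hs] at this
      exact this
  have e1 := hedge 0 1 2 3 4 (by decide) (by decide)
  have e2 := hedge 3 4 0 1 2 (by decide) (by decide)
  have e3 := hedge 1 2 3 4 0 (by decide) (by decide)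
  have e4 := hedge 4 0 1 2 3 (by decide) (by decide)
  have e5 := hedge 2 3 4 0 1 (by decide) (by decide)
  rw [hpot.flip 1 2 0 3 4 (by decide)] at e2
  rw [hpot.flip 4 0 3 1 2 (by decide)] at e3
  rw [hpot.flip 2 3 1 4 0 (by decide)] at e4
  rw [hpot.flip 0 1 4 2 3 (by decide), hpot.flip 0 1 2 3 4 (by decide)] at e5
  have hp := h.pent U Y hY hNu
  generalize edge Φ Y 2 3 4 = z5 at e5 hp
  generalize edge Φ Y 4 0 1 = z4 at e4 hp
  generalize edge Φ Y 1 2 3 = z3 at e3 hp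
  generalize edge Φ Y 3 4 0 = z2 at e2 hp
  generalize edge Φ Y 0 1 2 = z1 at e1 hp
  have f1 := expN_tw_mul hNu hsurj hD hDf (ha 0 1 3 4) (ha 0 1 2 3) (ha 2 3 4 0) z5 z4
  have f2 := expN_tw_mul hNu hsurj hD hDf (ha 0 1 3 4) (ha 2 3 4 0) (ha 4 0 1 2) (z5 * z4) z3
  have f3 := expN_tw_mul hNu hsurj hD hDf (ha 0 1 3 4) (ha 4 0 1 2) (ha 1 2 3 4)
    (z5 * z4 * z3) z2
  have f4 := expN_tw_mul hNu hsurj hD hDf (ha 0 1 3 4) (ha 1 2 3 4) (ha 0 1 3 4)
    (z5 * z4 * z3 * z2) z1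
  rw [e1, e2, e3, e4, e5, ← f1, ← f2, ← f3, ← f4, hp]
  refine expN_apply_of_eq_zero N ?_
  rw [tw_apply, hD.map_one]
  simp

/-- Work in the universal nilpotent five-strand algebra (`exists_universal_rel` on
`Fin 5 × Fin 5` with the relations of `IsT5`), get `D` from `IsPot.isT5`, `Nil.dual`,
`exists_der_of_dual`; each edge `e : v → v'` of the flow is `expN (tw D a_v' a_v) Φ_e`
(`ev2_nabla`, `expN_intertwine`); multiply with `expN_tw_mul` along
`{01|34} → {12|34} → {40|12} → {23|40} → {01|23} → {34|01}`, and `tw D a a 1 = 0`. -/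
theorem flow_pent {N m : ℕ} (hm : 3 ≤ m) {ψ Φ : FA K (Fin 2)} (hψ : ψ ∈ Sol K m)
    (h : IsAssoc N Φ) (R : Type) [Ring R] [Algebra K R] (X : Fin 5 → Fin 5 → R) (hX : IsT5 X)
    (hN : Nil N (fun p : Fin 5 × Fin 5 => X p.1 p.2)) :
    edge (flow N ψ Φ) X 2 3 4 * edge (flow N ψ Φ) X 4 0 1 * edge (flow N ψ Φ) X 1 2 3 *
      edge (flow N ψ Φ) X 3 4 0 * edge (flow N ψ Φ) X 0 1 2 = 1 := by
  obtain ⟨U, _, _, u, hNu, hrel, hsurj, huniv⟩ := exists_universal_rel K (Fin 5 × Fin 5) N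
    {r | ∀ (S : Type) [Ring S] [Algebra K S] (Y : Fin 5 → Fin 5 → S), IsT5 Y →
      ev (fun p : Fin 5 × Fin 5 => Y p.1 p.2) r = 0}
  obtain ⟨Y, rfl⟩ : ∃ Y : Fin 5 → Fin 5 → U, u = fun p => Y p.1 p.2 :=
    ⟨fun i j => u (i, j), rfl⟩
  have hY : IsT5 Y := by
    refine ⟨fun i j => ?_, fun i => ?_, fun i j a b h1 h2 h3 h4 h5 h6 => ?_, fun i => ?_⟩
    · have := hrel (gen (i, j) - gen (j, i)) fun S _ _ Y hY => by
        simp [hY.symm i j]
      simpa [sub_eq_zero] using this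
    · have := hrel (gen (i, i)) fun S _ _ Y hY => by simp [hY.diag i]
      simpa using this
    · have := hrel (gen (i, j) * gen (a, b) - gen (a, b) * gen (i, j)) fun S _ _ Y hY => by
        simp [(hY.comm i j a b h1 h2 h3 h4 h5 h6).eq]
      simpa [sub_eq_zero, commute_iff_eq] using this
    · have := hrel (∑ j, gen (i, j)) fun S _ _ Y hY => by simp [map_sum, hY.sum i]
      simpa [map_sum] using this
  obtain ⟨a, d, hpot⟩ := exists_isPot hm hψ hY
  have hψ1 : ψ ∈ fil (one (Fin 2)) 1 := LieS_le_fil_one hψ.1.1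
  have hself : ∀ i j, Y i j ∈ filR K (fun p : Fin 5 × Fin 5 => Y p.1 p.2) 1 := fun i j =>
    self_mem_filR (fun p : Fin 5 × Fin 5 => Y p.1 p.2) (i, j)
  have ha : ∀ i j l n, a i j l n ∈ filR K (fun p : Fin 5 × Fin 5 => Y p.1 p.2) 1 :=
    fun i j l n => by
    refine Submodule.span_le.2 ?_ (hpot.mem i j l n)
    rintro _ ⟨i', j', s', rfl⟩
    refine ev_mem_filR (fun c => ?_) hψ1
    fin_cases c
    · exact hself _ _
    · exact hself _ _
  have hd : ∀ i j, d i j ∈ filR K (fun p : Fin 5 × Fin 5 => Y p.1 p.2) 2 := fun i j => by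
    by_cases hc : i = j
    · rw [hc, hpot.diag]; exact zero_mem _
    · obtain ⟨s, l, n, hnd⟩ := flow_exists_nodup i j hc
      rw [hpot.eq _ _ _ _ _ hnd, lie_def']
      exact sub_mem (mul_mem_filR (hself i j) (ha i j l n))
        (mul_mem_filR (ha i j l n) (hself i j))
  have hdual := hpot.isT5 hm hψ hY
  have hNd := hNu.dual (k := K) (d := fun p => d p.1 p.2)
    fun c => filR_anti _ (show 1 ≤ 2 by norm_num) (hd c.1 c.2)
  obtain ⟨φ, hφ⟩ := huniv (TrivSqZeroExt U U) _ hNd (fun r hr => by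
    have h1 := hr (TrivSqZeroExt U U) _ hdual
    exact h1)
  obtain ⟨D, hD, hDu, hDf⟩ := exists_der_of_dual (d := fun p => d p.1 p.2) hsurj φ hφ
    (fun c => hd c.1 c.2)
  have hU := flow_pent_core h hY hNu hsurj hpot ha hD hDf (fun i j => hDu (i, j))
  obtain ⟨π, hπ⟩ := huniv R (fun p => X p.1 p.2) hN (fun r hr => hr R X hX)
  have hπ' : ∀ i j, π (Y i j) = X i j := fun i j => hπ (i, j)
  have := congrArg π hU
  simpa only [map_mul, map_one, edge, map_ev2, hπ'] using this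

/-- Universal algebra on `x₁, y₁, x₂, y₂` with the four commutation relations; `D` kills `x_i` and
sends `y_i ↦ ⁅y_i, ψ_i⁆`, `ψ_i = ψ(x_i,y_i)`; `ψ(x₁+x₂,y₁+y₂) = ψ₁ + ψ₂` (`prim_of_LieS`).
Use `ev2_nabla` with `a = 0` for the sum and for index `2`, with `a = ψ₂` for index `1`, and
`expN_tw_mul` with `(a,b,c) = (ψ₂ + ψ₁, ψ₂, 0)`. -/
theorem flow_gl {N : ℕ} {ψ Φ : FA K (Fin 2)} (hψ : ψ ∈ LieS K (Fin 2)) (h : IsAssoc N Φ)
    (R : Type) [Ring R] [Algebra K R] (x₁ y₁ x₂ y₂ : R) (c₁ : Commute x₁ x₂) (c₂ : Commute x₁ y₂)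
    (c₃ : Commute y₁ x₂) (c₄ : Commute y₁ y₂) (hN : Nil N ![x₁, y₁, x₂, y₂]) :
    ev2 (x₁ + x₂) (y₁ + y₂) (flow N ψ Φ) = ev2 x₁ y₁ (flow N ψ Φ) * ev2 x₂ y₂ (flow N ψ Φ) := by
  obtain ⟨U, _, _, u, hNu, hrel, hsurj, huniv⟩ := exists_universal_rel K (Fin 4) N
    {r | ∀ (S : Type) [Ring S] [Algebra K S] (v : Fin 4 → S), Commute (v 0) (v 2) →
      Commute (v 0) (v 3) → Commute (v 1) (v 2) → Commute (v 1) (v 3) → ev v r = 0}
  have d₁ : Commute (u 0) (u 2) := by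
    have := hrel (gen 0 * gen 2 - gen 2 * gen 0) fun S _ _ v h1 _ _ _ => by simp [h1.eq]
    simpa [sub_eq_zero, commute_iff_eq] using this
  have d₂ : Commute (u 0) (u 3) := by
    have := hrel (gen 0 * gen 3 - gen 3 * gen 0) fun S _ _ v _ h1 _ _ => by simp [h1.eq]
    simpa [sub_eq_zero, commute_iff_eq] using this
  have d₃ : Commute (u 1) (u 2) := by
    have := hrel (gen 1 * gen 2 - gen 2 * gen 1) fun S _ _ v _ _ h1 _ => by simp [h1.eq]
    simpa [sub_eq_zero, commute_iff_eq] using this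
  have d₄ : Commute (u 1) (u 3) := by
    have := hrel (gen 1 * gen 3 - gen 3 * gen 1) fun S _ _ v _ _ _ h1 => by simp [h1.eq]
    simpa [sub_eq_zero, commute_iff_eq] using this
  have hψ1 : ψ ∈ fil (one (Fin 2)) 1 := LieS_le_fil_one hψ
  set ψ₁ : U := ev2 (u 0) (u 1) ψ with hψ₁
  set ψ₂ : U := ev2 (u 2) (u 3) ψ with hψ₂
  have m₁ : ψ₁ ∈ filR K u 1 := by
    refine ev_mem_filR (fun c => ?_) hψ1
    fin_cases c
    · exact self_mem_filR u _
    · exact self_mem_filR u _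
  have m₂ : ψ₂ ∈ filR K u 1 := by
    refine ev_mem_filR (fun c => ?_) hψ1
    fin_cases c
    · exact self_mem_filR u _
    · exact self_mem_filR u _
  have k₀ : Commute (u 0) ψ₂ := commute_ev (fun c => by
    fin_cases c
    · exact d₁
    · exact d₂) ψ
  have k₁ : Commute (u 1) ψ₂ := commute_ev (fun c => by
    fin_cases c
    · exact d₃
    · exact d₄) ψ
  have k₂ : Commute (u 2) ψ₁ := commute_ev (fun c => by
    fin_cases c
    · exact d₁.symm
    · exact d₃.symm) ψ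
  have k₃ : Commute (u 3) ψ₁ := commute_ev (fun c => by
    fin_cases c
    · exact d₂.symm
    · exact d₄.symm) ψ
  let d : Fin 4 → U := ![0, ⁅u 1, ψ₁⁆, 0, ⁅u 3, ψ₂⁆]
  have hd : ∀ c, d c ∈ filR K u 2 := fun c => by
    fin_cases c
    · exact zero_mem _
    · exact sub_mem (mul_mem_filR (self_mem_filR u _) m₁) (mul_mem_filR m₁ (self_mem_filR u _))
    · exact zero_mem _
    · exact sub_mem (mul_mem_filR (self_mem_filR u _) m₂) (mul_mem_filR m₂ (self_mem_filR u _))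
  obtain ⟨φ, hφ⟩ := huniv (TrivSqZeroExt U U)
    (fun c => TrivSqZeroExt.inl (u c) + TrivSqZeroExt.inr (d c))
    (hNu.dual (k := K) fun c => filR_anti u (by norm_num) (hd c))
    (fun r hr => hr _ _
      (flow_commute_dual d₁ (Commute.zero_right _) (Commute.zero_left _))
      (flow_commute_dual d₂ (flow_commute_lie d₂ k₀) (Commute.zero_left _))
      (flow_commute_dual d₃ (Commute.zero_right _) (flow_commute_lie d₃.symm k₂).symm)
      (flow_commute_dual d₄ (flow_commute_lie d₄ k₁) (flow_commute_lie d₄.symm k₃).symm))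
  obtain ⟨D, hD, hDu, hDf⟩ := exists_der_of_dual hsurj φ hφ hd
  have D0 : D (u 0) = 0 := hDu 0
  have D1 : D (u 1) = ⁅u 1, ψ₁⁆ := hDu 1
  have D2 : D (u 2) = 0 := hDu 2
  have D3 : D (u 3) = ⁅u 3, ψ₂⁆ := hDu 3
  have hsum : ev2 (u 0 + u 2) (u 1 + u 3) ψ = ψ₁ + ψ₂ := by
    have := prim_of_LieS hψ U ![u 0, u 1] ![u 2, u 3] fun c c' => by
      fin_cases c <;> fin_cases c'
      · exact d₁
      · exact d₂
      · exact d₃
      · exact d₄
    rw [← this]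
    refine ev_congr (fun c => ?_) ψ
    fin_cases c <;> rfl
  have e0 := ev2_flow (N := N) (ψ := ψ) (p := u 0 + u 2) (q := u 1 + u 3) (a := 0) hD
    (by rw [map_add, D0, D2, lie_def']; simp)
    (by
      rw [map_add, D1, D3, hsum]
      simp only [lie_def', zero_add, mul_add, add_mul, k₁.eq, k₃.eq]
      abel) Φ
  have e1 := ev2_flow (N := N) (ψ := ψ) (p := u 0) (q := u 1) (a := ψ₂) hD
    (by rw [D0, lie_def', k₀.eq, sub_self])
    (by
      rw [D1, ← hψ₁]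
      simp only [lie_def', mul_add, add_mul, k₁.eq]
      abel) Φ
  have e2 := ev2_flow (N := N) (ψ := ψ) (p := u 2) (q := u 3) (a := 0) hD
    (by rw [D2, lie_def']; simp)
    (by rw [D3, ← hψ₂, zero_add]) Φ
  rw [hsum, zero_add, add_comm ψ₁] at e0
  rw [← hψ₁] at e1
  rw [← hψ₂, zero_add] at e2
  have hNu' : Nil N ![u 0, u 1, u 2, u 3] := by
    have : ![u 0, u 1, u 2, u 3] = u := by
      funext c
      fin_cases c <;> rfl
    rwa [this]
  have hU : ev2 (u 0 + u 2) (u 1 + u 3) (flow N ψ Φ) =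
      ev2 (u 0) (u 1) (flow N ψ Φ) * ev2 (u 2) (u 3) (flow N ψ Φ) := by
    rw [e0, e1, e2, h.gl U _ _ _ _ d₁ d₂ d₃ d₄ hNu']
    exact expN_tw_mul hNu hsurj hD hDf (add_mem m₂ m₁) m₂ (zero_mem _) _ _
  obtain ⟨π, hπ⟩ := huniv R ![x₁, y₁, x₂, y₂] hN (fun r hr => hr R _ c₁ c₂ c₃ c₄)
  have := congrArg π hU
  simp only [map_mul, map_add, map_ev2, hπ] at this
  exact this

/-- If `p, q` commute then `ψ(p,q) = 0` and `ev2 p q ∘ ∇_ψ = 0`. -/
theorem ev2_flow_of_commute {N : ℕ} {ψ Φ : FA K (Fin 2)} (hψ : ψ ∈ LieD K (Fin 2)) {R : Type}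
    [Ring R] [Algebra K R] {p q : R} (h : Commute p q) :
    ev2 p q (flow N ψ Φ) = ev2 p q Φ := by
  have h0 : ev2 p q ψ = 0 := ev2_eq_zero_of_commute h hψ
  have e := ev2_flow (N := N) (ψ := ψ) (p := p) (q := q) (a := 0) (D := 0) IsDer.zero
    (by simp [lie_def']) (by simp [lie_def', h0]) Φ
  rw [e]
  refine expN_apply_of_eq_zero N ?_
  rw [tw_apply, h0]
  simp

theorem IsAssoc.flow {N m : ℕ} (hm : 3 ≤ m) {ψ Φ : FA K (Fin 2)} (hψ : ψ ∈ Sol K m)
    (h : IsAssoc N Φ) : IsAssoc N (flow N ψ Φ) where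
  gl R _ _ x₁ y₁ x₂ y₂ c₁ c₂ c₃ c₄ hN := flow_gl hψ.1.1 h R x₁ y₁ x₂ y₂ c₁ c₂ c₃ c₄ hN
  pent R _ _ X hX hN := flow_pent hm hψ h R X hX hN
  nx R _ _ x hx := by
    rw [ev2_flow_of_commute (mem_LieD_of_LieW hψ.1 (by omega)) (Commute.zero_right x)]
    exact h.nx R x hx
  ny R _ _ y hy := by
    rw [ev2_flow_of_commute (mem_LieD_of_LieW hψ.1 (by omega)) (Commute.zero_left y)]
    exact h.ny R y hy

/-- `∇_ψ Φ = ψ + ∇_ψ (Φ - 1)`. -/
theorem flow_sub_mem {N m : ℕ} (hN : 1 ≤ N) (hm : 1 ≤ m) {ψ Φ : FA K (Fin 2)}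
    (hψ : ψ ∈ hom (one (Fin 2)) m) (h1 : cf 1 Φ = 1) :
    flow N ψ Φ - Φ - ψ ∈ fil (one (Fin 2)) (m + 1) := by
  obtain ⟨N, rfl⟩ : ∃ M, N = M + 1 := ⟨N - 1, by omega⟩
  have hψ' : ψ ∈ fil (one (Fin 2)) m := mem_fil_of_hom hψ le_rfl
  have hΦ : Φ - 1 ∈ fil (one (Fin 2)) 1 := by
    rw [mem_fil_one_iff, map_sub, h1, ← wd_one, cf_wd_self, sub_self]
  have h2 : nabla ψ Φ - ψ ∈ fil (one (Fin 2)) (m + 1) := by
    have := nabla_mem_fil hψ' hΦ
    rwa [map_sub, nabla_one, add_comm] at this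
  have h3 : ∀ j : ℕ, (nabla ψ ^ (j + 1 + 1)) Φ ∈ fil (one (Fin 2)) (m + 1) := fun j => by
    rw [pow_succ', pow_succ', Module.End.mul_apply, Module.End.mul_apply]
    have h4 := nabla_mem_fil hψ' (nabla_mem_fil hψ' (mem_fil_zero _ ((nabla ψ ^ j) Φ)))
    exact fil_anti (one (Fin 2)) (show m + 1 ≤ 0 + m + m by omega) h4
  rw [flow, expN, Finset.sum_range_succ', Finset.sum_range_succ']
  simp only [LinearMap.add_apply, LinearMap.sum_apply, LinearMap.smul_apply, zero_add, pow_one,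
    pow_zero, Nat.factorial_one, Nat.factorial_zero, Nat.cast_one, inv_one, one_smul,
    Module.End.one_apply]
  rw [add_sub_cancel_right, add_sub_assoc]
  exact add_mem (Submodule.sum_mem _ fun j _ => Submodule.smul_mem _ _ (h3 j)) h2

/-- Write `Φ = 1 + Φ₀ + Φ₊` with `Φ₀` of length `> N` and `Φ₊` of depth `≥ 1`
(`IsAssoc.proj_dep_zero`); `∇_ψ` raises depth by one (`mem_fil_dep_one`, `nabla_mem_fil`); the word
`x^(N-1) y` has depth one and length `N ≠ m`. -/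
theorem cf_flow {N m : ℕ} (hm : 2 ≤ m) (hmN : m < N) {ψ Φ : FA K (Fin 2)}
    (hψ : ψ ∈ LieW K (one (Fin 2)) m) (h : IsAssoc N Φ) :
    cf (wXY N) (flow N ψ Φ) = cf (wXY N) Φ := by
  have hψd : ψ ∈ fil dep 1 := mem_fil_dep_one (mem_LieD_of_LieW hψ hm)
  have hw1 : wdeg dep (wXY N) = 1 := by simp [wXY, wdeg_pow, dep]
  have hw2 : wdeg (one (Fin 2)) (wXY N) = N := by
    simp only [wXY, wdeg_mul, wdeg_pow, wdeg_of, one]
    omega
  have hpow : ∀ (δ : Fin 2 → ℕ) (n j : ℕ) (f : FA K (Fin 2)), f ∈ fil δ n →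
      (nabla ψ ^ j) f ∈ fil δ n := fun δ n j f hf => by
    induction j with
    | zero => simpa using hf
    | succ j ih =>
      rw [pow_succ']
      exact nabla_mem_fil (mem_fil_zero δ ψ) ih
  have hA : ∀ j : ℕ, cf (wXY N) ((nabla ψ ^ (j + 1)) (1 : FA K (Fin 2))) = 0 := fun j => by
    rw [pow_succ, Module.End.mul_apply, nabla_one]
    cases j with
    | zero => exact hψ.2 _ (by simp only [hw2]; omega)
    | succ j =>
      rw [pow_succ, Module.End.mul_apply]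
      exact hpow dep _ j _ (nabla_mem_fil hψd hψd) _ (by simp only [hw1]; omega)
  have hB : ∀ j : ℕ, cf (wXY N) ((nabla ψ ^ (j + 1)) (proj dep 0 Φ - 1)) = 0 := fun j =>
    hpow _ _ (j + 1) _ h.proj_dep_zero _ (by simp only [hw2]; omega)
  have hC : ∀ j : ℕ, cf (wXY N) ((nabla ψ ^ (j + 1)) (Φ - proj dep 0 Φ)) = 0 := fun j => by
    rw [pow_succ, Module.End.mul_apply]
    exact hpow dep _ j _ (nabla_mem_fil hψd (sub_proj_mem_fil (mem_fil_zero dep Φ))) _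
      (by simp only [hw1]; omega)
  have hD : ∀ j : ℕ, cf (wXY N) ((nabla ψ ^ (j + 1)) Φ) = 0 := fun j => by
    have e : Φ = 1 + (proj dep 0 Φ - 1) + (Φ - proj dep 0 Φ) := by abel
    rw [e, map_add, map_add, map_add, map_add, hA, hB, hC]
    simp
  rw [flow, expN, Finset.sum_range_succ']
  simp [map_sum, hD]

end Crest.Agent.R010
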