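import Crest.Agent.R010.Basic4

/-! # Row 10, part C: universal nilpotent algebras with relations, truncated exponentials -/

set_option autoImplicit false
set_option linter.unusedSectionVars false

noncomputable section

namespace Crest.Agent.R010

variable {K : Type} [Field K] [CharZero K] {σ : Type}

/-- The universal `N`-nilpotent family satisfying the relations `Rel`
(quotient of `FA k σ` by the two-sided ideal generated by `Rel` and the words of length `N+1`). -/
theorem exists_universal_rel (k σ : Type) [CommRing k] (N : ℕ) (Rel : Set (FA k σ)) :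
    ∃ (U : Type) (_ : Ring U) (_ : Algebra k U) (u : σ → U), Nil N u ∧
      (∀ r ∈ Rel, ev u r = 0) ∧ Function.Surjective (ev (k := k) u) ∧
      ∀ (R : Type) [Ring R] [Algebra k R] (v : σ → R), Nil N v → (∀ r ∈ Rel, ev v r = 0) →
        ∃ φ : U →ₐ[k] R, ∀ c, φ (u c) = v c := by
  let S : Set (FA k σ) := Rel ∪ (fil (one σ) (N + 1) : Submodule k (FA k σ))
  let c := (TwoSidedIdeal.span S).ringCon
  let π : FA k σ →ₐ[k] c.Quotient := RingCon.mkₐ k c
  let u : σ → c.Quotient := fun s => π (gen s)
  have hπ : ev (k := k) u = π := (algHom_eq_ev π).symm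
  have hc : ∀ f g : FA k σ, c f g ↔ f - g ∈ TwoSidedIdeal.span S := fun f g =>
    TwoSidedIdeal.rel_iff _ f g
  have hker : ∀ f : FA k σ, f ∈ S → ev u f = 0 := fun f hf => by
    rw [hπ, ← map_zero π]
    refine (RingCon.eq c).2 ?_
    rw [hc, sub_zero]
    exact TwoSidedIdeal.subset_span hf
  have hsurj : Function.Surjective (ev (k := k) u) := by
    rw [hπ]; exact RingCon.mkₐ_surjective c
  have hnil : Nil N u :=
    nil_of_ev (k := k) fun f hf => hker f (Or.inr (mem_fil_of_hom hf le_rfl))
  refine ⟨c.Quotient, inferInstance, inferInstance, u, hnil, fun r hr => hker r (Or.inl hr), hsurj,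
    fun R _ _ v hv hR => ?_⟩
  have hle : TwoSidedIdeal.span S ≤ TwoSidedIdeal.ker (ev (k := k) v) := by
    rw [TwoSidedIdeal.span_le]
    rintro f (hf | hf)
    · exact (TwoSidedIdeal.mem_ker _).2 (hR f hf)
    · exact (TwoSidedIdeal.mem_ker _).2 (hv.ev_eq_zero hf)
  refine ⟨RingCon.liftₐ c (ev (k := k) v) fun f g hfg => ?_, fun s => ?_⟩
  · have := (TwoSidedIdeal.mem_ker _).1 (hle ((hc f g).1 hfg))
    rw [map_sub, sub_eq_zero] at this
    exact this
  · exact ev_gen v s

theorem derv_mem_filR {k : Type} [CommRing k] {R : Type} [Ring R] [Algebra k R] {u d : σ → R}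
    {e : ℕ} (hd : ∀ c, d c ∈ filR k u (1 + e)) {j : ℕ} {f : FA k σ} (hf : f ∈ fil (one σ) j) :
    derv u d f ∈ filR k u (j + e) := by
  choose g hg hg' using hd
  have hd' : d = fun c => ev u (g c) := funext fun c => (hg' c).symm
  refine ⟨der g f, (isDer_der g).mem_fil (δ := one σ) (fun c => ?_) hf, ?_⟩
  · rw [der_gen]; exact hg c
  · change ev u (der g f) = _
    rw [ev_der, hd']

/-- First-order deformations of a nilpotent family by elements of order `≥ 1` are nilpotent. -/
theorem Nil.dual {k : Type} [CommRing k] {R : Type} [Ring R] [Algebra k R] {N : ℕ} {u : σ → R}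
    (h : Nil N u) {d : σ → R} (hd : ∀ c, d c ∈ filR k u 1) :
    Nil N (fun c => (TrivSqZeroExt.inl (u c) + TrivSqZeroExt.inr (d c) : TrivSqZeroExt R R)) := by
  refine nil_of_ev (k := k) fun f hf => ?_
  have hf' : f ∈ fil (one σ) (N + 1) := mem_fil_of_hom hf le_rfl
  have h2 : derv u d f ∈ filR k u (N + 1 + 0) := derv_mem_filR (e := 0) hd hf'
  rw [add_zero, h.filR_eq_bot, Submodule.mem_bot] at h2
  rw [ev_dual, h.ev_eq_zero hf', h2]
  simp

/-- An algebra map `U → U[ε]` sending `u c ↦ u c + ε d c` gives a derivation; if the `d c` have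
order `≥ 2` it raises the order. -/
theorem exists_der_of_dual {k : Type} [CommRing k] {U : Type} [Ring U] [Algebra k U] {u d : σ → U}
    (hsurj : Function.Surjective (ev (k := k) u)) (φ : U →ₐ[k] TrivSqZeroExt U U)
    (hφ : ∀ c, φ (u c) = TrivSqZeroExt.inl (u c) + TrivSqZeroExt.inr (d c))
    (hd : ∀ c, d c ∈ filR k u 2) :
    ∃ D : Module.End k U, IsDer D ∧ (∀ c, D (u c) = d c) ∧
      ∀ j, ∀ x ∈ filR k u j, D x ∈ filR k u (j + 1) := by
  have hev : ∀ f : FA k σ, φ (ev u f) =
      TrivSqZeroExt.inl (ev u f) + TrivSqZeroExt.inr (derv u d f) := fun f => by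
    rw [map_ev, ← ev_dual]
    exact ev_congr hφ f
  let D : Module.End k U := (TrivSqZeroExt.sndHom U U).restrictScalars k ∘ₗ φ.toLinearMap
  have hD : ∀ f : FA k σ, D (ev u f) = derv u d f := fun f => by
    change (φ (ev u f)).snd = _
    rw [hev]; simp
  refine ⟨D, fun a b => ?_, fun c => ?_, fun j x hx => ?_⟩
  · obtain ⟨f, rfl⟩ := hsurj a
    obtain ⟨g, rfl⟩ := hsurj b
    rw [← map_mul, hD, hD, hD, derv_mul]
  · rw [← ev_gen (k := k) u c, hD, derv_gen]
  · obtain ⟨f, hf, rfl⟩ := hx
    change D (ev u f) ∈ _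
    rw [hD]
    exact derv_mem_filR (e := 1) hd hf

/-- The truncated exponential. -/
def expN {V : Type} [AddCommGroup V] [Module K V] (N : ℕ) (A : Module.End K V) : Module.End K V :=
  ∑ j ∈ Finset.range (N + 1), ((j.factorial : K)⁻¹) • A ^ j

theorem expN_apply_of_eq_zero {V : Type} [AddCommGroup V] [Module K V] (N : ℕ)
    {A : Module.End K V} {x : V} (h : A x = 0) : expN N A x = x := by
  rw [expN, Finset.sum_range_succ', LinearMap.add_apply, LinearMap.sum_apply,
    Finset.sum_eq_zero]
  · simp
  · intro j _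
    rw [LinearMap.smul_apply, pow_succ, Module.End.mul_apply, h, map_zero, smul_zero]

theorem expN_intertwine {V W : Type} [AddCommGroup V] [Module K V] [AddCommGroup W] [Module K W]
    (N : ℕ) (π : V →ₗ[K] W) {A : Module.End K V} {B : Module.End K W}
    (h : ∀ x, π (A x) = B (π x)) (x : V) : π (expN N A x) = expN N B (π x) := by
  have hp : ∀ j : ℕ, π ((A ^ j) x) = (B ^ j) (π x) := fun j => by
    induction j with
    | zero => simp
    | succ j ih => rw [pow_succ', pow_succ', Module.End.mul_apply, Module.End.mul_apply, h, ih]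
  simp only [expN, LinearMap.sum_apply, LinearMap.smul_apply, map_sum, map_smul, hp]

/-- `D + L_a - R_b`. -/
def tw {R : Type} [Ring R] [Algebra K R] (D : Module.End K R) (a b : R) : Module.End K R :=
  D + Lm a - Rm b

theorem tw_apply {R : Type} [Ring R] [Algebra K R] (D : Module.End K R) (a b x : R) :
    tw D a b x = D x + a * x - x * b := by
  simp [tw]

theorem tw_mul {R : Type} [Ring R] [Algebra K R] {D : Module.End K R} (hD : IsDer D)
    (a b c x y : R) : tw D a c (x * y) = tw D a b x * y + x * tw D b c y := by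
  rw [tw_apply, tw_apply, tw_apply, hD]
  noncomm_ring

theorem pow_apply_mul_of_leibniz {R : Type} [Ring R] [Algebra K R] {A B C : Module.End K R}
    (h : ∀ x y, C (x * y) = A x * y + x * B y) (n : ℕ) (x y : R) :
    (C ^ n) (x * y) = ∑ p ∈ Finset.HasAntidiagonal.antidiagonal n, n.choose p.1 • ((A ^ p.1) x * (B ^ p.2) y) := by
  induction n with
  | zero => simp
  | succ n ih =>
    rw [pow_succ', Module.End.mul_apply, ih, map_sum,
      Finset.sum_antidiagonal_choose_succ_nsmul (fun i j => (A ^ i) x * (B ^ j) y),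
      ← Finset.sum_add_distrib]
    refine Finset.sum_congr rfl fun p hp => ?_
    have hp' : n.choose p.2 = n.choose p.1 := by
      rw [Finset.HasAntidiagonal.mem_antidiagonal] at hp
      exact (Nat.choose_symm_of_eq_add hp.symm).symm
    rw [map_nsmul, h, hp', pow_succ', pow_succ', Module.End.mul_apply, Module.End.mul_apply,
      smul_add, add_comm]

theorem pow_apply_mem_filR {R : Type} [Ring R] [Algebra K R] {u : σ → R}
    (hsurj : Function.Surjective (ev (k := K) u)) {A : Module.End K R}
    (hA : ∀ j, ∀ x ∈ filR K u j, A x ∈ filR K u (j + 1)) (n : ℕ) (x : R) :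
    (A ^ n) x ∈ filR K u n := by
  induction n with
  | zero =>
    obtain ⟨f, rfl⟩ := hsurj x
    exact ⟨f, mem_fil_zero _ _, rfl⟩
  | succ n ih => rw [pow_succ', Module.End.mul_apply]; exact hA _ _ ih

theorem tw_mem_filR {R : Type} [Ring R] [Algebra K R] {u : σ → R} {D : Module.End K R}
    (hDf : ∀ j, ∀ x ∈ filR K u j, D x ∈ filR K u (j + 1)) {a b : R} (ha : a ∈ filR K u 1)
    (hb : b ∈ filR K u 1) (j : ℕ) (x : R) (hx : x ∈ filR K u j) :
    tw D a b x ∈ filR K u (j + 1) := by
  rw [tw_apply]
  refine sub_mem (add_mem (hDf j x hx) ?_) (mul_mem_filR hx hb)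
  rw [add_comm]
  exact mul_mem_filR ha hx

/-- `exp` of twisted derivations is multiplicative when everything raises a finite filtration:
`C^n (x y) = ∑ (n choose i) A^i x · B^(n-i) y` and the terms with `i + j > N` vanish. -/
theorem expN_tw_mul {R : Type} [Ring R] [Algebra K R] {N : ℕ} {u : σ → R} (hN : Nil N u)
    (hsurj : Function.Surjective (ev (k := K) u)) {D : Module.End K R} (hD : IsDer D)
    (hDf : ∀ j, ∀ x ∈ filR K u j, D x ∈ filR K u (j + 1)) {a b c : R} (ha : a ∈ filR K u 1)
    (hb : b ∈ filR K u 1) (hc : c ∈ filR K u 1) (x y : R) :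
    expN N (tw D a c) (x * y) = expN N (tw D a b) x * expN N (tw D b c) y := by
  set A := tw D a b with hA
  set B := tw D b c with hB
  let F : ℕ → ℕ → R := fun i j =>
    (((i.factorial : K)⁻¹) • (A ^ i) x) * (((j.factorial : K)⁻¹) • (B ^ j) y)
  have hF : ∀ i j, N + 1 ≤ i + j → F i j = 0 := fun i j hij => by
    have h1 := mul_mem_filR (pow_apply_mem_filR hsurj (tw_mem_filR hDf ha hb) i x)
      (pow_apply_mem_filR hsurj (tw_mem_filR hDf hb hc) j y)
    have h2 := filR_anti (k := K) u hij h1
    rw [hN.filR_eq_bot, Submodule.mem_bot] at h2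
    simp only [F, smul_mul_assoc, mul_smul_comm]
    rw [hA, hB, h2, smul_zero, smul_zero]
  have hL : expN N (tw D a c) (x * y) =
      ∑ n ∈ Finset.range (N + 1), ∑ p ∈ Finset.HasAntidiagonal.antidiagonal n, F p.1 p.2 := by
    rw [expN, LinearMap.sum_apply]
    refine Finset.sum_congr rfl fun n _ => ?_
    rw [LinearMap.smul_apply, pow_apply_mul_of_leibniz (tw_mul hD a b c), Finset.smul_sum]
    refine Finset.sum_congr rfl fun p hp => ?_
    rw [Finset.HasAntidiagonal.mem_antidiagonal] at hp
    simp only [F, smul_mul_assoc, mul_smul_comm, smul_smul]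
    rw [← Nat.cast_smul_eq_nsmul K, smul_smul]
    congr 1
    have h1 : ((p.1.factorial : ℕ) : K) ≠ 0 := by exact_mod_cast p.1.factorial_ne_zero
    have h2 : ((p.2.factorial : ℕ) : K) ≠ 0 := by exact_mod_cast p.2.factorial_ne_zero
    have h3 : ((n.factorial : ℕ) : K) ≠ 0 := by exact_mod_cast n.factorial_ne_zero
    have h4 : (n.choose p.1 : K) * p.1.factorial * p.2.factorial = n.factorial := by
      have := Nat.add_choose_mul_factorial_mul_factorial p.2 p.1
      rw [add_comm, hp] at this
      rw [mul_right_comm]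
      exact_mod_cast this
    field_simp
    rw [← h4]
    ring
  have hR : expN N A x * expN N B y =
      ∑ i ∈ Finset.range (N + 1), ∑ j ∈ Finset.range (N + 1), F i j := by
    simp only [expN, LinearMap.sum_apply, LinearMap.smul_apply]
    rw [Finset.sum_mul_sum]
  rw [hL, hR, Finset.sum_sigma', ← Finset.sum_product']
  symm
  rw [← Finset.sum_subset (s₁ := (Finset.range (N + 1) ×ˢ Finset.range (N + 1)).filter
    (fun p => p.1 + p.2 < N + 1)) (Finset.filter_subset _ _)]
  · refine Finset.sum_bij' (fun p _ => ⟨p.1 + p.2, p⟩) (fun q _ => q.2) ?_ ?_ ?_ ?_ ?_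
    · intro p hp
      simp only [Finset.mem_filter, Finset.mem_product, Finset.mem_range] at hp
      simp [hp.2]
    · rintro ⟨n, p⟩ hq
      simp only [Finset.mem_sigma, Finset.mem_range, Finset.HasAntidiagonal.mem_antidiagonal] at hq
      simp only [Finset.mem_filter, Finset.mem_product, Finset.mem_range]
      omega
    · intro p _; rfl
    · rintro ⟨n, p⟩ hq
      simp only [Finset.mem_sigma, Finset.mem_range, Finset.HasAntidiagonal.mem_antidiagonal] at hq
      obtain ⟨-, rfl⟩ := hq
      rfl
    · intro p _; rfl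
  · intro p hp hp'
    refine hF _ _ ?_
    by_contra hlt
    exact hp' (Finset.mem_filter.2 ⟨hp, by omega⟩)

end Crest.Agent.R010
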