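import Crest.Agent.R010.Braid

/-! # Row 10: the free Lie algebra inside the free associative algebra; bridge to `grtSpace` -/

set_option autoImplicit false

noncomputable section

namespace Crest.Agent.R010

open Crest.NumberTheoryR.GT

variable {σ : Type}

/-- Bracket monomials in the free Lie algebra. -/
def brL : FreeMagma σ → FreeLieAlgebra ℚ σ
  | FreeMagma.of c => FreeLieAlgebra.of ℚ c
  | FreeMagma.mul a b => ⁅brL a, brL b⁆

theorem iota_brL_of (c : σ) : brL (FreeMagma.of c) = FreeLieAlgebra.of ℚ c := rfl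
theorem iota_brL_mul (a b : FreeMagma σ) : brL (a * b) = ⁅brL a, brL b⁆ := rfl

attribute [local instance 100] LieRing.ofAssociativeRing in
@[simp] theorem iota_of (c : σ) : iota σ (FreeLieAlgebra.of ℚ c) = gen c := by
  exact FreeLieAlgebra.lift_of_apply _ c
attribute [local instance 100] LieRing.ofAssociativeRing in
theorem iota_lie (a b : FreeLieAlgebra ℚ σ) : iota σ ⁅a, b⁆ = ⁅iota σ a, iota σ b⁆ := by
  exact LieHom.map_lie (FreeLieAlgebra.lift ℚ (gen : σ → FA ℚ σ)) a b
theorem iota_brL (m : FreeMagma σ) : iota σ (brL m) = br m := by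
  induction m using FreeMagma.recOnMul with
  | ih1 c => exact iota_of c
  | ih2 a b iha ihb => rw [iota_brL_mul, iota_lie, iha, ihb, br_mul]
/-- The span of the monomials is a Lie subalgebra containing the generators (use the universal
property: lift into the subalgebra and `FreeLieAlgebra.hom_ext`). -/
theorem span_brL : Submodule.span ℚ (Set.range (brL : FreeMagma σ → FreeLieAlgebra ℚ σ)) = ⊤ := by
  set S := Submodule.span ℚ (Set.range (brL : FreeMagma σ → FreeLieAlgebra ℚ σ)) with hS
  let K : LieSubalgebra ℚ (FreeLieAlgebra ℚ σ) :=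
    { S with
      lie_mem' := fun {x y} hx hy => by
        change x ∈ S at hx
        change y ∈ S at hy
        change ⁅x, y⁆ ∈ S
        induction hx using Submodule.span_induction with
        | mem x hx =>
          obtain ⟨a, rfl⟩ := hx
          induction hy using Submodule.span_induction with
          | mem y hy =>
            obtain ⟨b, rfl⟩ := hy
            exact Submodule.subset_span ⟨a * b, rfl⟩
          | zero => rw [lie_zero]; exact zero_mem _
          | add x y _ _ hx hy => rw [lie_add]; exact add_mem hx hy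
          | smul c x _ hx => rw [lie_smul]; exact Submodule.smul_mem _ c hx
        | zero => rw [zero_lie]; exact zero_mem _
        | add x y _ _ hx hy => rw [add_lie]; exact add_mem hx hy
        | smul c x _ hx => rw [smul_lie]; exact Submodule.smul_mem _ c hx }
  let F : FreeLieAlgebra ℚ σ →ₗ⁅ℚ⁆ K := FreeLieAlgebra.lift ℚ fun c =>
    ⟨FreeLieAlgebra.of ℚ c, Submodule.subset_span ⟨FreeMagma.of c, rfl⟩⟩
  have e : K.incl.comp F = LieHom.id := FreeLieAlgebra.hom_ext fun c => by
    simp [F]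
  refine eq_top_iff.2 fun u _ => ?_
  have e1 : ((F u : K) : FreeLieAlgebra ℚ σ) = u := LieHom.congr_fun e u
  rw [← e1]
  exact (F u).2
@[elab_as_elim]
theorem iota_ind {p : FreeLieAlgebra ℚ σ → Prop} (u : FreeLieAlgebra ℚ σ)
    (hof : ∀ c, p (FreeLieAlgebra.of ℚ c)) (hlie : ∀ a b, p a → p b → p ⁅a, b⁆) (h0 : p 0)
    (hadd : ∀ a b, p a → p b → p (a + b)) (hsmul : ∀ (c : ℚ) a, p a → p (c • a)) : p u := by
  have hu : u ∈ Submodule.span ℚ (Set.range (brL : FreeMagma σ → FreeLieAlgebra ℚ σ)) := by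
    rw [span_brL]; trivial
  induction hu using Submodule.span_induction with
  | mem x hx =>
    obtain ⟨m, rfl⟩ := hx
    induction m using FreeMagma.recOnMul with
    | ih1 c => exact hof c
    | ih2 a b iha ihb => exact hlie _ _ iha ihb
  | zero => exact h0
  | add x y _ _ hx hy => exact hadd x y hx hy
  | smul c x _ hx => exact hsmul c x hx
theorem weightSubspace_eq_span (δ : σ → ℕ) (n : ℕ) :
    weightSubspace δ n = Submodule.span ℚ {u | ∃ m, mdeg δ m = n ∧ u = brL m} := by
  unfold weightSubspace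
  congr 1
  ext u
  constructor
  · intro h
    induction h with
    | of i => exact ⟨FreeMagma.of i, rfl, rfl⟩
    | lie _ _ ha hb =>
      obtain ⟨a, rfl, rfl⟩ := ha
      obtain ⟨b, rfl, rfl⟩ := hb
      exact ⟨a * b, rfl, rfl⟩
  · rintro ⟨m, rfl, rfl⟩
    induction m using FreeMagma.recOnMul with
    | ih1 c => exact IsBracketMonomial.of c
    | ih2 a b iha ihb => exact IsBracketMonomial.lie iha ihb
theorem range_iota : LinearMap.range (iota σ) = LieS ℚ σ := by
  rw [LinearMap.range_eq_map, ← span_brL, Submodule.map_span, ← Set.range_comp, LieS]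
  congr 2
  exact funext iota_brL
theorem iota_mem_LieS (u : FreeLieAlgebra ℚ σ) : iota σ u ∈ LieS ℚ σ :=
  range_iota (σ := σ) ▸ LinearMap.mem_range_self _ u
/-- Every element is a finite sum of homogeneous elements. -/
theorem exists_sum_weight (δ : σ → ℕ) (u : FreeLieAlgebra ℚ σ) :
    ∃ (N : ℕ) (c : ℕ → FreeLieAlgebra ℚ σ), (∀ n, c n ∈ weightSubspace δ n) ∧
      u = ∑ n ∈ Finset.range N, c n := by
  have h : u ∈ ⨆ n, weightSubspace δ n := by
    have : (⊤ : Submodule ℚ (FreeLieAlgebra ℚ σ)) ≤ ⨆ n, weightSubspace δ n := by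
      rw [← span_brL, Submodule.span_le]
      rintro _ ⟨m, rfl⟩
      refine Submodule.mem_iSup_of_mem (mdeg δ m) ?_
      rw [weightSubspace_eq_span]
      exact Submodule.subset_span ⟨m, rfl, rfl⟩
    exact this trivial
  obtain ⟨f, hf, e⟩ := (Submodule.mem_iSup_iff_exists_finsupp _ _).1 h
  obtain ⟨N, hN⟩ := f.support.exists_nat_subset_range
  exact ⟨N, f, hf, by rw [← e, Finsupp.sum_of_support_subset f hN _ fun _ _ => rfl]⟩

/-- **Dynkin's trick.** For a Lie algebra `L` over `ℚ` let `p ∈ L` act on `L × ℚ` by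
`(y, s) ↦ (⁅p, y⁆ + s • p, 0)`. -/
def dyn {L : Type} [LieRing L] [LieAlgebra ℚ L] : L →ₗ[ℚ] Module.End ℚ (L × ℚ) where
  toFun p := (LinearMap.inl ℚ L ℚ) ∘ₗ
    (LieAlgebra.ad ℚ L p ∘ₗ LinearMap.fst ℚ L ℚ + (LinearMap.snd ℚ L ℚ).smulRight p)
  map_add' a b := by
    apply LinearMap.ext; rintro ⟨y, s⟩; simp; abel
  map_smul' c a := by
    apply LinearMap.ext; rintro ⟨y, s⟩; simp [smul_comm s c]

theorem dyn_apply {L : Type} [LieRing L] [LieAlgebra ℚ L] (p y : L) (s : ℚ) :
    dyn p (y, s) = (⁅p, y⁆ + s • p, 0) := by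
  simp [dyn]

/-- On a monomial of length `n`: `(y, s) ↦ (⁅m, y⁆ + n s m, 0)`; extend linearly. -/
theorem ev_dyn {L : Type} [LieRing L] [LieAlgebra ℚ L] (v : σ → L) {n : ℕ}
    {u : FreeLieAlgebra ℚ σ} (hu : u ∈ weightSubspace (one σ) n) (y : L) (s : ℚ) :
    (ev (fun c => dyn (v c)) (iota σ u) : Module.End ℚ (L × ℚ)) (y, s) =
      (⁅FreeLieAlgebra.lift ℚ v u, y⁆ + ((n : ℚ) * s) • FreeLieAlgebra.lift ℚ v u, 0) := by
  rw [weightSubspace_eq_span] at hu
  induction hu using Submodule.span_induction with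
  | mem x hx =>
    obtain ⟨m, rfl, rfl⟩ := hx
    rw [iota_brL, ev_br]
    induction m using FreeMagma.recOnMul generalizing y s with
    | ih1 c => simp [iota_brL_of, dyn_apply]
    | ih2 a b iha ihb =>
      rw [brR_mul, lie_def', LinearMap.sub_apply, Module.End.mul_apply, Module.End.mul_apply,
        iha, ihb, iha, ihb, iota_brL_mul, LieHom.map_lie, mdeg_mul,
        ← lie_skew (FreeLieAlgebra.lift ℚ v (brL a)) (FreeLieAlgebra.lift ℚ v (brL b))]
      simp only [mul_zero, zero_smul, add_zero, lie_add, lie_smul, Prod.mk_sub_mk, sub_zero,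
        neg_lie, lie_lie, Nat.cast_add,
        ← lie_skew (FreeLieAlgebra.lift ℚ v (brL a)) (FreeLieAlgebra.lift ℚ v (brL b))]
      congr 1
      module
  | zero => simp [Prod.ext_iff]
  | add a b _ _ ha hb =>
    rw [map_add, map_add, LinearMap.add_apply, ha, hb, map_add, add_lie, smul_add, Prod.mk_add_mk,
      add_zero, add_add_add_comm]
  | smul c a _ ha =>
    rw [map_smul, map_smul, LinearMap.smul_apply, ha, map_smul, smul_lie, Prod.smul_mk, smul_zero,
      smul_add, smul_comm c]

theorem iota_mem_hom {δ : σ → ℕ} {n : ℕ} {u : FreeLieAlgebra ℚ σ} (hu : u ∈ weightSubspace δ n) :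
    iota σ u ∈ hom δ n := by
  rw [weightSubspace_eq_span] at hu
  refine (Submodule.span_le (p := (hom δ n).comap (iota σ))).2 ?_ hu
  rintro _ ⟨m, rfl, rfl⟩
  change iota σ (brL m) ∈ hom δ _
  rw [iota_brL]
  exact br_mem_hom δ m

theorem iota_proj_sum {δ : σ → ℕ} {c : ℕ → FreeLieAlgebra ℚ σ} (hc : ∀ n, c n ∈ weightSubspace δ n)
    (N n : ℕ) : proj δ n (iota σ (∑ m ∈ Finset.range N, c m)) =
      if n ∈ Finset.range N then iota σ (c n) else 0 := by
  rw [map_sum, map_sum, ← Finset.sum_ite_eq' (Finset.range N) n fun m => iota σ (c m)]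
  refine Finset.sum_congr rfl fun m _ => ?_
  split_ifs with h
  · exact proj_of_hom (h ▸ iota_mem_hom (hc m))
  · exact proj_of_hom_ne (iota_mem_hom (hc m)) h

theorem iota_injective : Function.Injective (iota σ) := by
  refine (injective_iff_map_eq_zero _).2 fun u hu => ?_
  obtain ⟨N, c, hc, rfl⟩ := exists_sum_weight (one σ) u
  refine Finset.sum_eq_zero fun n hn => ?_
  have h1 := iota_proj_sum hc N n
  rw [hu, map_zero, if_pos hn] at h1
  rcases Nat.eq_zero_or_pos n with rfl | h0
  · have h2 := hc 0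
    rw [weightSubspace_eq_span] at h2
    refine (Submodule.span_le (p := ⊥)).2 ?_ h2
    rintro _ ⟨m, hm, -⟩
    exact absurd hm (mdeg_one_pos m).ne'
  · have h2 := ev_dyn (FreeLieAlgebra.of ℚ) (hc n) 0 1
    have e : FreeLieAlgebra.lift ℚ (FreeLieAlgebra.of ℚ : σ → FreeLieAlgebra ℚ σ) = LieHom.id :=
      FreeLieAlgebra.hom_ext fun c => by simp
    rw [← h1, map_zero, e] at h2
    have h3 := congrArg Prod.fst h2
    simpa [h0.ne'] using h3.symm

theorem mem_weightSubspace_iff {δ : σ → ℕ} {n : ℕ} {u : FreeLieAlgebra ℚ σ} :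
    u ∈ weightSubspace δ n ↔ iota σ u ∈ hom δ n := by
  refine ⟨iota_mem_hom, fun h => ?_⟩
  obtain ⟨N, c, hc, rfl⟩ := exists_sum_weight δ u
  have h1 := iota_proj_sum hc N n
  rw [proj_of_hom h] at h1
  split_ifs at h1
  · rw [iota_injective h1]
    exact hc n
  · rw [iota_injective (h1.trans (map_zero _).symm)]
    exact zero_mem _

attribute [local instance 100] LieRing.ofAssociativeRing in
theorem ev_iota {R : Type} [Ring R] [Algebra ℚ R] (v : σ → R) (u : FreeLieAlgebra ℚ σ) :
    ev v (iota σ u) = FreeLieAlgebra.lift ℚ v u := by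
  refine iota_ind u (fun c => ?_) (fun a b ha hb => ?_) (by simp) (fun a b ha hb => ?_)
    fun c a ha => ?_
  · rw [iota_of, ev_gen, FreeLieAlgebra.lift_of_apply]
  · rw [iota_lie, map_lie', ha, hb, LieHom.map_lie]
  · rw [map_add, map_add, ha, hb, map_add]
  · rw [map_smul, map_smul, ha, map_smul]

attribute [local instance 100] LieRing.ofAssociativeRing in
theorem ev2_iota {R : Type} [Ring R] [Algebra ℚ R] (p q : R) (u : GTLie) :
    ev2 p q (iota (Fin 2) u) = gtSubst p q u := by
  rw [ev_iota, gtSubst]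
  congr 2
  funext i
  fin_cases i <;> rfl

theorem iota_gx : iota (Fin 2) gx = gX := iota_of 0
theorem iota_gy : iota (Fin 2) gy = gY := iota_of 1

theorem iota_gtSubst (p q u : GTLie) :
    iota (Fin 2) (gtSubst p q u) = ev2 (iota (Fin 2) p) (iota (Fin 2) q) (iota (Fin 2) u) := by
  refine iota_ind u (fun c => ?_) (fun a b ha hb => ?_) (by simp) (fun a b ha hb => ?_)
    fun c a ha => ?_
  · rw [iota_of, ev_gen, gtSubst, FreeLieAlgebra.lift_of_apply]
    fin_cases c <;> rfl
  · rw [iota_lie, map_lie', LieHom.map_lie, iota_lie, ha, hb]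
  · rw [map_add, map_add, ha, hb, map_add, map_add]
  · rw [map_smul, map_smul, ha, map_smul, map_smul]

/-- the first projection of `DualGT` -/
def iota_dualFst : DualGT →ₗ⁅ℚ⁆ GTLie where
  toFun v := ((LieAlgebra.ofProd 0).symm v).1
  map_add' v w := by simp
  map_smul' r v := by simp
  map_lie' {v w} := by simp [LieAlgebra.bracket_ofTwoCocycle]

theorem iota_dualFst_mk (a u : GTLie) : iota_dualFst (dualMk a u) = a := rfl
theorem iota_dualSnd_mk (a u : GTLie) : dualSnd (dualMk a u) = u := rfl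

theorem iota_dualSnd_lie (v w : DualGT) :
    dualSnd ⁅v, w⁆ = ⁅iota_dualFst v, dualSnd w⁆ - ⁅iota_dualFst w, dualSnd v⁆ := by
  simp [LieAlgebra.bracket_ofTwoCocycle, dualSnd, iota_dualFst]

theorem iota_dualFst_subst (p q u : GTLie) :
    iota_dualFst (gtSubst (dualMk gx p) (dualMk gy q) u) = u := by
  have e : iota_dualFst.comp (gtSubst (dualMk gx p) (dualMk gy q)) = LieHom.id :=
    FreeLieAlgebra.hom_ext fun c => by
      rw [LieHom.comp_apply, gtSubst, FreeLieAlgebra.lift_of_apply, LieHom.id_apply]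
      revert c
      refine Fin.forall_fin_two.2 ⟨?_, ?_⟩
      · rw [if_pos rfl, iota_dualFst_mk, gx]
      · rw [if_neg (by decide), iota_dualFst_mk, gy]
  exact LieHom.congr_fun e u

theorem iota_iharaDer_lie (ψ a b : GTLie) :
    iharaDer ψ ⁅a, b⁆ = ⁅a, iharaDer ψ b⁆ - ⁅b, iharaDer ψ a⁆ := by
  simp only [iharaDer, LinearMap.comp_apply, LieHom.coe_toLinearMap, LieHom.map_lie,
    iota_dualSnd_lie, iota_dualFst_subst]

/-- `iharaDer ψ` is a derivation of the Lie algebra (`LieAlgebra.bracket_ofTwoCocycle`; the first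
component of the substitution into `DualGT` is the identity); compare on monomials. -/
theorem iota_iharaDer (ψ u : GTLie) :
    iota (Fin 2) (iharaDer ψ u) = Dih (iota (Fin 2) ψ) (iota (Fin 2) u) := by
  refine iota_ind u (fun c => ?_) (fun a b ha hb => ?_) (by simp) (fun a b ha hb => ?_)
    fun c a ha => ?_
  · rw [iharaDer, LinearMap.comp_apply, LieHom.coe_toLinearMap, gtSubst,
      FreeLieAlgebra.lift_of_apply, iota_of]
    revert c
    refine Fin.forall_fin_two.2 ⟨?_, ?_⟩
    · rw [if_pos rfl, iota_dualSnd_mk, map_zero, Dih_gX]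
    · rw [if_neg (by decide), iota_dualSnd_mk, iota_lie, iota_gy, Dih_gY]
  · rw [iota_iharaDer_lie, iota_lie, (isDer_Dih _).map_lie, ← ha, ← hb, map_sub, iota_lie, iota_lie]
    simp only [lie_def']
    abel
  · rw [map_add, map_add, ha, hb, map_add, map_add]
  · rw [map_smul, map_smul, ha, map_smul, map_smul]

theorem iota_iharaBracket (ψ φ : GTLie) :
    iota (Fin 2) (iharaBracket ψ φ) = ihara (iota (Fin 2) ψ) (iota (Fin 2) φ) := by
  rw [iharaBracket, map_add, map_sub, iota_iharaDer, iota_iharaDer, iota_lie, ihara]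

theorem iota_antisymDefect (ψ : GTLie) :
    iota (Fin 2) (antisymDefect ψ) = antiD (iota (Fin 2) ψ) := by
  change iota (Fin 2) (ψ + gtSubst gy gx ψ) = _
  rw [map_add, iota_gtSubst, iota_gx, iota_gy, antiD]

theorem iota_threeTermDefect (ψ : GTLie) :
    iota (Fin 2) (threeTermDefect ψ) = hexD (iota (Fin 2) ψ) := by
  change iota (Fin 2) (ψ + gtSubst gy (-gx - gy) ψ + gtSubst (-gx - gy) gx ψ) = _
  rw [map_add, map_add, iota_gtSubst, iota_gtSubst, map_sub, map_neg, iota_gx, iota_gy, hexD]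

end Crest.Agent.R010
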