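import Crest.Agent.R010.KZDefs

/-! # Row 10, KZ: formal theory (uniqueness, inverses, products, restriction to the axes) -/

set_option autoImplicit false

noncomputable section

namespace Crest.Agent.R010

open MvPowerSeries

variable {R R' : Type} [Ring R] [Algebra ℝ R] [Ring R'] [Algebra ℝ R']

theorem coeff_th (i : Fin 2) (f : PS R) (d : Ix) : coeff d (th i f) = (d i : ℝ) • coeff d f := rfl
theorem coeff_thr (f : PS R) (d : Ix) :
    coeff d (thr f) = ((d 0 + d 1 : ℕ) : ℝ) • coeff d f := by
  rw [thr, LinearMap.add_apply, map_add, coeff_th, coeff_th, Nat.cast_add, add_smul]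
open Classical in
theorem coeff_geo (e : Ix) (A : R) (d : Ix) :
    coeff d (geo e A) = if ∃ j : ℕ, 1 ≤ j ∧ d = j • e then A else 0 := rfl
theorem coeff_res (i : Fin 2) (f : PS R) (d : Ix) :
    coeff d (res i f) = if d i = 0 then coeff d f else 0 := rfl

theorem th_mul (i : Fin 2) (f g : PS R) : th i (f * g) = th i f * g + f * th i g := by
  ext d
  rw [map_add, coeff_th, coeff_mul, coeff_mul, coeff_mul, Finset.smul_sum, ← Finset.sum_add_distrib]
  refine Finset.sum_congr rfl fun p hp => ?_
  have h : d i = p.1 i + p.2 i := by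
    rw [← Finset.HasAntidiagonal.mem_antidiagonal.1 hp, Finsupp.add_apply]
  rw [coeff_th, coeff_th, h, Nat.cast_add, add_smul, smul_mul_assoc, mul_smul_comm]
theorem thr_mul (f g : PS R) : thr (f * g) = thr f * g + f * thr g := by
  simp only [thr, LinearMap.add_apply, th_mul, add_mul, mul_add]
  abel
@[simp] theorem th_C (i : Fin 2) (a : R) : th i (C a : PS R) = 0 := by
  ext d
  rw [coeff_th, coeff_C]
  split_ifs with h
  · simp [h]
  · simp
@[simp] theorem th_one (i : Fin 2) : th i (1 : PS R) = 0 := by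
  rw [← map_one (C : R →+* PS R), th_C]
@[simp] theorem thr_C (a : R) : thr (C a : PS R) = 0 := by
  simp [thr]
@[simp] theorem thr_one : thr (1 : PS R) = 0 := by
  simp [thr]
theorem th_comm (i j : Fin 2) (f : PS R) : th i (th j f) = th j (th i f) := by
  ext d
  simp only [coeff_th]
  exact smul_comm _ _ _
@[simp] theorem constantCoeff_th (i : Fin 2) (f : PS R) : constantCoeff (th i f) = 0 := by
  rw [← coeff_zero_eq_constantCoeff_apply, coeff_th]
  simp
theorem constantCoeff_geo {e : Ix} (he : e ≠ 0) (A : R) : constantCoeff (geo e A) = 0 := by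
  rw [← coeff_zero_eq_constantCoeff_apply, coeff_geo, if_neg]
  rintro ⟨j, hj, h⟩
  rcases smul_eq_zero.1 h.symm with h | h
  · omega
  · exact he h
theorem e0_ne : e0 ≠ 0 := by simp [e0]
theorem e1_ne : e1 ≠ 0 := by simp [e1]
theorem e01_ne : e0 + e1 ≠ 0 := by simp [e0, e1]
@[simp] theorem geo_zero (e : Ix) : geo e (0 : R) = 0 := by
  ext d
  simp [coeff_geo]
theorem geo_add (e : Ix) (A B : R) : geo e (A + B) = geo e A + geo e B := by
  ext d
  rw [map_add, coeff_geo, coeff_geo, coeff_geo]
  split_ifs <;> simp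
theorem geo_neg (e : Ix) (A : R) : geo e (-A) = -geo e A := by
  ext d
  rw [map_neg, coeff_geo, coeff_geo]
  split_ifs <;> simp
theorem constantCoeff_Pser (T : Fin 5 → R) : constantCoeff (Pser T) = 0 := by
  rw [Pser, map_sub, map_neg, constantCoeff_geo e0_ne, constantCoeff_geo e01_ne, neg_zero, sub_zero]
theorem constantCoeff_Qser (T : Fin 5 → R) : constantCoeff (Qser T) = 0 := by
  rw [Qser, map_sub, map_neg, constantCoeff_geo e1_ne, constantCoeff_geo e01_ne, neg_zero, sub_zero]

theorem map_th (φ : R →ₐ[ℝ] R') (i : Fin 2) (f : PS R) :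
    map (φ : R →+* R') (th i f) = th i (map (φ : R →+* R') f) := by
  ext d
  rw [coeff_map, coeff_th, coeff_th, coeff_map]
  exact map_smul φ _ _
theorem map_geo (φ : R →ₐ[ℝ] R') (e : Ix) (A : R) :
    map (φ : R →+* R') (geo e A) = geo e (φ A) := by
  ext d
  rw [coeff_map, coeff_geo, coeff_geo]
  split_ifs <;> simp

theorem res_mul (i : Fin 2) (f g : PS R) : res i (f * g) = res i f * res i g := by
  ext d
  rw [coeff_res, coeff_mul, coeff_mul]
  split_ifs with h
  · refine Finset.sum_congr rfl fun p hp => ?_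
    have h1 : d i = p.1 i + p.2 i := by
      rw [← Finset.HasAntidiagonal.mem_antidiagonal.1 hp, Finsupp.add_apply]
    rw [coeff_res, coeff_res, if_pos (by omega), if_pos (by omega)]
  · refine (Finset.sum_eq_zero fun p hp => ?_).symm
    have h1 : d i = p.1 i + p.2 i := by
      rw [← Finset.HasAntidiagonal.mem_antidiagonal.1 hp, Finsupp.add_apply]
    rw [coeff_res, coeff_res]
    by_cases h2 : p.1 i = 0
    · rw [if_neg (show ¬ p.2 i = 0 by omega), mul_zero]
    · rw [if_neg h2, zero_mul]
theorem res_add (i : Fin 2) (f g : PS R) : res i (f + g) = res i f + res i g := by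
  ext d
  rw [map_add, coeff_res, coeff_res, coeff_res, map_add]
  split_ifs <;> simp
theorem res_geo (i : Fin 2) (e : Ix) (A : R) :
    res i (geo e A) = if e i = 0 then geo e A else 0 := by
  ext d
  rw [coeff_res]
  by_cases he : e i = 0
  · rw [if_pos he]
    split_ifs with h
    · rfl
    · rw [coeff_geo, if_neg]
      rintro ⟨j, -, rfl⟩
      exact h (by simp [he])
  · rw [if_neg he, map_zero]
    split_ifs with h
    · rw [coeff_geo, if_neg]
      rintro ⟨j, hj, rfl⟩
      simp only [Finsupp.smul_apply, smul_eq_mul, mul_eq_zero] at h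
      omega
    · rfl

theorem kz1_res_zero (i : Fin 2) : res i (0 : PS R) = 0 := by
  ext d
  simp [coeff_res]
theorem kz1_res_neg (i : Fin 2) (f : PS R) : res i (-f) = -res i f := by
  ext d
  rw [map_neg, coeff_res, coeff_res, map_neg]
  split_ifs <;> simp
theorem kz1_res_sub (i : Fin 2) (f g : PS R) : res i (f - g) = res i f - res i g := by
  rw [sub_eq_add_neg, res_add, kz1_res_neg, sub_eq_add_neg]
theorem kz1_res_C (i : Fin 2) (a : R) : res i (C a : PS R) = C a := by
  ext d
  rw [coeff_res]
  split_ifs with h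
  · rfl
  · rw [coeff_C, if_neg]
    rintro rfl
    exact h rfl
theorem kz1_res_thr (i : Fin 2) (f : PS R) : res i (thr f) = thr (res i f) := by
  ext d
  rw [coeff_res, coeff_thr, coeff_thr, coeff_res]
  split_ifs <;> simp
theorem kz1_commute_C {z : R} {f : PS R} (h : ∀ d, Commute z (coeff d f)) : Commute (C z : PS R) f := by
  ext d
  rw [coeff_C_mul, coeff_mul_C, (h d).eq]
theorem kz1_eq_zero {d : Ix} (h : d 0 + d 1 = 0) : d = 0 := by
  ext i
  fin_cases i
  · change d 0 = 0
    omega
  · change d 1 = 0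
    omega
theorem kz1_nil {T T' w : R} (hT : IsNilpotent T) (hT' : IsNilpotent T') {c : ℝ} (hc : c ≠ 0)
    (h : c • w = T * w - w * T') : w = 0 := by
  have h1 : IsNilpotent (LinearMap.mulLeft ℝ T - LinearMap.mulRight ℝ T') :=
    (LinearMap.commute_mulLeft_right T T').isNilpotent_sub
      ((LinearMap.isNilpotent_mulLeft_iff ℝ T).2 hT) ((LinearMap.isNilpotent_mulRight_iff ℝ T').2 hT')
  obtain ⟨n, hn⟩ := h1
  have h2 : ∀ k : ℕ, ((LinearMap.mulLeft ℝ T - LinearMap.mulRight ℝ T') ^ k) w = c ^ k • w := by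
    intro k
    induction k with
    | zero => simp
    | succ k ih =>
      rw [pow_succ', Module.End.mul_apply, ih, map_smul, pow_succ, mul_smul, h]
      rfl
  have h3 := h2 n
  rw [hn, LinearMap.zero_apply] at h3
  exact (smul_eq_zero.1 h3.symm).resolve_left (pow_ne_zero n hc)

theorem commute_of_coeff {f g : PS R} (h : ∀ d d', Commute (coeff d f) (coeff d' g)) :
    Commute f g := by
  ext d
  rw [coeff_mul, coeff_mul, ← Finsupp.sum_antidiagonal_swap d fun a b => coeff b f * coeff a g]
  exact Finset.sum_congr rfl fun p _ => (h _ _).eq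

/-- **Uniqueness.** Induct on the total degree `n = d 0 + d 1 ≥ 1`: the coefficient `w` satisfies
`n w = T w - w T'` (the terms from `S`, `S'` only involve lower degrees), and `L_T - R_{T'}` is
nilpotent. -/
theorem uniq {T T' : R} (hT : IsNilpotent T) (hT' : IsNilpotent T') {S S' W : PS R}
    (hS : constantCoeff S = 0) (hS' : constantCoeff S' = 0) (hW : constantCoeff W = 0)
    (h : thr W = C T * W - W * C T' + S * W + W * S') : W = 0 := by
  have key : ∀ n : ℕ, ∀ d : Ix, d 0 + d 1 = n → coeff d W = 0 := by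
    intro n
    induction n using Nat.strong_induction_on with
    | _ n ih =>
      intro d hd
      rcases Nat.eq_zero_or_pos n with rfl | hn
      · have : d = 0 := kz1_eq_zero hd
        rw [this, coeff_zero_eq_constantCoeff_apply, hW]
      have h1 : coeff d (S * W) = 0 := by
        rw [coeff_mul]
        refine Finset.sum_eq_zero fun p hp => ?_
        have hp' := Finset.HasAntidiagonal.mem_antidiagonal.1 hp
        by_cases h0 : p.1 0 + p.1 1 = 0
        · rw [kz1_eq_zero h0, coeff_zero_eq_constantCoeff_apply, hS, zero_mul]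
        · rw [← hp', Finsupp.add_apply, Finsupp.add_apply] at hd
          rw [ih (p.2 0 + p.2 1) (by omega) p.2 rfl, mul_zero]
      have h2 : coeff d (W * S') = 0 := by
        rw [coeff_mul]
        refine Finset.sum_eq_zero fun p hp => ?_
        have hp' := Finset.HasAntidiagonal.mem_antidiagonal.1 hp
        by_cases h0 : p.2 0 + p.2 1 = 0
        · rw [kz1_eq_zero h0, coeff_zero_eq_constantCoeff_apply, hS', mul_zero]
        · rw [← hp', Finsupp.add_apply, Finsupp.add_apply] at hd
          rw [ih (p.1 0 + p.1 1) (by omega) p.1 rfl, zero_mul]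
      have h3 := congrArg (coeff d) h
      rw [coeff_thr, map_add, map_add, map_sub, h1, h2, add_zero, add_zero, coeff_C_mul, coeff_mul_C,
        hd] at h3
      exact kz1_nil hT hT' (by exact_mod_cast hn.ne') h3
  ext d
  rw [key _ d rfl, map_zero]

namespace IsSol

variable {T : R} {S S' H H' J : PS R}

theorem unique (hT : IsNilpotent T) (hS : constantCoeff S = 0) (hS' : constantCoeff S' = 0)
    (h : IsSol T S S' H) (h' : IsSol T S S' H') : H = H' := by
  rw [← sub_eq_zero]
  refine uniq hT hT hS hS' (by rw [map_sub, h.const, h'.const, sub_self]) ?_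
  rw [map_sub, h.eq, h'.eq]
  noncomm_ring

theorem map (φ : R →ₐ[ℝ] R') (h : IsSol T S S' H) :
    IsSol (φ T) (MvPowerSeries.map (φ : R →+* R') S) (MvPowerSeries.map (φ : R →+* R') S')
      (MvPowerSeries.map (φ : R →+* R') H) := by
  refine ⟨by rw [constantCoeff_map, h.const, map_one], ?_⟩
  have h1 := congrArg (MvPowerSeries.map (φ : R →+* R')) h.eq
  rw [thr, LinearMap.add_apply, map_add, map_th, map_th] at h1
  rw [thr, LinearMap.add_apply, h1]
  simp only [map_add, map_sub, map_mul, map_C, RingHom.coe_coe]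

theorem one (T : R) : IsSol T (0 : PS R) 0 1 := by
  refine ⟨map_one _, ?_⟩
  simp

theorem res (i : Fin 2) (h : IsSol T S S' H) : IsSol T (res i S) (res i S') (res i H) := by
  refine ⟨?_, ?_⟩
  · rw [← coeff_zero_eq_constantCoeff_apply, coeff_res, if_pos (by simp),
      coeff_zero_eq_constantCoeff_apply, h.const]
  · rw [← kz1_res_thr, h.eq, res_add, res_add, kz1_res_sub, res_mul, res_mul, res_mul, res_mul, kz1_res_C]

/-- Apply `uniq` to `J H - 1` and to `H J - 1`. -/
theorem mul_eq_one (hT : IsNilpotent T) (hS : constantCoeff S = 0) (h : IsSol T S 0 H)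
    (h' : IsSol T 0 (-S) J) : J * H = 1 ∧ H * J = 1 := by
  constructor
  · rw [← sub_eq_zero]
    refine uniq (S := 0) (S' := 0) hT hT (map_zero _) (map_zero _)
      (by rw [map_sub, map_mul, h.const, h'.const, map_one, mul_one, sub_self]) ?_
    rw [map_sub, thr_mul, h.eq, h'.eq, thr_one]
    noncomm_ring
  · rw [← sub_eq_zero]
    refine uniq (S := S) (S' := -S) hT hT hS (by rw [map_neg, hS, neg_zero])
      (by rw [map_sub, map_mul, h.const, h'.const, map_one, mul_one, sub_self]) ?_
    rw [map_sub, thr_mul, h.eq, h'.eq, thr_one]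
    noncomm_ring

/-- Apply `uniq` to `z H - H z`. -/
theorem commute_coeff (hT : IsNilpotent T) (hS : constantCoeff S = 0) (hS' : constantCoeff S' = 0)
    (h : IsSol T S S' H) {z : R} (hz : Commute z T) (hzS : ∀ d, Commute z (coeff d S))
    (hzS' : ∀ d, Commute z (coeff d S')) (d : Ix) : Commute z (coeff d H) := by
  have c1 : (C z : PS R) * C T = C T * C z := by rw [← map_mul, ← map_mul, hz.eq]
  have c2 : (C z : PS R) * S = S * C z := (kz1_commute_C hzS).eq
  have c3 : (C z : PS R) * S' = S' * C z := (kz1_commute_C hzS').eq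
  have key : C z * H - H * C z = 0 := by
    refine uniq hT hT hS hS' (by simp [h.const]) ?_
    rw [map_sub, thr_mul, thr_mul, h.eq, thr_C]
    linear_combination (norm := noncomm_ring) c1 * H - H * c1 + c2 * H + H * c3
  have h1 := congrArg (coeff d) (sub_eq_zero.1 key)
  rwa [coeff_C_mul, coeff_mul_C] at h1

theorem mul {T₁ T₂ : R} {S₁ S₁' S₂ S₂' H₁ H₂ : PS R} (h₁ : IsSol T₁ S₁ S₁' H₁)
    (h₂ : IsSol T₂ S₂ S₂' H₂) (c₁ : Commute H₁ (C T₂)) (c₂ : Commute H₁ S₂)
    (c₃ : Commute H₂ (C T₁)) (c₄ : Commute H₂ S₁') :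
    IsSol (T₁ + T₂) (S₁ + S₂) (S₁' + S₂') (H₁ * H₂) := by
  refine ⟨by rw [map_mul, h₁.const, h₂.const, mul_one], ?_⟩
  rw [thr_mul, h₁.eq, h₂.eq, map_add]
  linear_combination (norm := noncomm_ring)
    c₁.eq * H₂ + c₂.eq * H₂ + H₁ * c₃.eq - H₁ * c₄.eq

/-- A solution whose data only involve the variable other than `i` is killed by `θ_i`. -/
theorem th_eq_zero (i : Fin 2) (hT : IsNilpotent T) (hS : constantCoeff S = 0)
    (hS' : constantCoeff S' = 0) (h : IsSol T S S' H) (e : R010.res i S = S)
    (e' : R010.res i S' = S') : th i H = 0 := by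
  have h1 := h.res i
  rw [e, e'] at h1
  rw [h.unique hT hS hS' h1]
  ext d
  rw [coeff_th, coeff_res]
  split_ifs with h0
  · simp [h0]
  · simp

end IsSol

theorem IsP5.sh3 {T : Fin 5 → R} (h : IsP5 T) : IsP5 (sh3 T) := by
  refine ⟨fun i => ?_, ?_⟩
  · have := h.comm (i + 3)
    rwa [add_right_comm] at this
  · rw [← h.cyc]
    refine Fintype.sum_equiv (Equiv.addRight 3) _ _ fun i => ?_
    simp only [R010.sh3, Equiv.coe_addRight, add_right_comm i 1 3]

theorem IsT5.isP5 {X : Fin 5 → Fin 5 → R} (h : IsT5 X) : IsP5 (fun i => X i (i + 1)) := by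
  refine ⟨fun i => h.comm _ _ _ _ ?_ ?_ ?_ ?_ ?_ ?_, h.cyc ℝ⟩ <;> revert i <;> decide

/-- Restriction of `H` to `v = 0`: both sides solve `IsSol (T 0 + T 3) (-geo e0 (T 1)) 0`
(the coefficients of `H₀` commute with `T 3`). -/
theorem res_H {T : Fin 5 → R} (hP : IsP5 T) (h0 : IsNilpotent (T 0)) (h3 : IsNilpotent (T 3))
    {H H₀ : PS R} (h : IsSol (T 0 + T 3) (Pser T + Qser T) 0 H)
    (h₀ : IsSol (T 0) (-geo e0 (T 1)) 0 H₀) : res 1 H = H₀ := by
  have c03 : Commute (T 3) (T 0) := hP.comm 3
  have c13 : Commute (T 3) (T 1) := (hP.comm 1).symm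
  have hS : constantCoeff (-geo e0 (T 1)) = 0 := by rw [map_neg, constantCoeff_geo e0_ne, neg_zero]
  have h1 := h.res 1
  have e : res 1 (Pser T + Qser T) = -geo e0 (T 1) := by
    simp [Pser, Qser, res_add, kz1_res_sub, kz1_res_neg, res_geo, e0, e1]
  rw [e, kz1_res_zero] at h1
  have hc : Commute H₀ (C (T 3)) := by
    refine (kz1_commute_C (h₀.commute_coeff h0 hS (map_zero _) c03 (fun d => ?_) (fun d => ?_))).symm
    · rw [map_neg, coeff_geo]
      split_ifs
      · exact c13.neg_right
      · simp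
    · simp
  have h2 := h₀.mul (IsSol.one (T 3)) hc (Commute.zero_right _) (Commute.one_left _) (Commute.one_left _)
  rw [add_zero, add_zero, mul_one] at h2
  exact h1.unique (c03.symm.isNilpotent_add h0 h3) hS (map_zero _) h2

/-- Restriction of `J` to `u = 0`. -/
theorem res_J {T : Fin 5 → R} (hP : IsP5 T) (h0 : IsNilpotent (T 0)) (h3 : IsNilpotent (T 3))
    {J J₁ : PS R} (h : IsSol (T 0 + T 3) 0 (-(Pser T + Qser T)) J)
    (h₁ : IsSol (T 3) 0 (geo e1 (T 2)) J₁) : res 0 J = J₁ := by
  have c03 : Commute (T 0) (T 3) := (hP.comm 3).symm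
  have c02 : Commute (T 0) (T 2) := hP.comm 0
  have hS : constantCoeff (geo e1 (T 2)) = 0 := constantCoeff_geo e1_ne _
  have h1 := h.res 0
  have e : res 0 (-(Pser T + Qser T)) = geo e1 (T 2) := by
    rw [kz1_res_neg]
    simp [Pser, Qser, res_add, kz1_res_sub, kz1_res_neg, res_geo, e0, e1]
  rw [e, kz1_res_zero] at h1
  have hc : Commute J₁ (C (T 0)) := by
    refine (kz1_commute_C (h₁.commute_coeff h3 (map_zero _) hS c03 (fun d => ?_) (fun d => ?_))).symm
    · simp
    · rw [coeff_geo]
      split_ifs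
      · exact c02
      · simp
  have h2 := (IsSol.one (T 0)).mul h₁ (Commute.one_left _) (Commute.one_left _) hc (Commute.zero_right _)
  rw [zero_add, zero_add, one_mul] at h2
  exact h1.unique (c03.isNilpotent_add h0 h3) (map_zero _) hS h2

end Crest.Agent.R010
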