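import Crest.Agent.R010.KZ1

/-! # Row 10, KZ: flatness -/

set_option autoImplicit false

noncomputable section

namespace Crest.Agent.R010

open MvPowerSeries

variable {R : Type} [Ring R] [Algebra ℝ R]

theorem kz2_th_geo_zero (i : Fin 2) {e : Ix} (he : e i = 0) (A : R) : th i (geo e A) = 0 := by
  ext d
  rw [coeff_th, coeff_geo]
  split_ifs with h
  · obtain ⟨j, -, rfl⟩ := h
    simp [he]
  · simp

theorem kz2_th_geo_eq {e : Ix} (he : e 0 = e 1) (A : R) : th 0 (geo e A) = th 1 (geo e A) := by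
  ext d
  rw [coeff_th, coeff_th, coeff_geo]
  split_ifs with h
  · obtain ⟨j, -, rfl⟩ := h
    simp [he]
  · simp

theorem kz2_geo_rec {e : Ix} (he : e ≠ 0) :
    (geo e 1 : PS ℝ) = monomial e 1 * (1 + geo e 1) := by
  classical
  ext d
  rw [coeff_monomial_mul, coeff_geo, one_mul, map_add, coeff_geo, coeff_one]
  by_cases h : ∃ j : ℕ, 1 ≤ j ∧ d = j • e
  · rw [if_pos h]
    obtain ⟨j, hj, rfl⟩ := h
    obtain ⟨j, rfl⟩ := Nat.exists_eq_add_of_le' hj
    have h1 : (j + 1) • e - e = j • e := by rw [succ_nsmul, add_tsub_cancel_right]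
    rw [if_pos (by rw [succ_nsmul]; exact le_add_self), h1]
    rcases Nat.eq_zero_or_pos j with rfl | hj'
    · rw [if_pos (zero_smul _ _), if_neg, add_zero]
      rintro ⟨k, hk, h⟩
      rw [zero_smul, eq_comm, smul_eq_zero] at h
      rcases h with h | h
      · omega
      · exact he h
    · rw [if_neg, if_pos ⟨j, hj', rfl⟩, zero_add]
      rw [smul_eq_zero]
      rintro (h | h)
      · omega
      · exact he h
  · rw [if_neg h]
    split_ifs with h1 h2 h3 h3
    · exact absurd ⟨1, le_rfl, by rw [one_smul, ← tsub_add_cancel_of_le h1, h2, zero_add]⟩ h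
    · exact absurd ⟨1, le_rfl, by rw [one_smul, ← tsub_add_cancel_of_le h1, h2, zero_add]⟩ h
    · obtain ⟨k, hk, h3⟩ := h3
      exact absurd ⟨k + 1, by omega, by rw [succ_nsmul, ← h3, tsub_add_cancel_of_le h1]⟩ h
    · simp
    · rfl

theorem kz2_geo_rel : (geo e0 1 : PS ℝ) * geo e1 1 = geo (e0 + e1) 1 * (1 + geo e0 1 + geo e1 1) := by
  have h1 := kz2_geo_rec e0_ne
  have h2 := kz2_geo_rec e1_ne
  have h3 := kz2_geo_rec e01_ne
  have h4 : (monomial (e0 + e1) 1 : PS ℝ) = monomial e0 1 * monomial e1 1 := by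
    rw [monomial_mul_monomial, one_mul]
  rw [h4] at h3
  generalize (geo e0 1 : PS ℝ) = α at *
  generalize (geo e1 1 : PS ℝ) = β at *
  generalize (geo (e0 + e1) 1 : PS ℝ) = γ at *
  generalize (monomial e0 1 : PS ℝ) = u at *
  generalize (monomial e1 1 : PS ℝ) = v at *
  linear_combination (1 + γ) * β * h1 + (1 + γ) * u * (1 + α) * h2 - (1 + α) * (1 + β) * h3

theorem kz2_comm {K S : Type} [CommRing K] [Ring S] [Algebra K S] {α β γ : K} (h : α * β = γ * (1 + α + β))
    {t0 t1 t2 t3 t4 : S} (h02 : t0 * t2 = t2 * t0) (h13 : t1 * t3 = t3 * t1) (h24 : t2 * t4 = t4 * t2)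
    (h30 : t3 * t0 = t0 * t3) (h41 : t4 * t1 = t1 * t4)
    (cyc : (t0 * t1 - t1 * t0) + (t1 * t2 - t2 * t1) + (t2 * t3 - t3 * t2) + (t3 * t4 - t4 * t3) +
      (t4 * t0 - t0 * t4) = 0) :
    Commute (t0 + (-(α • t1) - γ • (t4 - t1 - t2))) (t3 + (-(β • t2) - γ • (t4 - t1 - t2))) := by
  unfold Commute SemiconjBy
  simp only [mul_add, add_mul, mul_sub, sub_mul, mul_neg, neg_mul, smul_mul_assoc, mul_smul_comm]
  linear_combination (norm := module) (γ - β) • h02 + (γ - α) • h13 - (β * γ) • h24 - h30 - (α * γ) • h41 +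
    γ • cyc + h • (t1 * t2 - t2 * t1)

theorem kz2_geo_eq (e : Ix) (A : R) :
    geo e A = map (algebraMap ℝ R) (geo e 1) * C A := by
  ext d
  rw [coeff_mul_C, coeff_map, coeff_geo, coeff_geo]
  split_ifs <;> simp

theorem kz2_central (c : PS ℝ) (x : PS R) : map (algebraMap ℝ R) c * x = x * map (algebraMap ℝ R) c :=
  commute_of_coeff fun d d' => by
    rw [coeff_map]
    exact Algebra.commutes _ _

/-- `θ_u Q = θ_v P` (both equal `-θ_u geo (e0+e1) E`). -/
theorem th_Pser (T : Fin 5 → R) : th 0 (Qser T) = th 1 (Pser T) := by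
  rw [Qser, Pser, map_sub, map_sub, map_neg, map_neg, kz2_th_geo_zero 0 (by simp [e1]),
    kz2_th_geo_zero 1 (by simp [e0]), kz2_th_geo_eq (by simp [e0, e1])]

/-- Flatness `⁅T₀ + P, T₃ + Q⁆ = 0`.  Write `geo e A = C A * g_e` with `g_e` the image of the real
series `geo e 1` (central); with `α = g_{e0}`, `β = g_{e1}`, `γ = g_{e0+e1}`, `E = T₄ - T₁ - T₂` the
bracket is `-γ ⁅T₀ - T₃, E⁆ + αβ ⁅T₁,T₂⁆ + αγ ⁅T₁,E⁆ + βγ ⁅E,T₂⁆`, and
`⁅T₀ - T₃, E⁆ = ⁅T₁,T₂⁆` (cyclic relation), `⁅T₁,E⁆ = ⁅E,T₂⁆ = -⁅T₁,T₂⁆`, while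
`αβ = γ(1 + α + β)` in `ℝ[[u,v]]` (from `(1 - m) g = m`; `1 - m` is a unit / non-zero-divisor). -/
theorem commute_conn {T : Fin 5 → R} (hP : IsP5 T) :
    Commute (C (T 0) + Pser T) (C (T 3) + Qser T) := by
  letI : Algebra (PS ℝ) (PS R) := RingHom.toAlgebra' (map (algebraMap ℝ R)) kz2_central
  have hs : ∀ (e : Ix) (A : R), geo e A = (geo e 1 : PS ℝ) • (C A : PS R) := fun e A => kz2_geo_eq e A
  have hc : ∀ i : Fin 5, (C (T i) : PS R) * C (T (i + 2)) = C (T (i + 2)) * C (T i) := fun i => by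
    rw [← map_mul, ← map_mul, (hP.comm i).eq]
  have cyc := congrArg (C : R →+* PS R) hP.cyc
  simp only [Fin.sum_univ_five, Ring.lie_def, map_add, map_sub, map_mul, map_zero] at cyc
  rw [Pser, Qser, hs e0, hs e1, hs (e0 + e1), map_sub, map_sub]
  exact kz2_comm kz2_geo_rel (hc 0) (hc 1) (hc 2) (hc 3) (hc 4) cyc

/-- Apply `uniq` to `W = θ_u H - (T₀ + P) H + H T₀`; it satisfies
`θ W = (T₀ + T₃ + P + Q) W - W (T₀ + T₃)`. -/
theorem flat_H {T : Fin 5 → R} (hP : IsP5 T) (h03 : IsNilpotent (T 0 + T 3)) {H : PS R}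
    (h : IsSol (T 0 + T 3) (Pser T + Qser T) 0 H) :
    th 0 H = C (T 0) * H - H * C (T 0) + Pser T * H ∧
    th 1 H = C (T 3) * H - H * C (T 3) + Qser T * H := by
  have hthr : ∀ f : PS R, thr f = th 0 f + th 1 f := fun f => rfl
  have hH := h.eq
  have hc := (commute_conn hP).eq
  have h30 : (C (T 3) : PS R) * C (T 0) = C (T 0) * C (T 3) := by
    rw [← map_mul, ← map_mul]
    exact congrArg _ (hP.comm 3).eq
  have hS : constantCoeff (Pser T + Qser T) = 0 := by
    rw [map_add, constantCoeff_Pser, constantCoeff_Qser, add_zero]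
  have hW : th 0 H - (C (T 0) + Pser T) * H + H * C (T 0) = 0 := by
    refine uniq (S := Pser T + Qser T) (S' := 0) h03 h03 hS (map_zero _) ?_ ?_
    · simp [h.const, constantCoeff_Pser]
    · have e1 : thr (th 0 H) = th 0 (thr H) := by
        rw [hthr, hthr, map_add, th_comm 1 0]
      have e2 : thr (Pser T) = th 0 (Pser T) + th 0 (Qser T) := by rw [hthr, th_Pser]
      rw [map_add, map_sub, thr_mul, thr_mul, e1, map_add, e2, hH]
      simp only [map_add, map_sub, th_mul, th_C, thr_C, mul_zero, add_zero, zero_add, zero_mul]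
      generalize th 0 H = H' at *
      generalize th 0 (Pser T) = P' at *
      generalize th 0 (Qser T) = Q' at *
      generalize Pser T = P at *
      generalize Qser T = Q at *
      generalize (C (T 0) : PS R) = a at *
      generalize (C (T 3) : PS R) = b at *
      linear_combination (norm := noncomm_ring) -(congrArg (· * H) hc) - congrArg (H * ·) h30
  have h0 : th 0 H = C (T 0) * H - H * C (T 0) + Pser T * H := by
    linear_combination (norm := noncomm_ring) hW
  refine ⟨h0, ?_⟩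
  rw [hthr, h0, map_add] at hH
  linear_combination (norm := noncomm_ring) hH

/-- From `J H = 1 = H J`: `θ_i J = -J (θ_i H) J`. -/
theorem flat_J {T : Fin 5 → R} (hP : IsP5 T) (h03 : IsNilpotent (T 0 + T 3)) {H J : PS R}
    (h : IsSol (T 0 + T 3) (Pser T + Qser T) 0 H)
    (h' : IsSol (T 0 + T 3) 0 (-(Pser T + Qser T)) J) :
    th 0 J = C (T 0) * J - J * C (T 0) - J * Pser T ∧
    th 1 J = C (T 3) * J - J * C (T 3) - J * Qser T := by
  have hS : constantCoeff (Pser T + Qser T) = 0 := by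
    rw [map_add, constantCoeff_Pser, constantCoeff_Qser, add_zero]
  obtain ⟨hJH, hHJ⟩ := IsSol.mul_eq_one h03 hS h h'
  obtain ⟨h0, h1⟩ := flat_H hP h03 h
  have key : ∀ (i : Fin 2) (a P : PS R), th i H = a * H - H * a + P * H → th i J = a * J - J * a - J * P := by
    intro i a P hi
    have e := th_mul i J H
    rw [hJH, th_one, hi] at e
    have e' : th i J = -(J * (a * H - H * a + P * H)) * J := by
      rw [← eq_neg_of_add_eq_zero_left e.symm, mul_assoc, hHJ, mul_one]
    rw [e']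
    have e1 : J * (a * H - H * a + P * H) * J = J * a * (H * J) - J * H * a * J + J * P * (H * J) := by
      noncomm_ring
    rw [neg_mul, e1, hHJ, hJH]
    noncomm_ring
  exact ⟨key 0 _ _ h0, key 1 _ _ h1⟩

end Crest.Agent.R010
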