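import Crest.Agent.R010.KZ1

/-! # Row 10, KZ: existence of bounded solutions -/

set_option autoImplicit false

noncomputable section

namespace Crest.Agent.R010

open MvPowerSeries

variable {R : Type} [NormedRing R] [NormedAlgebra ℝ R]

theorem Thin.zero : Thin (0 : PS R) := by
  exact ⟨0, fun d => by simp⟩
theorem Thin.add {f g : PS R} (hf : Thin f) (hg : Thin g) : Thin (f + g) := by
  obtain ⟨c, hc⟩ := hf
  obtain ⟨c', hc'⟩ := hg
  refine ⟨c + c', fun d => ?_⟩
  rw [add_mul]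
  refine le_trans ?_ (add_le_add (hc d) (hc' d))
  rw [← Finset.sum_add_distrib]
  refine Finset.sum_le_sum fun p _ => ?_
  rw [map_add]
  exact norm_add_le _ _
theorem Thin.neg {f : PS R} (hf : Thin f) : Thin (-f) := by
  obtain ⟨c, hc⟩ := hf
  refine ⟨c, fun d => ?_⟩
  simpa only [map_neg, norm_neg] using hc d
/-- At most `|d|` multiples `j • e`, `j ≥ 1`, lie below `d`. -/
theorem thin_geo {e : Ix} (he : e ≠ 0) (A : R) : Thin (geo e A) := by
  classical
  refine ⟨‖A‖, fun d => ?_⟩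
  have hsub : (Finset.HasAntidiagonal.antidiagonal d).filter (fun p : Ix × Ix => ∃ j : ℕ, 1 ≤ j ∧ p.1 = j • e) ⊆
      (Finset.Icc 1 (d 0 + d 1)).image (fun j : ℕ => (j • e, d - j • e)) := by
    intro p hp
    obtain ⟨hp1, j, hj, hpj⟩ := Finset.mem_filter.1 hp
    have hsum : p.1 + p.2 = d := Finset.HasAntidiagonal.mem_antidiagonal.1 hp1
    refine Finset.mem_image.2 ⟨j, Finset.mem_Icc.2 ⟨hj, ?_⟩, ?_⟩
    · have he' : 1 ≤ e 0 + e 1 := by
        by_contra h
        apply he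
        ext i
        fin_cases i <;> simp <;> omega
      have h0 : d 0 = j * e 0 + p.2 0 := by rw [← hsum, hpj]; simp
      have h1 : d 1 = j * e 1 + p.2 1 := by rw [← hsum, hpj]; simp
      nlinarith [Nat.zero_le (p.2 0), Nat.zero_le (p.2 1)]
    · refine Prod.ext hpj.symm ?_
      show d - j • e = p.2
      rw [← hsum, hpj, add_tsub_cancel_left]
  have hcard : ((Finset.HasAntidiagonal.antidiagonal d).filter
      (fun p : Ix × Ix => ∃ j : ℕ, 1 ≤ j ∧ p.1 = j • e)).card ≤ d 0 + d 1 := by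
    refine (Finset.card_le_card hsub).trans (Finset.card_image_le.trans ?_)
    simp
  calc ∑ p ∈ Finset.HasAntidiagonal.antidiagonal d, ‖coeff p.1 (geo e A)‖
      = ∑ p ∈ Finset.HasAntidiagonal.antidiagonal d,
          if ∃ j : ℕ, 1 ≤ j ∧ p.1 = j • e then ‖A‖ else 0 := by
        refine Finset.sum_congr rfl fun p _ => ?_
        rw [coeff_geo]
        split_ifs <;> simp
    _ = ((Finset.HasAntidiagonal.antidiagonal d).filter
          (fun p : Ix × Ix => ∃ j : ℕ, 1 ≤ j ∧ p.1 = j • e)).card * ‖A‖ := by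
        rw [← Finset.sum_filter, Finset.sum_const, nsmul_eq_mul]
    _ ≤ _ := by
        rw [mul_comm]
        exact mul_le_mul_of_nonneg_left (by exact_mod_cast hcard) (norm_nonneg _)

/-- Division of the coefficient of degree `n` by `n` (and by convention `0⁻¹ = 0`). -/
def kz3_inv : PS R →ₗ[ℝ] PS R where
  toFun f := fun d => ((d 0 + d 1 : ℕ) : ℝ)⁻¹ • coeff d f
  map_add' f g := by ext d; exact smul_add _ _ _
  map_smul' c f := by ext d; exact smul_comm _ _ _

theorem kz3_coeff_inv (f : PS R) (d : Ix) :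
    coeff d (kz3_inv f) = ((d 0 + d 1 : ℕ) : ℝ)⁻¹ • coeff d f := rfl

theorem kz3_const_inv (f : PS R) : constantCoeff (kz3_inv f) = 0 := by
  rw [← coeff_zero_eq_constantCoeff_apply, kz3_coeff_inv]
  simp

theorem kz3_thr_inv {f : PS R} (hf : constantCoeff f = 0) : thr (kz3_inv f) = f := by
  ext d
  rw [coeff_thr, kz3_coeff_inv, smul_smul]
  by_cases h : d 0 + d 1 = 0
  · have hd : d = 0 := by
      ext i
      fin_cases i <;> simp <;> omega
    subst hd
    rw [coeff_zero_eq_constantCoeff_apply, hf, smul_zero]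
  · rw [mul_inv_cancel₀ (Nat.cast_ne_zero.2 h), one_smul]

/-- The right-hand side of the radial equation. -/
def kz3_rhs (T : R) (S S' : PS R) : PS R →ₗ[ℝ] PS R :=
  LinearMap.mulLeft ℝ (C T) - LinearMap.mulRight ℝ (C T) + LinearMap.mulLeft ℝ S + LinearMap.mulRight ℝ S'

theorem kz3_rhs_apply (T : R) (S S' W : PS R) :
    kz3_rhs T S S' W = C T * W - W * C T + S * W + W * S' := rfl

/-- The Picard operator. -/
def kz3_pic (T : R) (S S' : PS R) : Module.End ℝ (PS R) := kz3_inv ∘ₗ kz3_rhs T S S'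

theorem kz3_coeff_pic (T : R) (S S' W : PS R) (d : Ix) :
    coeff d (kz3_pic T S S' W) = ((d 0 + d 1 : ℕ) : ℝ)⁻¹ • (T * coeff d W - coeff d W * T +
      ∑ p ∈ Finset.HasAntidiagonal.antidiagonal d, coeff p.1 S * coeff p.2 W +
      ∑ p ∈ Finset.HasAntidiagonal.antidiagonal d, coeff p.1 W * coeff p.2 S') := by
  rw [kz3_pic, LinearMap.comp_apply, kz3_coeff_inv, kz3_rhs_apply, map_add, map_add, map_sub, coeff_C_mul,
    coeff_mul_C, coeff_mul, coeff_mul]

theorem kz3_pic_fil {ι : Type} {v : ι → R} {T : R} {S S' W : PS R} {j : ℕ}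
    (hT : T ∈ filR ℝ v 1) (hS : ∀ d, coeff d S ∈ filR ℝ v 1) (hS' : ∀ d, coeff d S' ∈ filR ℝ v 1)
    (hW : ∀ d, coeff d W ∈ filR ℝ v j) (d : Ix) : coeff d (kz3_pic T S S' W) ∈ filR ℝ v (j + 1) := by
  rw [kz3_coeff_pic]
  refine Submodule.smul_mem _ _ (add_mem (add_mem (sub_mem ?_ ?_) (sum_mem fun p _ => ?_)) (sum_mem fun p _ => ?_))
  · rw [add_comm]; exact mul_mem_filR hT (hW d)
  · exact mul_mem_filR (hW d) hT
  · rw [add_comm]; exact mul_mem_filR (hS _) (hW _)
  · exact mul_mem_filR (hW _) (hS' _)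

omit [NormedAlgebra ℝ R] in
theorem kz3_bdd_add {f g : PS R} (hf : Bdd f) (hg : Bdd g) : Bdd (f + g) := by
  obtain ⟨c, hc⟩ := hf
  obtain ⟨c', hc'⟩ := hg
  refine ⟨c + c', fun d => ?_⟩
  rw [map_add]
  exact (norm_add_le _ _).trans (add_le_add (hc d) (hc' d))

theorem kz3_pic_bdd (T : R) {S S' W : PS R} (tS : Thin S) (tS' : Thin S') (hW : Bdd W) :
    Bdd (kz3_pic T S S' W) := by
  obtain ⟨c, hc⟩ := tS
  obtain ⟨c', hc'⟩ := tS'
  obtain ⟨b, hb⟩ := hW
  have hb0 : 0 ≤ b := (norm_nonneg _).trans (hb 0)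
  refine ⟨2 * ‖T‖ * b + |c| * b + |c'| * b, fun d => ?_⟩
  rw [kz3_coeff_pic]
  by_cases h : d 0 + d 1 = 0
  · rw [h]
    simp only [Nat.cast_zero, inv_zero, zero_smul, norm_zero]
    positivity
  set n : ℝ := ((d 0 + d 1 : ℕ) : ℝ) with hn
  have hn1 : 1 ≤ n := by
    rw [hn]
    exact_mod_cast Nat.one_le_iff_ne_zero.2 h
  have e1 : ‖T * coeff d W‖ ≤ ‖T‖ * b :=
    (norm_mul_le _ _).trans (mul_le_mul_of_nonneg_left (hb d) (norm_nonneg _))
  have e2 : ‖coeff d W * T‖ ≤ ‖T‖ * b := by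
    rw [mul_comm ‖T‖]
    exact (norm_mul_le _ _).trans (mul_le_mul_of_nonneg_right (hb d) (norm_nonneg _))
  have e3 : ‖∑ p ∈ Finset.HasAntidiagonal.antidiagonal d, coeff p.1 S * coeff p.2 W‖ ≤ |c| * n * b := by
    calc _ ≤ ∑ p ∈ Finset.HasAntidiagonal.antidiagonal d, ‖coeff p.1 S‖ * b :=
          norm_sum_le_of_le _ fun p _ =>
            (norm_mul_le _ _).trans (mul_le_mul_of_nonneg_left (hb _) (norm_nonneg _))
      _ = (∑ p ∈ Finset.HasAntidiagonal.antidiagonal d, ‖coeff p.1 S‖) * b := (Finset.sum_mul _ _ _).symm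
      _ ≤ _ := mul_le_mul_of_nonneg_right ((hc d).trans
          (mul_le_mul_of_nonneg_right (le_abs_self c) (by linarith))) hb0
  have e4 : ‖∑ p ∈ Finset.HasAntidiagonal.antidiagonal d, coeff p.1 W * coeff p.2 S'‖ ≤ |c'| * n * b := by
    calc _ ≤ ∑ p ∈ Finset.HasAntidiagonal.antidiagonal d, ‖coeff p.2 S'‖ * b :=
          norm_sum_le_of_le _ fun p _ => by
            rw [mul_comm _ b]
            exact (norm_mul_le _ _).trans (mul_le_mul_of_nonneg_right (hb _) (norm_nonneg _))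
      _ = (∑ p ∈ Finset.HasAntidiagonal.antidiagonal d, ‖coeff p.2 S'‖) * b := (Finset.sum_mul _ _ _).symm
      _ = (∑ p ∈ Finset.HasAntidiagonal.antidiagonal d, ‖coeff p.1 S'‖) * b := by
          rw [Finsupp.sum_antidiagonal_swap d (fun _ q : Ix => ‖coeff q S'‖)]
      _ ≤ _ := mul_le_mul_of_nonneg_right ((hc' d).trans
          (mul_le_mul_of_nonneg_right (le_abs_self c') (by linarith))) hb0
  rw [norm_smul, norm_inv, Real.norm_of_nonneg (by linarith), inv_mul_le_iff₀ (by linarith)]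
  have e5 : 0 ≤ ‖T‖ * b := by positivity
  calc _ ≤ ‖T‖ * b + ‖T‖ * b + |c| * n * b + |c'| * n * b :=
        (norm_add_le _ _).trans (add_le_add ((norm_add_le _ _).trans (add_le_add
          ((norm_sub_le _ _).trans (add_le_add e1 e2)) e3)) e4)
    _ ≤ _ := by nlinarith

theorem kz3_geo_fil {ι : Type} {v : ι → R} {A : R} (hA : A ∈ filR ℝ v 1) (e d : Ix) :
    coeff d (geo e A) ∈ filR ℝ v 1 := by
  rw [coeff_geo]
  split_ifs
  · exact hA
  · exact zero_mem _

/-- **Existence** by Picard iteration.  Let `inv` act on the coefficient of degree `n ≥ 1` by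
`(n - ad T)⁻¹ = ∑_{l ≤ 2N} (ad T)^l / n^(l+1)` (`T^(N+1) = 0`, so `(ad T)^(2N+1) = 0`) and by `0` in
degree `0`; let `𝒯 W = inv (S W + W S')`.  Then `𝒯` preserves `Bdd` (the factor `|d|` of `Thin` is
cancelled by `1/n`), the coefficients of `𝒯^j 1` lie in `filR ℝ v j`, so `𝒯^(N+1) 1 = 0` and
`H = ∑_{j ≤ N} 𝒯^j 1` satisfies `H = 1 + 𝒯 H`. -/
theorem exists_sol {ι : Type} {N : ℕ} {v : ι → R} (hv : Nil N v) {T : R} {S S' : PS R}
    (hT : T ∈ filR ℝ v 1) (hS : ∀ d, coeff d S ∈ filR ℝ v 1) (hS' : ∀ d, coeff d S' ∈ filR ℝ v 1)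
    (hS0 : constantCoeff S = 0) (hS0' : constantCoeff S' = 0) (tS : Thin S) (tS' : Thin S') :
    ∃ H : PS R, IsSol T S S' H ∧ Bdd H := by
  set P : Module.End ℝ (PS R) := kz3_pic T S S' with hP
  have hfil : ∀ j d, coeff d ((P ^ j) (1 : PS R)) ∈ filR ℝ v j := by
    intro j
    induction j with
    | zero =>
      intro d
      rw [pow_zero, Module.End.one_apply, coeff_one]
      split_ifs
      · exact one_mem_filR v
      · exact zero_mem _
    | succ j ih =>
      rw [pow_succ', Module.End.mul_apply]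
      exact kz3_pic_fil hT hS hS' ih
  have hbdd : ∀ j, Bdd ((P ^ j) (1 : PS R)) := by
    intro j
    induction j with
    | zero =>
      refine ⟨‖(1 : R)‖, fun d => ?_⟩
      rw [pow_zero, Module.End.one_apply, coeff_one]
      split_ifs
      · exact le_rfl
      · simp
    | succ j ih =>
      rw [pow_succ', Module.End.mul_apply]
      exact kz3_pic_bdd T tS tS' ih
  have hzero : (P ^ (N + 1)) (1 : PS R) = 0 := by
    ext d
    have := hfil (N + 1) d
    rw [hv.filR_eq_bot] at this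
    simpa using this
  set H : PS R := ∑ j ∈ Finset.range (N + 1), (P ^ j) (1 : PS R) with hH
  have hfix : H = 1 + P H := by
    have h1 : P H = ∑ j ∈ Finset.range (N + 1), (P ^ (j + 1)) (1 : PS R) := by
      rw [hH, map_sum]
      refine Finset.sum_congr rfl fun j _ => ?_
      rw [pow_succ', Module.End.mul_apply]
    have h2 := Finset.sum_range_succ' (fun j => (P ^ j) (1 : PS R)) (N + 1)
    rw [Finset.sum_range_succ, hzero, add_zero, ← hH, ← h1, pow_zero, Module.End.one_apply] at h2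
    rw [add_comm]
    exact h2
  have hconst : constantCoeff H = 1 := by
    rw [hfix, map_add, map_one, hP, kz3_pic, LinearMap.comp_apply, kz3_const_inv, add_zero]
  refine ⟨H, ⟨hconst, ?_⟩, ?_⟩
  · have h0 : constantCoeff (kz3_rhs T S S' H) = 0 := by
      rw [kz3_rhs_apply]
      simp [hconst, hS0, hS0']
    conv_lhs => rw [hfix]
    rw [map_add, thr_one, zero_add, hP, kz3_pic, LinearMap.comp_apply, kz3_thr_inv h0, kz3_rhs_apply]
  · rw [hH]
    refine Finset.sum_induction _ Bdd (fun a b => kz3_bdd_add) ⟨0, fun d => by simp⟩ fun j _ => hbdd j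

theorem Bdd.conv {f : PS R} (h : Bdd f) : Conv f := by
  obtain ⟨c, hc⟩ := h
  intro r hr0 hr1
  have hg : Summable (fun n : ℕ => r ^ n) := summable_geometric_of_lt_one hr0 hr1
  have h2 : Summable (fun x : ℕ × ℕ => r ^ x.1 * r ^ x.2) :=
    hg.mul_of_nonneg hg (fun n => pow_nonneg hr0 n) (fun n => pow_nonneg hr0 n)
  have hinj : Function.Injective (fun d : Ix => (d 0, d 1)) := by
    intro d d' hdd
    ext i
    fin_cases i
    · exact congrArg Prod.fst hdd
    · exact congrArg Prod.snd hdd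
  have h3 := (h2.comp_injective hinj).mul_left c
  refine Summable.of_nonneg_of_le (fun d => by positivity) (fun d => ?_) h3
  simp only [Function.comp_apply]
  rw [← pow_add]
  exact mul_le_mul_of_nonneg_right (hc d) (pow_nonneg hr0 _)

theorem exists_KZPair {N : ℕ} {A B : R} (h : Nil N ![A, B]) : ∃ H J, KZPair A B H J := by
  have hA : A ∈ filR ℝ ![A, B] 1 := self_mem_filR ![A, B] 0
  have hB : B ∈ filR ℝ ![A, B] 1 := self_mem_filR ![A, B] 1
  obtain ⟨H, hH, bH⟩ := exists_sol h (T := A) (S := -geo e0 B) (S' := 0) hA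
    (fun d => by rw [map_neg]; exact neg_mem (kz3_geo_fil hB _ _)) (fun d => by simp)
    (by rw [map_neg, constantCoeff_geo e0_ne, neg_zero]) (map_zero _) (thin_geo e0_ne B).neg Thin.zero
  obtain ⟨J, hJ, bJ⟩ := exists_sol h (T := B) (S := 0) (S' := geo e1 A) hB
    (fun d => by simp) (fun d => kz3_geo_fil hA _ _)
    (map_zero _) (constantCoeff_geo e1_ne A) Thin.zero (thin_geo e1_ne A)
  exact ⟨H, J, hH, hJ, bH.conv, bJ.conv⟩

theorem exists_KZTwo {N : ℕ} {T : Fin 5 → R} (h : Nil N T) : ∃ H J, KZTwo T H J := by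
  have hT : ∀ i, T i ∈ filR ℝ T 1 := self_mem_filR T
  have hE : T 4 - T 1 - T 2 ∈ filR ℝ T 1 := sub_mem (sub_mem (hT 4) (hT 1)) (hT 2)
  have hS : ∀ d, coeff d (Pser T + Qser T) ∈ filR ℝ T 1 := by
    intro d
    simp only [Pser, Qser, map_add, map_sub, map_neg]
    exact add_mem (sub_mem (neg_mem (kz3_geo_fil (hT 1) _ _)) (kz3_geo_fil hE _ _))
      (sub_mem (neg_mem (kz3_geo_fil (hT 2) _ _)) (kz3_geo_fil hE _ _))
  have hS0 : constantCoeff (Pser T + Qser T) = 0 := by
    rw [map_add, constantCoeff_Pser, constantCoeff_Qser, add_zero]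
  have tS : Thin (Pser T + Qser T) := by
    simp only [Pser, Qser, sub_eq_add_neg (-geo _ _)]
    exact ((thin_geo e0_ne _).neg.add (thin_geo e01_ne _).neg).add
      ((thin_geo e1_ne _).neg.add (thin_geo e01_ne _).neg)
  obtain ⟨H, hH, bH⟩ := exists_sol h (T := T 0 + T 3) (S := Pser T + Qser T) (S' := 0)
    (add_mem (hT 0) (hT 3)) hS (fun d => by simp) hS0 (map_zero _) tS Thin.zero
  obtain ⟨J, hJ, bJ⟩ := exists_sol h (T := T 0 + T 3) (S := 0) (S' := -(Pser T + Qser T))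
    (add_mem (hT 0) (hT 3)) (fun d => by simp) (fun d => by rw [map_neg]; exact neg_mem (hS d)) (map_zero _)
    (by rw [map_neg, hS0, neg_zero]) Thin.zero tS.neg
  exact ⟨H, J, hH, hJ, bH.conv, bJ.conv⟩

end Crest.Agent.R010
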