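import Crest.Agent.R010.KZ1

/-! # Row 10, KZ: sums of power series on the bidisc; powers `t ^ A` -/

set_option autoImplicit false

noncomputable section

namespace Crest.Agent.R010

open MvPowerSeries

variable {R R' : Type} [NormedRing R] [NormedAlgebra ℝ R] [CompleteSpace R]
  [NormedRing R'] [NormedAlgebra ℝ R'] [CompleteSpace R']

theorem kz4_pow {r ρ : ℝ} (h0 : 0 ≤ r) (h : r < ρ) (n : ℕ) :
    n * r ^ (n - 1) ≤ (ρ - r)⁻¹ * ρ ^ n := by
  have key : ∀ n : ℕ, (ρ - r) * ((n + 1) * r ^ n) ≤ ρ ^ (n + 1) - r ^ (n + 1) := by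
    intro n
    induction n with
    | zero => simp
    | succ n ih =>
      have h1 := mul_le_mul_of_nonneg_left ih (h0.trans h.le)
      have h2 : r * ((ρ - r) * ((n + 1) * r ^ n)) ≤ ρ * ((ρ - r) * ((n + 1) * r ^ n)) :=
        mul_le_mul_of_nonneg_right h.le (mul_nonneg (sub_pos.mpr h).le (by positivity))
      push_cast
      simp only [pow_succ] at *
      nlinarith
  have hρ : 0 ≤ ρ := h0.trans h.le
  rw [le_inv_mul_iff₀ (sub_pos.mpr h)]
  cases n with
  | zero => simp
  | succ n =>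
    have := key n
    have h1 : 0 ≤ r ^ (n + 1) := by positivity
    rw [Nat.add_sub_cancel]
    push_cast
    linarith

theorem kz4_mul_pow (x : ℝ) (n : ℕ) : x * (n * x ^ (n - 1)) = x ^ n * n := by
  cases n with
  | zero => simp
  | succ n => simp only [Nat.add_sub_cancel]; ring

theorem kz4_deg {e : Ix} (he : e ≠ 0) : e 0 + e 1 ≠ 0 := by
  intro h
  refine he (Finsupp.ext fun i => ?_)
  fin_cases i <;> simp <;> omega

theorem kz4_inj {e : Ix} (he : e ≠ 0) : Function.Injective fun j : ℕ => (j + 1) • e := by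
  intro j k h
  have h0 := DFunLike.congr_fun h 0
  have h1 := DFunLike.congr_fun h 1
  simp only [Finsupp.smul_apply, smul_eq_mul] at h0 h1
  have h2 : (j + 1) * (e 0 + e 1) = (k + 1) * (e 0 + e 1) := by rw [mul_add, mul_add, h0, h1]
  simpa [kz4_deg he, -Nat.add_eq_zero_iff] using h2

omit [NormedAlgebra ℝ R] [CompleteSpace R] in
theorem kz4_geo_in (e : Ix) (A : R) (j : ℕ) : coeff ((j + 1) • e) (geo e A) = A :=
  if_pos ⟨j + 1, Nat.le_add_left _ _, rfl⟩

omit [NormedAlgebra ℝ R] [CompleteSpace R] in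
theorem kz4_geo_out {e : Ix} (A : R) {d : Ix} (hd : d ∉ Set.range fun j : ℕ => (j + 1) • e) :
    coeff d (geo e A) = 0 :=
  if_neg fun ⟨j, hj, h⟩ => hd ⟨j - 1, by simp only [Nat.sub_add_cancel hj, h]⟩

omit [CompleteSpace R] in
theorem kz4_ball (x : R) : x ∈ Metric.eball (0 : R) (NormedSpace.expSeries ℝ R).radius :=
  (NormedSpace.expSeries_radius_eq_top ℝ R).symm ▸ edist_lt_top _ _

theorem Conv.add {f g : PS R} (hf : Conv f) (hg : Conv g) : Conv (f + g) := by
  intro r h0 h1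
  refine Summable.of_nonneg_of_le (fun d => by positivity) (fun d => ?_) ((hf r h0 h1).add (hg r h0 h1))
  rw [map_add, ← add_mul]
  exact mul_le_mul_of_nonneg_right (norm_add_le _ _) (by positivity)
theorem Conv.neg {f : PS R} (hf : Conv f) : Conv (-f) := by
  intro r h0 h1
  simpa only [map_neg, norm_neg] using hf r h0 h1
theorem Conv.sub {f g : PS R} (hf : Conv f) (hg : Conv g) : Conv (f - g) := by
  rw [sub_eq_add_neg]; exact hf.add hg.neg
theorem Conv.mul {f g : PS R} (hf : Conv f) (hg : Conv g) : Conv (f * g) := by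
  intro r h0 h1
  have h := summable_sum_mul_antidiagonal_of_summable_mul
    (f := fun d : Ix => ‖coeff d f‖ * r ^ (d 0 + d 1)) (g := fun d : Ix => ‖coeff d g‖ * r ^ (d 0 + d 1))
    ((hf r h0 h1).mul_of_nonneg (hg r h0 h1) (fun d => by positivity) (fun d => by positivity))
  refine Summable.of_nonneg_of_le (fun d => by positivity) (fun d => ?_) h
  rw [coeff_mul]
  refine (mul_le_mul_of_nonneg_right (norm_sum_le _ _) (by positivity)).trans ?_
  rw [Finset.sum_mul]
  refine Finset.sum_le_sum fun p hp => ?_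
  have e : p.1 + p.2 = d := Finset.HasAntidiagonal.mem_antidiagonal.mp hp
  have e' : r ^ (d 0 + d 1) = r ^ (p.1 0 + p.1 1) * r ^ (p.2 0 + p.2 1) := by
    rw [← e, ← pow_add]; congr 1; simp only [Finsupp.add_apply]; ring
  rw [e', mul_mul_mul_comm]
  exact mul_le_mul_of_nonneg_right (norm_mul_le _ _) (by positivity)
theorem Conv.th {f : PS R} (hf : Conv f) (i : Fin 2) : Conv (th i f) := by
  intro r h0 h1
  have hρ : r < (r + 1) / 2 := by linarith
  refine Summable.of_nonneg_of_le (fun d => by positivity) (fun d => ?_)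
    ((hf ((r + 1) / 2) (by linarith) (by linarith)).mul_left ((r + 1) / 2 - r)⁻¹)
  rw [coeff_th, norm_smul, Real.norm_natCast, mul_left_comm, mul_comm (d i : ℝ), mul_assoc]
  refine mul_le_mul_of_nonneg_left ?_ (norm_nonneg _)
  refine le_trans ?_ (kz4_pow h0 hρ (d 0 + d 1))
  have h2 : (d i : ℝ) ≤ ((d 0 + d 1 : ℕ) : ℝ) := by
    fin_cases i <;> simp
  exact mul_le_mul h2 (pow_le_pow_of_le_one h0 h1.le (Nat.sub_le _ _)) (by positivity) (by positivity)
theorem Conv.res {f : PS R} (hf : Conv f) (i : Fin 2) : Conv (res i f) := by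
  intro r h0 h1
  refine Summable.of_nonneg_of_le (fun d => by positivity) (fun d => ?_) (hf r h0 h1)
  refine mul_le_mul_of_nonneg_right ?_ (by positivity)
  rw [coeff_res]
  split_ifs <;> simp
theorem Conv.map (φ : R →ₐ[ℝ] R') (hφ : Continuous φ) {f : PS R} (hf : Conv f) :
    Conv (MvPowerSeries.map (φ : R →+* R') f) := by
  intro r h0 h1
  let L : R →L[ℝ] R' := ⟨φ.toLinearMap, hφ⟩
  refine Summable.of_nonneg_of_le (fun d => by positivity) (fun d => ?_) ((hf r h0 h1).mul_left ‖L‖)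
  rw [coeff_map, ← mul_assoc]
  exact mul_le_mul_of_nonneg_right (L.le_opNorm _) (by positivity)
theorem conv_C (a : R) : Conv (C a : PS R) := by
  intro r _ _
  refine summable_of_ne_finset_zero (s := {0}) fun d hd => ?_
  rw [coeff_C, if_neg (by simpa using hd), norm_zero, zero_mul]
theorem conv_one : Conv (1 : PS R) := by
  simpa using conv_C (1 : R)
theorem conv_geo {e : Ix} (he : e ≠ 0) (A : R) : Conv (geo e A) := by
  intro r h0 h1
  rw [← (kz4_inj he).summable_iff fun d hd => by rw [kz4_geo_out A hd, norm_zero, zero_mul]]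
  have hm : r ^ (e 0 + e 1) < 1 := pow_lt_one₀ h0 h1 (kz4_deg he)
  refine (((summable_geometric_of_lt_one (by positivity) hm).mul_left
    (‖A‖ * r ^ (e 0 + e 1)))).congr fun j => ?_
  simp only [Function.comp, kz4_geo_in, Finsupp.smul_apply, smul_eq_mul]
  ring
theorem conv_Pser (T : Fin 5 → R) : Conv (Pser T) := by
  exact (conv_geo e0_ne _).neg.sub (conv_geo e01_ne _)
theorem conv_Qser (T : Fin 5 → R) : Conv (Qser T) := by
  exact (conv_geo e1_ne _).neg.sub (conv_geo e01_ne _)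

section Eval

variable {u v : ℝ}

theorem Conv.summable_norm {f : PS R} (hf : Conv f) (hu : |u| < 1) (hv : |v| < 1) :
    Summable (fun d : Ix => ‖(u ^ d 0 * v ^ d 1) • coeff d f‖) := by
  refine Summable.of_nonneg_of_le (fun d => norm_nonneg _) (fun d => ?_)
    (hf (max |u| |v|) (le_max_of_le_left (abs_nonneg _)) (max_lt hu hv))
  rw [norm_smul, mul_comm, Real.norm_eq_abs, abs_mul, abs_pow, abs_pow, pow_add]
  gcongr
  · exact le_max_left _ _
  · exact le_max_right _ _
theorem Conv.hasSum {f : PS R} (hf : Conv f) (hu : |u| < 1) (hv : |v| < 1) :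
    HasSum (fun d : Ix => (u ^ d 0 * v ^ d 1) • coeff d f) (evalPS f u v) := by
  exact (hf.summable_norm hu hv).of_norm.hasSum
theorem evalPS_add {f g : PS R} (hf : Conv f) (hg : Conv g) (hu : |u| < 1) (hv : |v| < 1) :
    evalPS (f + g) u v = evalPS f u v + evalPS g u v := by
  refine HasSum.tsum_eq ?_
  simpa only [map_add, smul_add] using (hf.hasSum hu hv).add (hg.hasSum hu hv)
theorem evalPS_neg (f : PS R) (u v : ℝ) : evalPS (-f) u v = -evalPS f u v := by
  simp only [evalPS, map_neg, smul_neg, tsum_neg]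
theorem evalPS_sub {f g : PS R} (hf : Conv f) (hg : Conv g) (hu : |u| < 1) (hv : |v| < 1) :
    evalPS (f - g) u v = evalPS f u v - evalPS g u v := by
  rw [sub_eq_add_neg, evalPS_add hf hg.neg hu hv, evalPS_neg, sub_eq_add_neg]
theorem evalPS_mul {f g : PS R} (hf : Conv f) (hg : Conv g) (hu : |u| < 1) (hv : |v| < 1) :
    evalPS (f * g) u v = evalPS f u v * evalPS g u v := by
  have h1 := hf.summable_norm hu hv
  have h2 := hg.summable_norm hu hv
  have h3 := Summable.tsum_mul_tsum_eq_tsum_sum_antidiagonal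
    (f := fun d : Ix => (u ^ d 0 * v ^ d 1) • coeff d f) (g := fun d : Ix => (u ^ d 0 * v ^ d 1) • coeff d g)
    h1.of_norm h2.of_norm (summable_mul_of_summable_norm
      (f := fun d : Ix => (u ^ d 0 * v ^ d 1) • coeff d f) (g := fun d : Ix => (u ^ d 0 * v ^ d 1) • coeff d g) h1 h2)
  refine Eq.trans (tsum_congr fun d => ?_) h3.symm
  rw [coeff_mul, Finset.smul_sum]
  refine Finset.sum_congr rfl fun p hp => ?_
  have e : p.1 + p.2 = d := Finset.HasAntidiagonal.mem_antidiagonal.mp hp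
  rw [smul_mul_smul_comm, ← e]
  congr 1
  simp only [Finsupp.add_apply]
  ring
@[simp] theorem evalPS_C (a : R) (u v : ℝ) : evalPS (C a : PS R) u v = a := by
  rw [evalPS, tsum_eq_single 0 fun d hd => by rw [coeff_C, if_neg hd, smul_zero]]
  simp
@[simp] theorem evalPS_one (u v : ℝ) : evalPS (1 : PS R) u v = 1 := by
  simpa using evalPS_C (1 : R) u v
@[simp] theorem evalPS_zero (u v : ℝ) : evalPS (0 : PS R) u v = 0 := by
  simp [evalPS]
theorem evalPS_origin (f : PS R) : evalPS f 0 0 = constantCoeff f := by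
  rw [evalPS, tsum_eq_single 0 fun d hd => by rw [← pow_add, zero_pow (kz4_deg hd), zero_smul]]
  simp
theorem evalPS_geo {e : Ix} (he : e ≠ 0) (A : R) (hu : |u| < 1) (hv : |v| < 1) :
    evalPS (geo e A) u v = (u ^ e 0 * v ^ e 1 / (1 - u ^ e 0 * v ^ e 1)) • A := by
  refine HasSum.tsum_eq ?_
  rw [← (kz4_inj he).hasSum_iff fun d hd => by rw [kz4_geo_out A hd, smul_zero]]
  have hm : |u ^ e 0 * v ^ e 1| < 1 := by
    refine lt_of_le_of_lt ?_ (pow_lt_one₀ (le_max_of_le_left (abs_nonneg _)) (max_lt hu hv) (kz4_deg he))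
    rw [abs_mul, abs_pow, abs_pow, pow_add]
    gcongr
    · exact le_max_left _ _
    · exact le_max_right _ _
  have h := ((hasSum_geometric_of_abs_lt_one hm).mul_left (u ^ e 0 * v ^ e 1)).smul_const A
  rw [div_eq_mul_inv]
  convert h using 2 with j
  simp only [Function.comp, kz4_geo_in, Finsupp.smul_apply, smul_eq_mul]
  congr 1
  ring
theorem evalPS_Pser (T : Fin 5 → R) (hu : |u| < 1) (hv : |v| < 1) :
    evalPS (Pser T) u v = -(u / (1 - u)) • T 1 - (u * v / (1 - u * v)) • (T 4 - T 1 - T 2) := by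
  rw [Pser, evalPS_sub (conv_geo e0_ne _).neg (conv_geo e01_ne _) hu hv, evalPS_neg,
    evalPS_geo e0_ne _ hu hv, evalPS_geo e01_ne _ hu hv]
  simp [e0, e1]
theorem evalPS_Qser (T : Fin 5 → R) (hu : |u| < 1) (hv : |v| < 1) :
    evalPS (Qser T) u v = -(v / (1 - v)) • T 2 - (u * v / (1 - u * v)) • (T 4 - T 1 - T 2) := by
  rw [Qser, evalPS_sub (conv_geo e1_ne _).neg (conv_geo e01_ne _) hu hv, evalPS_neg,
    evalPS_geo e1_ne _ hu hv, evalPS_geo e01_ne _ hu hv]
  simp [e0, e1]
theorem evalPS_res_one (f : PS R) (u : ℝ) : evalPS (res 1 f) u 0 = evalPS f u 0 := by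
  refine tsum_congr fun d => ?_
  rw [coeff_res]
  split_ifs with h
  · rfl
  · simp [h]
theorem evalPS_res_zero (f : PS R) (v : ℝ) : evalPS (res 0 f) 0 v = evalPS f 0 v := by
  refine tsum_congr fun d => ?_
  rw [coeff_res]
  split_ifs with h
  · rfl
  · simp [h]
theorem evalPS_map (φ : R →ₐ[ℝ] R') (hφ : Continuous φ) {f : PS R} (hf : Conv f) (hu : |u| < 1)
    (hv : |v| < 1) : evalPS (MvPowerSeries.map (φ : R →+* R') f) u v = φ (evalPS f u v) := by
  refine HasSum.tsum_eq ?_
  have h := (hf.hasSum hu hv).map φ hφ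
  simpa only [Function.comp_def, map_smul, coeff_map, RingHom.coe_coe] using h
theorem commute_evalPS {z : R} {f : PS R} (hf : Conv f) (h : ∀ d, Commute z (coeff d f))
    (hu : |u| < 1) (hv : |v| < 1) : Commute z (evalPS f u v) := by
  exact Commute.tsum_right _ fun d => (h d).smul_right _

/-- Differentiability along curves (prove `HasFDerivAt` on a smaller bidisc with
`hasFDerivAt_tsum_of_isPreconnected`, then use the chain rule). -/
theorem hasDerivAt_evalPS {f : PS R} (hf : Conv f) {p q : ℝ → ℝ} {p' q' s : ℝ}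
    (hp : HasDerivAt p p' s) (hq : HasDerivAt q q' s) (hu : |p s| < 1) (hv : |q s| < 1) :
    ∃ fu fv : R, HasDerivAt (fun s => evalPS f (p s) (q s)) (p' • fu + q' • fv) s ∧
      p s • fu = evalPS (th 0 f) (p s) (q s) ∧ q s • fv = evalPS (th 1 f) (p s) (q s) := by
  obtain ⟨r, hr, hr1⟩ := exists_between (max_lt hu hv)
  have hr0 : 0 ≤ r := (le_max_of_le_left (abs_nonneg _)).trans hr.le
  have hρ : r < (r + 1) / 2 := by linarith
  set ρ := (r + 1) / 2 with hρd
  let a : Ix → ℝ × ℝ → ℝ := fun d x => d 0 * x.1 ^ (d 0 - 1) * x.2 ^ d 1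
  let b : Ix → ℝ × ℝ → ℝ := fun d x => x.1 ^ d 0 * (d 1 * x.2 ^ (d 1 - 1))
  let g' : Ix → ℝ × ℝ → (ℝ × ℝ →L[ℝ] R) := fun d x =>
    (a d x • ContinuousLinearMap.fst ℝ ℝ ℝ + b d x • ContinuousLinearMap.snd ℝ ℝ ℝ).smulRight (coeff d f)
  have hg : ∀ d x, g' d x = (fun h : ℝ × ℝ => (a d x * h.1 + b d x * h.2) • coeff d f) := fun d x => by
    funext h; simp [g']
  have hsum := (hf ρ (by linarith) (by linarith)).mul_left (2 * (ρ - r)⁻¹)
  have hbd : ∀ (d : Ix) (x : ℝ × ℝ), x ∈ Metric.ball (0 : ℝ × ℝ) r →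
      ‖g' d x‖ ≤ 2 * (ρ - r)⁻¹ * (‖coeff d f‖ * ρ ^ (d 0 + d 1)) := by
    intro d x hx
    have hx' : ‖x‖ ≤ r := (mem_ball_zero_iff.mp hx).le
    have hx1 : |x.1| ≤ r := (norm_fst_le x).trans hx'
    have hx2 : |x.2| ≤ r := (norm_snd_le x).trans hx'
    have hc : 0 ≤ (ρ - r)⁻¹ := (inv_pos.mpr (sub_pos.mpr hρ)).le
    have hρ0 : 0 ≤ ρ := hr0.trans hρ.le
    have ha : |a d x| ≤ (ρ - r)⁻¹ * ρ ^ (d 0 + d 1) := by
      simp only [a, abs_mul, abs_pow, Nat.abs_cast]
      rw [pow_add, ← mul_assoc]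
      refine mul_le_mul (le_trans ?_ (kz4_pow hr0 hρ _)) ?_ (by positivity) (by positivity)
      · gcongr
      · exact pow_le_pow_left₀ (abs_nonneg _) (hx2.trans hρ.le) _
    have hb : |b d x| ≤ (ρ - r)⁻¹ * ρ ^ (d 0 + d 1) := by
      simp only [b, abs_mul, abs_pow, Nat.abs_cast]
      rw [pow_add, mul_left_comm (ρ - r)⁻¹]
      refine mul_le_mul ?_ (le_trans ?_ (kz4_pow hr0 hρ _)) (by positivity) (by positivity)
      · exact pow_le_pow_left₀ (abs_nonneg _) (hx1.trans hρ.le) _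
      · gcongr
    refine ContinuousLinearMap.opNorm_le_bound _ (by positivity) fun h => ?_
    rw [hg, norm_smul, Real.norm_eq_abs]
    have h1 : |h.1| ≤ ‖h‖ := norm_fst_le h
    have h2 : |h.2| ≤ ‖h‖ := norm_snd_le h
    have h3 : |a d x * h.1 + b d x * h.2| ≤ 2 * ((ρ - r)⁻¹ * ρ ^ (d 0 + d 1)) * ‖h‖ := by
      refine (abs_add_le _ _).trans ?_
      rw [abs_mul (a d x), abs_mul (b d x)]
      have h4 := mul_le_mul ha h1 (abs_nonneg _) (by positivity)
      have h5 := mul_le_mul hb h2 (abs_nonneg _) (by positivity)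
      linarith
    refine (mul_le_mul_of_nonneg_right h3 (norm_nonneg _)).trans (le_of_eq ?_)
    ring
  have hx : (p s, q s) ∈ Metric.ball (0 : ℝ × ℝ) r := mem_ball_zero_iff.mpr hr
  have hF := hasFDerivAt_tsum_of_isPreconnected
    (f := fun (d : Ix) (x : ℝ × ℝ) => (x.1 ^ d 0 * x.2 ^ d 1) • coeff d f) (f' := g') hsum
    Metric.isOpen_ball (convex_ball _ _).isPreconnected
    (fun d x _ => by
      have h1 := (((hasDerivAt_pow (d 0) x.1).hasFDerivAt.comp x hasFDerivAt_fst).mul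
        ((hasDerivAt_pow (d 1) x.2).hasFDerivAt.comp x hasFDerivAt_snd)).smul_const (coeff d f)
      refine h1.congr_fderiv ?_
      refine ContinuousLinearMap.ext fun h => ?_
      rw [hg]
      simp only [a, b, ContinuousLinearMap.smulRight_apply, add_apply,
        smul_apply, ContinuousLinearMap.comp_apply, Function.comp,
        ContinuousLinearMap.toSpanSingleton_apply, ContinuousLinearMap.coe_fst', ContinuousLinearMap.coe_snd',
        smul_eq_mul]
      congr 1
      ring) hbd hx (hf.hasSum hu hv).summable hx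
  have hS : HasSum (fun d => g' d (p s, q s)) (∑' d, g' d (p s, q s)) :=
    (Summable.of_norm_bounded hsum fun d => hbd d _ hx).hasSum
  set L := ∑' d, g' d (p s, q s)
  refine ⟨L (1, 0), L (0, 1), ?_, ?_, ?_⟩
  · have h1 := hF.comp_hasDerivAt s (hp.prodMk hq)
    have h2 : L (p', q') = p' • L (1, 0) + q' • L (0, 1) := by
      rw [← map_smul, ← map_smul, ← map_add]; simp
    rw [h2] at h1
    exact h1
  · have h1 := ((ContinuousLinearMap.apply ℝ R ((1, 0) : ℝ × ℝ)).hasSum hS).const_smul (p s)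
    refine h1.tsum_eq.symm.trans (tsum_congr fun d => ?_)
    rw [ContinuousLinearMap.apply_apply, hg, coeff_th, smul_smul, smul_smul]
    congr 1
    simp only [a]
    linear_combination q s ^ d 1 * kz4_mul_pow (p s) (d 0)
  · have h1 := ((ContinuousLinearMap.apply ℝ R ((0, 1) : ℝ × ℝ)).hasSum hS).const_smul (q s)
    refine h1.tsum_eq.symm.trans (tsum_congr fun d => ?_)
    rw [ContinuousLinearMap.apply_apply, hg, coeff_th, smul_smul, smul_smul]
    congr 1
    simp only [b]
    linear_combination p s ^ d 0 * kz4_mul_pow (q s) (d 1)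

end Eval

/-! ### powers (use the `_of_mem_ball` lemmas with `𝕂 = ℝ`, radius `⊤`) -/

theorem pw_add {A B : R} (h : Commute A B) (t : ℝ) : pw t (A + B) = pw t A * pw t B := by
  rw [pw, pw, pw, smul_add]
  exact NormedSpace.exp_add_of_commute_of_mem_ball (𝕂 := ℝ) ((h.smul_left _).smul_right _)
    (kz4_ball _) (kz4_ball _)
@[simp] theorem pw_zero (t : ℝ) : pw t (0 : R) = 1 := by
  simp [pw]
@[simp] theorem pw_one (A : R) : pw 1 A = 1 := by
  simp [pw]
theorem pw_mul_neg (t : ℝ) (A : R) : pw t A * pw t (-A) = 1 := by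
  rw [← pw_add (Commute.refl A).neg_right, add_neg_cancel, pw_zero]
theorem pw_neg_mul (t : ℝ) (A : R) : pw t (-A) * pw t A = 1 := by
  rw [← pw_add (Commute.refl A).neg_left, neg_add_cancel, pw_zero]
theorem commute_pw {z A : R} (h : Commute z A) (t : ℝ) : Commute z (pw t A) := by
  exact (h.smul_right _).exp_right
theorem map_pw (φ : R →ₐ[ℝ] R') (hφ : Continuous φ) (t : ℝ) (A : R) :
    φ (pw t A) = pw t (φ A) := by
  rw [pw, pw, NormedSpace.map_exp_of_mem_ball (𝕂 := ℝ) φ hφ _ (kz4_ball _), map_smul]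
theorem pw_eq_sum {A : R} {N : ℕ} (h : A ^ (N + 1) = 0) (t : ℝ) :
    pw t A = ∑ j ∈ Finset.range (N + 1), (Real.log t ^ j / (j.factorial : ℝ)) • A ^ j := by
  rw [pw, NormedSpace.exp_eq_tsum ℝ]
  dsimp only
  rw [tsum_eq_sum (s := Finset.range (N + 1)) fun j hj => by
    rw [smul_pow, pow_eq_zero_of_le (by simpa using hj) h, smul_zero, smul_zero]]
  refine Finset.sum_congr rfl fun j _ => ?_
  rw [smul_pow, smul_smul, div_eq_inv_mul]
theorem hasDerivAt_pw (A : R) {p : ℝ → ℝ} {p' s : ℝ} (hp : HasDerivAt p p' s) (h0 : p s ≠ 0) :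
    HasDerivAt (fun s => pw (p s) A) ((p' / p s) • (A * pw (p s) A)) s := by
  exact (hasDerivAt_exp_smul_const' (𝕂 := ℝ) A (Real.log (p s))).scomp s (hp.log h0)
/-- `v · ‖v^A‖ · ‖v^B‖ → 0` for nilpotent `A`, `B` (polynomials in `log v`). -/
theorem tendsto_mul_norm_pw {A B : R} (hA : IsNilpotent A) (hB : IsNilpotent B) :
    Filter.Tendsto (fun v : ℝ => v * ‖pw v A‖ * ‖pw v B‖) (nhdsWithin 0 (Set.Ioi 0)) (nhds 0) := by
  have key : ∀ {A : R}, IsNilpotent A → ∃ (N : ℕ) (a : ℕ → ℝ), ∀ v : ℝ,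
      ‖pw v A‖ ≤ ∑ j ∈ Finset.range N, |Real.log v| ^ j * a j := by
    rintro A ⟨N, hN⟩
    refine ⟨N + 1, fun j => ‖A ^ j‖ / j.factorial, fun v => ?_⟩
    rw [pw_eq_sum (N := N) (by rw [pow_succ, hN, zero_mul])]
    refine norm_sum_le_of_le _ fun j _ => le_of_eq ?_
    rw [norm_smul, norm_div, norm_pow, Real.norm_eq_abs, Real.norm_natCast]
    ring
  have lim : ∀ n : ℕ, Filter.Tendsto (fun v : ℝ => v * |Real.log v| ^ n) (nhdsWithin 0 (Set.Ioi 0))
      (nhds 0) := fun n => by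
    have h := ((Real.tendsto_pow_log_div_mul_add_atTop 1 0 n one_ne_zero).comp
      tendsto_inv_nhdsGT_zero).abs
    rw [abs_zero] at h
    refine h.congr' ?_
    filter_upwards [self_mem_nhdsWithin] with v hv
    have hv' : 0 < v := hv
    simp [abs_mul, abs_of_pos hv', mul_comm]
  obtain ⟨N, a, ha⟩ := key hA
  obtain ⟨M, b, hb⟩ := key hB
  have h1 : Filter.Tendsto (fun v : ℝ => ∑ j ∈ Finset.range N, ∑ k ∈ Finset.range M,
      v * |Real.log v| ^ (j + k) * (a j * b k)) (nhdsWithin 0 (Set.Ioi 0)) (nhds 0) := by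
    have h2 := tendsto_finsetSum (Finset.range N) fun j _ =>
      tendsto_finsetSum (Finset.range M) fun k _ => (lim (j + k)).mul_const (a j * b k)
    simpa using h2
  refine squeeze_zero' ?_ ?_ h1
  · filter_upwards [self_mem_nhdsWithin] with v hv
    have hv' : 0 < v := hv
    positivity
  · filter_upwards [self_mem_nhdsWithin] with v hv
    have hv' : 0 < v := hv
    rw [mul_assoc]
    refine (mul_le_mul_of_nonneg_left (mul_le_mul (ha v) (hb v) (norm_nonneg _)
      ((norm_nonneg _).trans (ha v))) hv'.le).trans (le_of_eq ?_)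
    rw [Finset.sum_mul_sum, Finset.mul_sum]
    refine Finset.sum_congr rfl fun j _ => ?_
    rw [Finset.mul_sum]
    exact Finset.sum_congr rfl fun k _ => by ring

theorem gam_pos : 0 < gam := by
  have : 1 < Real.sqrt 5 := Real.lt_sqrt_of_sq_lt (by norm_num)
  rw [gam]; linarith
theorem gam_lt_one : gam < 1 := by
  have : Real.sqrt 5 < 3 := (Real.sqrt_lt' (by norm_num)).2 (by norm_num)
  rw [gam]; linarith
theorem gam_sq : gam * gam = 1 - gam := by
  have : Real.sqrt 5 * Real.sqrt 5 = 5 := Real.mul_self_sqrt (by norm_num)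
  rw [gam]; linarith

end Crest.Agent.R010
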