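import Crest.Agent.R010.KZ2
import Crest.Agent.R010.KZ4

/-! # Row 10, KZ: the transition between two adjacent charts -/

set_option autoImplicit false

noncomputable section

namespace Crest.Agent.R010

open MvPowerSeries

variable {R : Type} [NormedRing R] [NormedAlgebra ℝ R] [CompleteSpace R]

/-- The flat section at the centre of the pentagon. -/
def Gcen (T : Fin 5 → R) (H : PS R) : R := evalPS H gam gam * pw gam (T 0) * pw gam (T 3)

/-- Its inverse. -/
def Ginv (T : Fin 5 → R) (J : PS R) : R := pw gam (-T 3) * pw gam (-T 0) * evalPS J gam gam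

theorem Gcen_mul_Ginv {T : Fin 5 → R} (hP : IsP5 T) (h03 : IsNilpotent (T 0 + T 3)) {H J : PS R}
    (h : KZTwo T H J) : Gcen T H * Ginv T J = 1 ∧ Ginv T J * Gcen T H = 1 := by
  have hg : |gam| < 1 := by rw [abs_of_pos gam_pos]; exact gam_lt_one
  obtain ⟨h1, h2⟩ := IsSol.mul_eq_one h03
    (by rw [map_add, constantCoeff_Pser, constantCoeff_Qser, add_zero]) h.solH h.solJ
  have e1 : evalPS J gam gam * evalPS H gam gam = 1 := by
    rw [← evalPS_mul h.convJ h.convH hg hg, h1, evalPS_one]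
  have e2 : evalPS H gam gam * evalPS J gam gam = 1 := by
    rw [← evalPS_mul h.convH h.convJ hg hg, h2, evalPS_one]
  constructor
  · calc Gcen T H * Ginv T J = evalPS H gam gam * (pw gam (T 0) *
          (pw gam (T 3) * pw gam (-T 3)) * pw gam (-T 0)) * evalPS J gam gam := by
          simp only [Gcen, Ginv, mul_assoc]
      _ = 1 := by rw [pw_mul_neg, mul_one, pw_mul_neg, mul_one, e2]
  · calc Ginv T J * Gcen T H = pw gam (-T 3) * (pw gam (-T 0) *
          (evalPS J gam gam * evalPS H gam gam) * pw gam (T 0)) * pw gam (T 3) := by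
          simp only [Gcen, Ginv, mul_assoc]
      _ = 1 := by rw [e1, mul_one, pw_neg_mul, mul_one, pw_neg_mul]

omit [CompleteSpace R] in
theorem kz5_nil {T : Fin 5 → R} {N : ℕ} (hN : Nil N T) (i : Fin 5) : IsNilpotent (T i) :=
  ⟨N + 1, hN.pow_eq_zero (k := ℝ) (Submodule.subset_span ⟨i, rfl⟩)⟩

omit [CompleteSpace R] in
theorem kz5_nil_add {T : Fin 5 → R} {N : ℕ} (hN : Nil N T) (i j : Fin 5) :
    IsNilpotent (T i + T j) :=
  ⟨N + 1, hN.pow_eq_zero (k := ℝ)
    (add_mem (Submodule.subset_span ⟨i, rfl⟩) (Submodule.subset_span ⟨j, rfl⟩))⟩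

theorem kz5_deriv_eval {f : PS R} (hf : Conv f) {p q : ℝ → ℝ} {p' q' s : ℝ}
    (hp : HasDerivAt p p' s) (hq : HasDerivAt q q' s) (hu : |p s| < 1) (hv : |q s| < 1)
    (hp0 : p s ≠ 0) (hq0 : q s ≠ 0) :
    HasDerivAt (fun s => evalPS f (p s) (q s)) ((p' / p s) • evalPS (th 0 f) (p s) (q s) +
      (q' / q s) • evalPS (th 1 f) (p s) (q s)) s := by
  obtain ⟨fu, fv, h1, h2, h3⟩ := hasDerivAt_evalPS hf hp hq hu hv
  rw [← h2, ← h3, smul_smul, smul_smul, div_mul_cancel₀ _ hp0, div_mul_cancel₀ _ hq0]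
  exact h1

/-- the connection form along a curve -/
def kz5Om (T : Fin 5 → R) (u v a b : ℝ) : R :=
  a • (T 0 + evalPS (Pser T) u v) + b • (T 3 + evalPS (Qser T) u v)

theorem kz5_derivG {T : Fin 5 → R} (hP : IsP5 T) (h03 : IsNilpotent (T 0 + T 3)) {H J : PS R}
    (h : KZTwo T H J) {p q : ℝ → ℝ} {p' q' s : ℝ}
    (hp : HasDerivAt p p' s) (hq : HasDerivAt q q' s) (hu : |p s| < 1) (hv : |q s| < 1)
    (hp0 : p s ≠ 0) (hq0 : q s ≠ 0) :
    HasDerivAt (fun s => evalPS H (p s) (q s) * pw (p s) (T 0) * pw (q s) (T 3))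
      (kz5Om T (p s) (q s) (p' / p s) (q' / q s) *
        (evalPS H (p s) (q s) * pw (p s) (T 0) * pw (q s) (T 3))) s := by
  obtain ⟨f0, f1⟩ := flat_H hP h03 h.solH
  have c := h.convH
  have h1 := ((kz5_deriv_eval c hp hq hu hv hp0 hq0).fun_mul
    (hasDerivAt_pw (T 0) hp hp0)).fun_mul (hasDerivAt_pw (T 3) hq hq0)
  rw [f0, f1, evalPS_add (((conv_C _).mul c).sub (c.mul (conv_C _))) ((conv_Pser T).mul c) hu hv,
    evalPS_add (((conv_C _).mul c).sub (c.mul (conv_C _))) ((conv_Qser T).mul c) hu hv,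
    evalPS_sub ((conv_C _).mul c) (c.mul (conv_C _)) hu hv,
    evalPS_sub ((conv_C _).mul c) (c.mul (conv_C _)) hu hv,
    evalPS_mul (conv_C _) c hu hv, evalPS_mul (conv_C _) c hu hv,
    evalPS_mul c (conv_C _) hu hv, evalPS_mul c (conv_C _) hu hv,
    evalPS_mul (conv_Pser T) c hu hv, evalPS_mul (conv_Qser T) c hu hv,
    evalPS_C, evalPS_C] at h1
  refine h1.congr_deriv ?_
  have c30 : Commute (T 3) (T 0) := hP.comm 3
  have e : ∀ z : R, pw (p s) (T 0) * (T 3 * z) = T 3 * (pw (p s) (T 0) * z) := fun z => by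
    rw [← mul_assoc, ← (commute_pw c30 (p s)).eq, mul_assoc]
  simp only [kz5Om, add_mul, sub_mul, smul_add, smul_sub, smul_mul_assoc, mul_smul_comm,
    mul_assoc, e]
  abel

theorem kz5_derivJ {T : Fin 5 → R} (hP : IsP5 T) (h03 : IsNilpotent (T 0 + T 3)) {H J : PS R}
    (h : KZTwo T H J) {p q : ℝ → ℝ} {p' q' s : ℝ}
    (hp : HasDerivAt p p' s) (hq : HasDerivAt q q' s) (hu : |p s| < 1) (hv : |q s| < 1)
    (hp0 : p s ≠ 0) (hq0 : q s ≠ 0) :
    HasDerivAt (fun s => pw (q s) (-T 3) * pw (p s) (-T 0) * evalPS J (p s) (q s))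
      (-(pw (q s) (-T 3) * pw (p s) (-T 0) * evalPS J (p s) (q s) *
        kz5Om T (p s) (q s) (p' / p s) (q' / q s))) s := by
  obtain ⟨f0, f1⟩ := flat_J hP h03 h.solH h.solJ
  have c := h.convJ
  have h1 := ((hasDerivAt_pw (-T 3) hq hq0).fun_mul (hasDerivAt_pw (-T 0) hp hp0)).fun_mul
    (kz5_deriv_eval c hp hq hu hv hp0 hq0)
  rw [f0, f1, evalPS_sub (((conv_C _).mul c).sub (c.mul (conv_C _))) (c.mul (conv_Pser T)) hu hv,
    evalPS_sub (((conv_C _).mul c).sub (c.mul (conv_C _))) (c.mul (conv_Qser T)) hu hv,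
    evalPS_sub ((conv_C _).mul c) (c.mul (conv_C _)) hu hv,
    evalPS_sub ((conv_C _).mul c) (c.mul (conv_C _)) hu hv,
    evalPS_mul (conv_C _) c hu hv, evalPS_mul (conv_C _) c hu hv,
    evalPS_mul c (conv_C _) hu hv, evalPS_mul c (conv_C _) hu hv,
    evalPS_mul c (conv_Pser T) hu hv, evalPS_mul c (conv_Qser T) hu hv,
    evalPS_C, evalPS_C] at h1
  refine h1.congr_deriv ?_
  have c30 : Commute (T 3) (T 0) := hP.comm 3
  have e1 : ∀ z : R, T 3 * (pw (q s) (-T 3) * z) = pw (q s) (-T 3) * (T 3 * z) := fun z => by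
    rw [← mul_assoc, (commute_pw (Commute.refl (T 3)).neg_right (q s)).eq, mul_assoc]
  have e2 : ∀ z : R, T 3 * (pw (p s) (-T 0) * z) = pw (p s) (-T 0) * (T 3 * z) := fun z => by
    rw [← mul_assoc, (commute_pw c30.neg_right (p s)).eq, mul_assoc]
  have e3 : ∀ z : R, T 0 * (pw (p s) (-T 0) * z) = pw (p s) (-T 0) * (T 0 * z) := fun z => by
    rw [← mul_assoc, (commute_pw (Commute.refl (T 0)).neg_right (p s)).eq, mul_assoc]
  simp only [kz5Om, add_mul, mul_add, mul_sub, smul_add, smul_sub, smul_mul_assoc, mul_smul_comm,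
    mul_assoc, neg_mul, mul_neg, smul_neg, e1, e2, e3]
  abel

/-- The second coordinate of the next chart along `u = γ`. -/
def vnext (v : ℝ) : ℝ := (1 - gam) / (1 - gam * v)

theorem kz5_den {v : ℝ} (hv' : v < 1) : 0 < 1 - gam * v := by
  nlinarith [gam_pos, gam_lt_one]

theorem kz5_vnext_pos {v : ℝ} (hv' : v < 1) : 0 < vnext v :=
  div_pos (sub_pos.2 gam_lt_one) (kz5_den hv')

theorem kz5_vnext_lt {v : ℝ} (hv' : v < 1) : |vnext v| < 1 := by
  rw [abs_of_pos (kz5_vnext_pos hv'), vnext, div_lt_one (kz5_den hv')]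
  nlinarith [gam_pos]

theorem kz5_deriv_vnext {v : ℝ} (hv' : v < 1) :
    HasDerivAt vnext ((1 - gam) * gam / (1 - gam * v) ^ 2) v := by
  have h1 : HasDerivAt (fun v : ℝ => 1 - gam * v) (-gam) v := by
    simpa using ((hasDerivAt_id v).const_mul gam).const_sub 1
  refine ((hasDerivAt_const v (1 - gam)).fun_div h1 (kz5_den hv').ne').congr_deriv ?_
  ring

/-- The product of the inverse section of the next chart (coordinates `(v, vnext v)`, data
`sh3 T`, so `T'₀ = T₃, T'₁ = T₄, T'₂ = T₀, T'₃ = T₁, T'₄ = T₂`) with the section of this chart along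
`u = γ`. -/
def Ktr (T : Fin 5 → R) (H J' : PS R) (v : ℝ) : R :=
  pw (vnext v) (-T 1) * pw v (-T 3) * evalPS J' v (vnext v) *
    (evalPS H gam v * pw gam (T 0) * pw v (T 3))

/-- `K` has derivative zero on `(0, γ]`.  With `w = vnext v`, `w'/w = γ/(1-γv)`,
`1 - w = γ(1-v)/(1-γv)`, `1 - vw = (1-v)/(1-γv)`.  Put `G(v) = H(γ,v) γ^{T₀} v^{T₃}`, then
`G' = Ω G` with `Ω = (T₃ + Q(γ,v))/v`; put `G̃(v) = w^{-T₁} v^{-T₃} J'(v,w)`, then
`G̃' = -G̃ Ω'` with `Ω' = (T'₀ + P'(v,w))/v + (w'/w)(T'₃ + Q'(v,w))`, and `Ω' = Ω` (compare the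
coefficients of `T₀,…,T₄`: `field_simp; ring`).  Uses `flat_H`, `flat_J`, `hasDerivAt_evalPS`,
`hasDerivAt_pw`, and that `T₀, T₃` commute and `T₁, T₃` commute. -/
theorem hasDerivAt_Ktr {T : Fin 5 → R} (hP : IsP5 T) {N : ℕ} (hN : Nil N T) {H J H' J' : PS R}
    (h : KZTwo T H J) (h' : KZTwo (sh3 T) H' J') {v : ℝ} (hv : 0 < v) (hv' : v < 1) :
    HasDerivAt (Ktr T H J') 0 v := by
  have hg : |gam| < 1 := by rw [abs_of_pos gam_pos]; exact gam_lt_one
  have hv1 : |v| < 1 := by rw [abs_of_pos hv]; exact hv'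
  have h1 := kz5_derivJ hP.sh3 (kz5_nil_add hN 3 1) h' (p := fun v => v) (q := vnext)
    (hasDerivAt_id' v) (kz5_deriv_vnext hv') hv1 (kz5_vnext_lt hv') hv.ne' (kz5_vnext_pos hv').ne'
  have h2 := kz5_derivG hP (kz5_nil_add hN 0 3) h (p := fun _ => gam) (q := fun v => v)
    (hasDerivAt_const v gam) (hasDerivAt_id' v) hg hv1 gam_pos.ne' hv.ne'
  have e : kz5Om (sh3 T) v (vnext v) (1 / v) ((1 - gam) * gam / (1 - gam * v) ^ 2 / vnext v) =
      kz5Om T gam v (0 / gam) (1 / v) := by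
    have a0 := (kz5_den hv').ne'
    have a0' : 1 - v * gam ≠ 0 := by rwa [mul_comm]
    have a1 : 1 - gam ≠ 0 := (sub_pos.2 gam_lt_one).ne'
    have a2 : 1 - v ≠ 0 := (sub_pos.2 hv').ne'
    have a3 := gam_pos.ne'
    have a4 := hv.ne'
    have b1 : (1 - gam) * gam / (1 - gam * v) ^ 2 / vnext v = gam / (1 - gam * v) := by
      rw [vnext]; field_simp
    have b2 : vnext v / (1 - vnext v) = (1 - gam) / (gam * (1 - v)) := by
      have : 1 - vnext v = gam * (1 - v) / (1 - gam * v) := by rw [vnext]; field_simp; ring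
      rw [this, vnext]; field_simp
    have b3 : v * vnext v / (1 - v * vnext v) = v * (1 - gam) / (1 - v) := by
      have : 1 - v * vnext v = (1 - v) / (1 - gam * v) := by rw [vnext]; field_simp; ring
      rw [this, vnext]; field_simp
    have s0 : sh3 T 0 = T 3 := rfl
    have s1 : sh3 T 1 = T 4 := rfl
    have s2 : sh3 T 2 = T 0 := rfl
    have s3 : sh3 T 3 = T 1 := rfl
    have s4 : sh3 T 4 = T 2 := rfl
    rw [kz5Om, kz5Om, evalPS_Pser _ hv1 (kz5_vnext_lt hv'), evalPS_Qser _ hv1 (kz5_vnext_lt hv'),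
      evalPS_Qser _ hg hv1, b1, b2, b3, s0, s1, s2, s3, s4, zero_div, zero_smul, zero_add]
    match_scalars <;> field_simp <;> ring
  have h3 := h1.fun_mul h2
  rw [e] at h3
  refine HasDerivAt.congr_deriv h3 ?_
  simp only [neg_mul, mul_assoc, neg_add_cancel]

/-- The limit `v → 0⁺`: `M(v) = J'(v, vnext v) H(γ, v) γ^{T₀}` is differentiable at `0`, so
`M(v) = M(0) + O(v)`; `M(0) = J₁(0,1-γ) H₀(γ,0) γ^{T₀}` (`res_H`, `res_J`) commutes with `T₃`, and
`v ‖v^{-T₃}‖ ‖v^{T₃}‖ → 0`. -/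
theorem tendsto_Ktr {T : Fin 5 → R} (hP : IsP5 T) {N : ℕ} (hN : Nil N T) {H J H' J' H₀ J₁ : PS R}
    (h : KZTwo T H J) (h' : KZTwo (sh3 T) H' J') (h₀ : KZPair (T 0) (T 1) H₀ J₁) :
    Filter.Tendsto (Ktr T H J') (nhdsWithin 0 (Set.Ioi 0)) (nhds (PhiKZ (T 0) (T 1) H₀ J₁)) := by
  have hg : |gam| < 1 := by rw [abs_of_pos gam_pos]; exact gam_lt_one
  have h00 : |(0 : ℝ)| < 1 := by simp
  have w0 : vnext 0 = 1 - gam := by simp [vnext]
  have hw := kz5_vnext_lt (zero_lt_one' ℝ)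
  set M : ℝ → R := fun v => evalPS J' v (vnext v) * evalPS H gam v * pw gam (T 0) with hM
  obtain ⟨M', hM'⟩ : ∃ M', HasDerivAt M M' 0 := by
    obtain ⟨_, _, a1, _⟩ := hasDerivAt_evalPS h'.convJ (p := fun v => v) (q := vnext)
      (hasDerivAt_id' 0) (kz5_deriv_vnext zero_lt_one) h00 hw
    obtain ⟨_, _, a2, _⟩ := hasDerivAt_evalPS h.convH (p := fun _ => gam) (q := fun v => v)
      (hasDerivAt_const 0 gam) (hasDerivAt_id' 0) hg h00
    exact ⟨_, (a1.fun_mul a2).mul_const _⟩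
  have e1 : res 1 H = H₀ := res_H hP (kz5_nil hN 0) (kz5_nil hN 3) h.solH h₀.solH
  have e2 : res 0 J' = J₁ := res_J hP.sh3 (kz5_nil hN 3) (kz5_nil hN 1) h'.solJ h₀.solJ
  have M0 : M 0 = evalPS J₁ 0 (1 - gam) * evalPS H₀ gam 0 * pw gam (T 0) := by
    simp only [hM]
    rw [w0, ← e1, ← e2, evalPS_res_one, evalPS_res_zero]
  have c30 : Commute (T 3) (T 0) := hP.comm 3
  have c31 : Commute (T 3) (T 1) := (hP.comm 1).symm
  have cg : ∀ (e : Ix) (A : R), Commute (T 3) A → ∀ d, Commute (T 3) (coeff d (geo e A)) := by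
    intro e A hA d
    rw [coeff_geo]
    split_ifs
    · exact hA
    · exact Commute.zero_right _
  have cM : Commute (T 3) (M 0) := by
    rw [M0]
    refine Commute.mul_right (Commute.mul_right ?_ ?_) (commute_pw c30 _)
    · refine commute_evalPS h₀.convJ (h₀.solJ.commute_coeff (kz5_nil hN 1) (map_zero _)
        (constantCoeff_geo e1_ne _) c31 (fun d => by simp) (cg _ _ c30)) h00 (w0 ▸ hw)
    · refine commute_evalPS h₀.convH (h₀.solH.commute_coeff (kz5_nil hN 0)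
        (by rw [map_neg, constantCoeff_geo e0_ne, neg_zero]) (map_zero _) c30
        (fun d => by rw [map_neg]; exact (cg _ _ c31 d).neg_right) (fun d => by simp)) hg h00
  have eK : ∀ v, Ktr T H J' v =
      pw (vnext v) (-T 1) * (M 0 + pw v (-T 3) * (M v - M 0) * pw v (T 3)) := by
    intro v
    have a1 : pw v (-T 3) * M 0 * pw v (T 3) = M 0 := by
      rw [mul_assoc, (commute_pw cM.symm v).eq, ← mul_assoc, pw_neg_mul, one_mul]
    rw [mul_sub, sub_mul, a1, add_sub_cancel]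
    simp only [Ktr, hM, mul_assoc]
  have t1 : Filter.Tendsto (fun v => pw (vnext v) (-T 1)) (nhdsWithin 0 (Set.Ioi 0))
      (nhds (pw (1 - gam) (-T 1))) := by
    have := (hasDerivAt_pw (-T 1) (kz5_deriv_vnext zero_lt_one)
      (kz5_vnext_pos zero_lt_one).ne').continuousAt.tendsto
    rw [w0] at this
    exact this.mono_left nhdsWithin_le_nhds
  have t2 : Filter.Tendsto (fun v => pw v (-T 3) * (M v - M 0) * pw v (T 3))
      (nhdsWithin 0 (Set.Ioi 0)) (nhds 0) := by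
    obtain ⟨c, hc⟩ := hM'.isBigO_sub.bound
    have a1 := (tendsto_mul_norm_pw (kz5_nil hN 3).neg (kz5_nil hN 3)).const_mul c
    rw [mul_zero] at a1
    refine squeeze_zero_norm' ?_ a1
    filter_upwards [nhdsWithin_le_nhds hc, self_mem_nhdsWithin] with v hv hv0
    rw [sub_zero, Real.norm_of_nonneg (le_of_lt hv0)] at hv
    calc ‖pw v (-T 3) * (M v - M 0) * pw v (T 3)‖
        ≤ ‖pw v (-T 3)‖ * ‖M v - M 0‖ * ‖pw v (T 3)‖ :=
          (norm_mul_le _ _).trans (mul_le_mul_of_nonneg_right (norm_mul_le _ _) (norm_nonneg _))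
      _ ≤ ‖pw v (-T 3)‖ * (c * v) * ‖pw v (T 3)‖ := by gcongr
      _ = _ := by ring
  have t3 := t1.mul (t2.const_add (M 0))
  have e3 : pw (1 - gam) (-T 1) * (M 0 + 0) = PhiKZ (T 0) (T 1) H₀ J₁ := by
    rw [add_zero, M0, PhiKZ, ← mul_assoc, ← mul_assoc]
  rw [e3] at t3
  exact t3.congr fun v => (eK v).symm

/-- `vnext γ = γ`. -/
theorem transition {T : Fin 5 → R} (hP : IsP5 T) {N : ℕ} (hN : Nil N T) {H J H' J' H₀ J₁ : PS R}
    (h : KZTwo T H J) (h' : KZTwo (sh3 T) H' J') (h₀ : KZPair (T 0) (T 1) H₀ J₁) :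
    Ginv (sh3 T) J' * Gcen T H = PhiKZ (T 0) (T 1) H₀ J₁ := by
  have w : vnext gam = gam := by
    rw [vnext, gam_sq, sub_sub_cancel, ← gam_sq, mul_div_assoc, div_self gam_pos.ne', mul_one]
  have e : Ginv (sh3 T) J' * Gcen T H = Ktr T H J' gam := by
    rw [Ktr, w]
    rfl
  have hc : ∀ v ∈ Set.Ioo (0 : ℝ) 1, Ktr T H J' v = Ktr T H J' gam := fun v hv =>
    isOpen_Ioo.is_const_of_deriv_eq_zero isPreconnected_Ioo
      (fun x hx => (hasDerivAt_Ktr hP hN h h' hx.1 hx.2).differentiableAt.differentiableWithinAt)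
      (fun x hx => (hasDerivAt_Ktr hP hN h h' hx.1 hx.2).deriv) hv ⟨gam_pos, gam_lt_one⟩
  rw [e]
  refine tendsto_nhds_unique (tendsto_const_nhds.congr' ?_) (tendsto_Ktr hP hN h h' h₀)
  filter_upwards [Ioo_mem_nhdsGT (zero_lt_one' ℝ)] with v hv
  exact (hc v hv).symm

end Crest.Agent.R010
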