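import Crest.Agent.R010.KZ3
import Crest.Agent.R010.KZ4

/-! # Row 10, KZ: group-likeness, normalisation, naturality -/

set_option autoImplicit false
set_option linter.unusedSectionVars false

noncomputable section

namespace Crest.Agent.R010

open MvPowerSeries

variable {R R' : Type} [NormedRing R] [NormedAlgebra ℝ R] [CompleteSpace R]
  [NormedRing R'] [NormedAlgebra ℝ R'] [CompleteSpace R']

theorem kz6_cH (B : R) : constantCoeff (-geo e0 B) = 0 := by
  rw [map_neg, constantCoeff_geo e0_ne, neg_zero]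

theorem kz6_abs_gam : |gam| < 1 := by
  rw [abs_of_pos gam_pos]; exact gam_lt_one

theorem kz6_abs_one_sub_gam : |1 - gam| < 1 := by
  rw [abs_of_pos (sub_pos.2 gam_lt_one)]; linarith [gam_pos]

theorem kz6_abs_zero : |(0 : ℝ)| < 1 := by simp

theorem PhiKZ_unique {A B : R} (hA : IsNilpotent A) (hB : IsNilpotent B) {H J H' J' : PS R}
    (h : KZPair A B H J) (h' : KZPair A B H' J') : PhiKZ A B H J = PhiKZ A B H' J' := by
  rw [IsSol.unique hA (kz6_cH B) (map_zero _) h.solH h'.solH,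
    IsSol.unique hB (map_zero _) (constantCoeff_geo e1_ne A) h.solJ h'.solJ]

theorem KZPair.map (φ : R →ₐ[ℝ] R') (hφ : Continuous φ) {A B : R} {H J : PS R}
    (h : KZPair A B H J) : KZPair (φ A) (φ B) (MvPowerSeries.map (φ : R →+* R') H)
      (MvPowerSeries.map (φ : R →+* R') J) ∧
    φ (PhiKZ A B H J) = PhiKZ (φ A) (φ B) (MvPowerSeries.map (φ : R →+* R') H)
      (MvPowerSeries.map (φ : R →+* R') J) := by
  refine ⟨⟨?_, ?_, h.convH.map φ hφ, h.convJ.map φ hφ⟩, ?_⟩
  · have := h.solH.map φ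
    rwa [map_neg, map_geo, map_zero] at this
  · have := h.solJ.map φ
    rwa [map_geo, map_zero] at this
  · rw [PhiKZ, PhiKZ, map_mul, map_mul, map_mul, map_pw φ hφ, map_pw φ hφ, map_neg,
      evalPS_map φ hφ h.convJ kz6_abs_zero kz6_abs_one_sub_gam,
      evalPS_map φ hφ h.convH kz6_abs_gam kz6_abs_zero]

theorem kz6_commute_geo {z A : R} (h : Commute z A) (e d : Ix) : Commute z (coeff d (geo e A)) := by
  rw [coeff_geo]
  split_ifs
  · exact h
  · exact Commute.zero_right z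

theorem kz6_commute_C {z A : R} (h : Commute z A) (d : Ix) :
    Commute z (coeff d (C A : PS R)) := by
  classical
  rw [coeff_C]
  split_ifs
  · exact h
  · exact Commute.zero_right z

theorem KZPair.kz6_commH {A B : R} (hA : IsNilpotent A) {H J : PS R} (h : KZPair A B H J) {z : R}
    (h1 : Commute z A) (h2 : Commute z B) (d : Ix) : Commute z (coeff d H) :=
  IsSol.commute_coeff hA (kz6_cH B) (map_zero _) h.solH h1
    (fun d => by rw [map_neg]; exact (kz6_commute_geo h2 e0 d).neg_right)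
    (fun d => by rw [map_zero]; exact Commute.zero_right z) d

theorem KZPair.kz6_commJ {A B : R} (hB : IsNilpotent B) {H J : PS R} (h : KZPair A B H J) {z : R}
    (h1 : Commute z A) (h2 : Commute z B) (d : Ix) : Commute z (coeff d J) :=
  IsSol.commute_coeff hB (map_zero _) (constantCoeff_geo e1_ne A) h.solJ h2
    (fun d => by rw [map_zero]; exact Commute.zero_right z)
    (fun d => kz6_commute_geo h1 e1 d) d

/-- `H₁ H₂` and `J₁ J₂` solve the equations for the sums (`IsSol.mul`, `IsSol.commute_coeff`,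
`commute_of_coeff`); all factors of index `1` commute with all factors of index `2`. -/
theorem PhiKZ_add {A₁ B₁ A₂ B₂ : R} (c₁ : Commute A₁ A₂) (c₂ : Commute A₁ B₂)
    (c₃ : Commute B₁ A₂) (c₄ : Commute B₁ B₂) (n₁ : IsNilpotent A₁) (n₂ : IsNilpotent B₁)
    (n₃ : IsNilpotent A₂) (n₄ : IsNilpotent B₂) {H₁ J₁ H₂ J₂ : PS R} (h₁ : KZPair A₁ B₁ H₁ J₁)
    (h₂ : KZPair A₂ B₂ H₂ J₂) :
    KZPair (A₁ + A₂) (B₁ + B₂) (H₁ * H₂) (J₁ * J₂) ∧
    PhiKZ (A₁ + A₂) (B₁ + B₂) (H₁ * H₂) (J₁ * J₂) = PhiKZ A₁ B₁ H₁ J₁ * PhiKZ A₂ B₂ H₂ J₂ := by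
  have a1 := h₁.kz6_commH n₁ c₁.symm c₃.symm
  have a2 := h₁.kz6_commH n₁ c₂.symm c₄.symm
  have a3 := h₁.kz6_commJ n₂ c₁.symm c₃.symm
  have a4 := h₁.kz6_commJ n₂ c₂.symm c₄.symm
  refine ⟨⟨?_, ?_, h₁.convH.mul h₂.convH, h₁.convJ.mul h₂.convJ⟩, ?_⟩
  · have := IsSol.mul h₁.solH h₂.solH
      (commute_of_coeff fun d d' => kz6_commute_C (a1 d).symm d')
      (commute_of_coeff fun d d' => by
        rw [map_neg]; exact (kz6_commute_geo (a2 d).symm e0 d').neg_right)
      (commute_of_coeff fun d d' => kz6_commute_C (h₂.kz6_commH n₃ c₁ c₂ d).symm d')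
      (Commute.zero_right _)
    rwa [add_zero, ← neg_add, ← geo_add] at this
  · have := IsSol.mul h₁.solJ h₂.solJ
      (commute_of_coeff fun d d' => kz6_commute_C (a4 d).symm d')
      (Commute.zero_right _)
      (commute_of_coeff fun d d' => kz6_commute_C (h₂.kz6_commJ n₄ c₃ c₄ d).symm d')
      (commute_of_coeff fun d d' => kz6_commute_geo (h₂.kz6_commJ n₄ c₁ c₂ d).symm e1 d')
    rwa [add_zero, ← geo_add] at this
  · have hp : ∀ z, Commute z A₂ → Commute z B₂ → Commute (pw (1 - gam) (-B₂)) z :=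
      fun z _ h2 => (commute_pw h2.neg_right _).symm
    have hj : ∀ z, Commute z A₂ → Commute z B₂ → Commute (evalPS J₂ 0 (1 - gam)) z :=
      fun z h1 h2 => (commute_evalPS h₂.convJ (h₂.kz6_commJ n₄ h1 h2) kz6_abs_zero
        kz6_abs_one_sub_gam).symm
    have hh : ∀ z, Commute z A₂ → Commute z B₂ → Commute (evalPS H₂ gam 0) z :=
      fun z h1 h2 => (commute_evalPS h₂.convH (h₂.kz6_commH n₃ h1 h2) kz6_abs_gam
        kz6_abs_zero).symm
    have j1 := (commute_evalPS h₁.convJ a3 kz6_abs_zero kz6_abs_one_sub_gam).symm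
    have j2 := (commute_evalPS h₁.convJ a4 kz6_abs_zero kz6_abs_one_sub_gam).symm
    have k1 := (commute_evalPS h₁.convH a1 kz6_abs_gam kz6_abs_zero).symm
    have k2 := (commute_evalPS h₁.convH a2 kz6_abs_gam kz6_abs_zero).symm
    have q1 := (commute_pw c₁.symm gam).symm
    have q2 := (commute_pw c₂.symm gam).symm
    rw [PhiKZ, PhiKZ, PhiKZ, neg_add, pw_add c₄.neg_left.neg_right, pw_add c₁,
      evalPS_mul h₁.convJ h₂.convJ kz6_abs_zero kz6_abs_one_sub_gam,
      evalPS_mul h₁.convH h₂.convH kz6_abs_gam kz6_abs_zero,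
      (hp _ j1 j2).mul_mul_mul_comm,
      ((hp _ k1 k2).mul_left (hj _ k1 k2)).mul_mul_mul_comm,
      (((hp _ q1 q2).mul_left (hj _ q1 q2)).mul_left (hh _ q1 q2)).mul_mul_mul_comm]

theorem kz6_const {F : ℝ → R} {b : ℝ} (hb : 0 ≤ b) (hc : ∀ x ∈ Set.Icc 0 b, ∃ F', HasDerivAt F F' x)
    (hd : ∀ x ∈ Set.Ioo 0 b, HasDerivAt F 0 x) : F b = F 0 := by
  have := intervalIntegral.integral_eq_sub_of_hasDerivAt_of_le (f := F) (f' := fun _ => 0) hb
    (fun x hx => (hc x hx).choose_spec.continuousAt.continuousWithinAt) hd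
    intervalIntegrable_const
  rw [intervalIntegral.integral_zero] at this
  exact (sub_eq_zero.1 this.symm)

theorem kz6_res_zero (i : Fin 2) : res i (0 : PS R) = 0 := by
  ext d
  rw [coeff_res, map_zero, ite_self]

/-- `H = 1` by uniqueness; `θ_u J = 0` (`IsSol.th_eq_zero`), so `θ_v J = J · geo e1 A` and
`w ↦ J(0,w) (1-w)^A` has derivative `0` on `(0,1)`, is continuous at `0` with value `1`. -/
theorem PhiKZ_zero_right {A : R} (hA : IsNilpotent A) {H J : PS R} (h : KZPair A 0 H J) :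
    PhiKZ A 0 H J = 1 := by
  have hH : H = 1 := by
    have := h.solH
    rw [geo_zero, neg_zero] at this
    exact IsSol.unique hA (map_zero _) (map_zero _) this (IsSol.one A)
  have h0 : th 0 J = 0 := IsSol.th_eq_zero 0 IsNilpotent.zero (map_zero _)
    (constantCoeff_geo e1_ne A) h.solJ (kz6_res_zero 0) (by rw [res_geo, if_pos (by simp [e1])])
  have h1 : th 1 J = J * geo e1 A := by
    have := h.solJ.eq
    rwa [thr, LinearMap.add_apply, h0, map_zero, zero_mul, mul_zero, sub_zero, zero_add, zero_add,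
      zero_add] at this
  have hder : ∀ w : ℝ, 0 ≤ w → w < 1 → ∃ F', HasDerivAt
      (fun w => evalPS J 0 w * pw (1 - w) A) F' w ∧ (0 < w → F' = 0) := by
    intro w hw0 hw1
    have hw : |w| < 1 := by rwa [abs_of_nonneg hw0]
    have hne : 1 - w ≠ 0 := (sub_pos.2 hw1).ne'
    obtain ⟨fu, fv, hd, -, hv⟩ := hasDerivAt_evalPS h.convJ (hasDerivAt_const w (0 : ℝ))
      (hasDerivAt_id w) kz6_abs_zero hw
    have hp := hasDerivAt_pw A ((hasDerivAt_id w).const_sub 1) hne
    refine ⟨_, hd.mul hp, fun hw' => ?_⟩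
    simp only [id] at hv ⊢
    rw [h1, evalPS_mul h.convJ (conv_geo e1_ne A) kz6_abs_zero hw,
      evalPS_geo e1_ne A kz6_abs_zero hw] at hv
    have e1a : e1 0 = 0 := by simp [e1]
    have e1b : e1 1 = 1 := by simp [e1]
    rw [e1a, e1b, pow_zero, pow_one, one_mul, mul_smul_comm] at hv
    have hfv : fv = (1 / (1 - w)) • (evalPS J 0 w * A) := by
      have h2 := congrArg (fun x => w⁻¹ • x) hv
      simp only [smul_smul] at h2
      rw [inv_mul_cancel₀ hw'.ne', one_smul] at h2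
      rw [h2]
      congr 1
      field_simp
    rw [zero_smul, one_smul, zero_add, hfv, smul_mul_assoc, mul_smul_comm, mul_assoc, ← add_smul,
      ← add_div, add_neg_cancel, zero_div, zero_smul]
  have hg0 := gam_pos
  have hg1 := gam_lt_one
  have key := kz6_const (F := fun w => evalPS J 0 w * pw (1 - w) A) (b := 1 - gam) (by linarith)
    (fun x hx => by
      obtain ⟨F', hF, -⟩ := hder x hx.1 (by linarith [hx.2])
      exact ⟨F', hF⟩)
    (fun x hx => by
      obtain ⟨F', hF, hF'⟩ := hder x hx.1.le (by linarith [hx.2])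
      rwa [hF' hx.1] at hF)
  simp only [sub_sub_cancel, sub_zero, pw_one, evalPS_origin, h.solJ.const, mul_one] at key
  rw [PhiKZ, hH, neg_zero, pw_zero, evalPS_one, one_mul, mul_one, key]

/-- `J = 1` by uniqueness; `u ↦ (1-u)^{-B} H(u,0)` has derivative `0` on `(0,1)`. -/
theorem PhiKZ_zero_left {B : R} (hB : IsNilpotent B) {H J : PS R} (h : KZPair 0 B H J) :
    PhiKZ 0 B H J = 1 := by
  have hJ : J = 1 := by
    have := h.solJ
    rw [geo_zero] at this
    exact IsSol.unique hB (map_zero _) (map_zero _) this (IsSol.one B)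
  have hs := h.solH
  rw [← geo_neg] at hs
  have h0 : th 1 H = 0 := IsSol.th_eq_zero 1 IsNilpotent.zero (constantCoeff_geo e0_ne (-B))
    (map_zero _) hs (by rw [res_geo, if_pos (by simp [e0])]) (kz6_res_zero 1)
  have h1 : th 0 H = geo e0 (-B) * H := by
    have := hs.eq
    rwa [thr, LinearMap.add_apply, h0, map_zero, zero_mul, mul_zero, sub_zero, add_zero, add_zero,
      zero_add] at this
  have hder : ∀ w : ℝ, 0 ≤ w → w < 1 → ∃ F', HasDerivAt
      (fun w => pw (1 - w) (-B) * evalPS H w 0) F' w ∧ (0 < w → F' = 0) := by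
    intro w hw0 hw1
    have hw : |w| < 1 := by rwa [abs_of_nonneg hw0]
    have hne : 1 - w ≠ 0 := (sub_pos.2 hw1).ne'
    obtain ⟨fu, fv, hd, hv, -⟩ := hasDerivAt_evalPS h.convH (hasDerivAt_id w)
      (hasDerivAt_const w (0 : ℝ)) hw kz6_abs_zero
    have hp := hasDerivAt_pw (-B) ((hasDerivAt_id w).const_sub 1) hne
    refine ⟨_, hp.mul hd, fun hw' => ?_⟩
    simp only [id] at hv ⊢
    rw [h1, evalPS_mul (conv_geo e0_ne (-B)) h.convH hw kz6_abs_zero,
      evalPS_geo e0_ne (-B) hw kz6_abs_zero] at hv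
    have e0a : e0 0 = 1 := by simp [e0]
    have e0b : e0 1 = 0 := by simp [e0]
    rw [e0a, e0b, pow_zero, pow_one, mul_one, smul_mul_assoc] at hv
    have hfu : fu = (1 / (1 - w)) • (-B * evalPS H w 0) := by
      have h2 := congrArg (fun x => w⁻¹ • x) hv
      simp only [smul_smul] at h2
      rw [inv_mul_cancel₀ hw'.ne', one_smul] at h2
      rw [h2]
      congr 1
      field_simp
    rw [zero_smul, one_smul, add_zero, hfu, smul_mul_assoc, mul_smul_comm, ← mul_assoc,
      (commute_pw (Commute.refl (-B)) (1 - w)).eq, ← add_smul, ← add_div, neg_add_cancel, zero_div,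
      zero_smul]
  have hg0 := gam_pos
  have hg1 := gam_lt_one
  have key := kz6_const (F := fun w => pw (1 - w) (-B) * evalPS H w 0) (b := gam) hg0.le
    (fun x hx => by
      obtain ⟨F', hF, -⟩ := hder x hx.1 (by linarith [hx.2])
      exact ⟨F', hF⟩)
    (fun x hx => by
      obtain ⟨F', hF, hF'⟩ := hder x hx.1.le (by linarith [hx.2])
      rwa [hF' hx.1] at hF)
  simp only [sub_zero, pw_one, evalPS_origin, h.solH.const, mul_one] at key
  rw [PhiKZ, hJ, pw_zero, evalPS_one, mul_one, mul_one, key]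

/-- A finite-dimensional real algebra is a Banach algebra (left regular representation by
matrices with `Matrix.linftyOpNormedRing`, then the range subalgebra or `NormedRing.induced`). -/
theorem exists_banach (S : Type) [Ring S] [Algebra ℝ S] [Module.Finite ℝ S] :
    ∃ (R : Type) (_ : NormedRing R) (_ : NormedAlgebra ℝ R), CompleteSpace R ∧
      Nonempty (S ≃ₐ[ℝ] R) := by
  let b := Module.finBasis ℝ S
  let n := Module.finrank ℝ S
  let _ : NormedRing (Matrix (Fin n) (Fin n) ℝ) := Matrix.linftyOpNormedRing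
  let _ : NormedAlgebra ℝ (Matrix (Fin n) (Fin n) ℝ) := Matrix.linftyOpNormedAlgebra
  let f : S →ₐ[ℝ] Matrix (Fin n) (Fin n) ℝ := Algebra.leftMulMatrix b
  have hf : Function.Injective f := Algebra.leftMulMatrix_injective b
  let e : S ≃ₐ[ℝ] f.range := AlgEquiv.ofInjective f hf
  have : FiniteDimensional ℝ f.range := e.toLinearEquiv.finiteDimensional
  exact ⟨f.range, inferInstance, inferInstance, FiniteDimensional.complete ℝ _, ⟨e⟩⟩

/-- `Φ` represents the KZ associator on all `N`-nilpotent pairs in Banach algebras. -/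
def IsUnivKZ (N : ℕ) (Φ : FA ℝ (Fin 2)) : Prop :=
  ∀ (R : Type) [NormedRing R] [NormedAlgebra ℝ R] [CompleteSpace R] (A B : R), Nil N ![A, B] →
    ∀ H J : PS R, KZPair A B H J → ev2 A B Φ = PhiKZ A B H J

/-- Take the universal nilpotent pair (`exists_universal_nil`), make it Banach
(`exists_banach`), lift its `PhiKZ` to `FA`; algebra maps out of a finite-dimensional normed space
are continuous. -/
theorem exists_isUnivKZ (N : ℕ) : ∃ Φ, IsUnivKZ N Φ := by
  obtain ⟨U, _, _, u, hfin, hnil, hsurj, -, huniv⟩ := exists_universal_nil ℝ (Fin 2) N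
  obtain ⟨R₀, _, _, _, ⟨e⟩⟩ := exists_banach U
  have : FiniteDimensional ℝ R₀ := e.toLinearEquiv.finiteDimensional
  have hnil₀ : Nil N ![e (u 0), e (u 1)] := by
    have h1 := hnil.map e
    have h2 : (fun c => e (u c)) = ![e (u 0), e (u 1)] := by
      funext c
      fin_cases c <;> rfl
    rwa [h2] at h1
  obtain ⟨H₀, J₀, h₀⟩ := exists_KZPair hnil₀
  obtain ⟨Φ, hΦ⟩ := hsurj (e.symm (PhiKZ (e (u 0)) (e (u 1)) H₀ J₀))
  refine ⟨Φ, fun R _ _ _ A B hAB H J h => ?_⟩
  obtain ⟨φ, hφ⟩ := huniv R ![A, B] hAB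
  let ψ : R₀ →ₐ[ℝ] R := φ.comp (e.symm : R₀ →ₐ[ℝ] U)
  have hψ : Continuous ψ := ψ.toLinearMap.continuous_of_finiteDimensional
  have hA : ψ (e (u 0)) = A := by simp [ψ, hφ]
  have hB : ψ (e (u 1)) = B := by simp [ψ, hφ]
  obtain ⟨h1, h2⟩ := h₀.map ψ hψ
  rw [hA, hB] at h1 h2
  have nA : IsNilpotent A := ⟨N + 1, hAB.pow_eq_zero (k := ℝ) (Submodule.subset_span ⟨0, rfl⟩)⟩
  have nB : IsNilpotent B := ⟨N + 1, hAB.pow_eq_zero (k := ℝ) (Submodule.subset_span ⟨1, rfl⟩)⟩
  rw [PhiKZ_unique nA nB h h1, ← h2]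
  have h3 : ev2 A B Φ = φ (ev u Φ) := by
    rw [map_ev]
    exact ev_congr (fun c => (hφ c).symm) Φ
  rw [h3, hΦ]
  rfl

end Crest.Agent.R010
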