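import Crest.Agent.R010.Braid

/-!
# Row 10, part C (KZ): definitions

Power series in two variables `u, v` with coefficients in an `ℝ`-algebra `R`.
The KZ connection on `M_{0,5}` in the chart `(z₀,…,z₄) = (0, u, 1, 1/v, ∞)` is
`T₀ dlog u + T₃ dlog v + T₁ dlog(1-u) + T₂ dlog(1-v) + E dlog(1-uv)`, `E = T₄ - T₁ - T₂`,
`T_i = X_{i,i+1}`.  A flat section is `G = H(u,v) u^{T₀} v^{T₃}` with `H` a power series,
`θ_u H = ⁅T₀,H⁆ + P H`, `θ_v H = ⁅T₃,H⁆ + Q H`; `J = H⁻¹`.
-/

set_option autoImplicit false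

noncomputable section

namespace Crest.Agent.R010

open MvPowerSeries

/-- Exponents. -/
abbrev Ix : Type := Fin 2 →₀ ℕ

/-- Power series in two variables. -/
abbrev PS (R : Type) : Type := MvPowerSeries (Fin 2) R

/-- The exponent of `u`. -/
def e0 : Ix := Finsupp.single 0 1
/-- The exponent of `v`. -/
def e1 : Ix := Finsupp.single 1 1

section Formal

variable {R : Type} [Ring R] [Algebra ℝ R]

/-- The Euler operator `θ_i`. -/
def th (i : Fin 2) : PS R →ₗ[ℝ] PS R where
  toFun f := fun d => (d i : ℝ) • coeff d f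
  map_add' f g := by ext d; exact smul_add _ _ _
  map_smul' c f := by ext d; exact smul_comm _ _ _

/-- The radial Euler operator. -/
def thr : PS R →ₗ[ℝ] PS R := th 0 + th 1

open Classical in
/-- `A · m / (1 - m)` for the monomial `m` with exponent `e`. -/
def geo (e : Ix) (A : R) : PS R := fun d => if ∃ j : ℕ, 1 ≤ j ∧ d = j • e then A else 0

/-- Set the variable `i` to zero. -/
def res (i : Fin 2) (f : PS R) : PS R := fun d => if d i = 0 then coeff d f else 0

/-- `H` solves the radial equation `θ H = T H - H T + S H + H S'`, `H(0) = 1`. -/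
structure IsSol (T : R) (S S' H : PS R) : Prop where
  const : constantCoeff H = 1
  eq : thr H = C T * H - H * C T + S * H + H * S'

/-- The relations between the `T_i = X_{i,i+1}`. -/
structure IsP5 (T : Fin 5 → R) : Prop where
  comm : ∀ i, Commute (T i) (T (i + 2))
  cyc : ∑ i : Fin 5, ⁅T i, T (i + 1)⁆ = 0

/-- The regular part of the `u`-component of the connection. -/
def Pser (T : Fin 5 → R) : PS R := -geo e0 (T 1) - geo (e0 + e1) (T 4 - T 1 - T 2)
/-- The regular part of the `v`-component of the connection. -/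
def Qser (T : Fin 5 → R) : PS R := -geo e1 (T 2) - geo (e0 + e1) (T 4 - T 1 - T 2)

/-- The next chart. -/
def sh3 (T : Fin 5 → R) : Fin 5 → R := fun i => T (i + 3)

end Formal

section Analytic

variable {R : Type} [NormedRing R] [NormedAlgebra ℝ R]

/-- Bounded coefficients. -/
def Bdd (f : PS R) : Prop := ∃ c : ℝ, ∀ d, ‖coeff d f‖ ≤ c

/-- `∑_{p ≤ d} ‖coeff p f‖ = O(|d|)`. -/
def Thin (f : PS R) : Prop :=
  ∃ c : ℝ, ∀ d : Ix, ∑ p ∈ Finset.HasAntidiagonal.antidiagonal d, ‖coeff p.1 f‖ ≤ c * ((d 0 + d 1 : ℕ) : ℝ)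

/-- Absolute convergence on the open unit bidisc. -/
def Conv (f : PS R) : Prop :=
  ∀ r : ℝ, 0 ≤ r → r < 1 → Summable (fun d : Ix => ‖coeff d f‖ * r ^ (d 0 + d 1))

/-- The sum of a power series. -/
def evalPS (f : PS R) (u v : ℝ) : R := ∑' d : Ix, (u ^ d 0 * v ^ d 1) • coeff d f

/-- `t ^ A`. -/
def pw (t : ℝ) (A : R) : R := NormedSpace.exp (Real.log t • A)

/-- The centre of the pentagon has coordinates `(γ, γ)` in all five charts. -/
def gam : ℝ := (Real.sqrt 5 - 1) / 2

/-- The two one-variable solutions at `0` and at `1`. -/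
structure KZPair (A B : R) (H J : PS R) : Prop where
  solH : IsSol A (-geo e0 B) 0 H
  solJ : IsSol B 0 (geo e1 A) J
  convH : Conv H
  convJ : Conv J

/-- The associator `(1-u)^{-B} J(1-u) H(u) u^A` at `u = γ`. -/
def PhiKZ (A B : R) (H J : PS R) : R :=
  pw (1 - gam) (-B) * evalPS J 0 (1 - gam) * evalPS H gam 0 * pw gam A

/-- The two-variable solution and its inverse. -/
structure KZTwo (T : Fin 5 → R) (H J : PS R) : Prop where
  solH : IsSol (T 0 + T 3) (Pser T + Qser T) 0 H
  solJ : IsSol (T 0 + T 3) 0 (-(Pser T + Qser T)) J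
  convH : Conv H
  convJ : Conv J

end Analytic

end Crest.Agent.R010
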