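import Crest.Agent.R010.Elim

/-! # Row 10: the free Lie ring is pure in the free associative ring -/

set_option autoImplicit false

noncomputable section

namespace Crest.Agent.R010

theorem purity_base {n : ℕ} {r : ℤ} (hr : r ≠ 0) {w : ℕ} (hw : n < w) {σ : Type} {δ : σ → ℕ}
    (hδ : ∀ c, w ≤ δ c) {f : FA ℤ σ} (hf : f ∈ hom δ n) (h : r • f ∈ LieS ℤ σ) : f = 0 := by
  refine ext_cf fun u => ?_
  rw [map_zero]
  by_cases hu : wdeg δ u = n
  · have h1 : u = 1 := by
      induction u using FreeMonoid.inductionOn' with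
      | one => rfl
      | of_mul c u _ =>
        rw [wdeg_mul, wdeg_of] at hu
        have := hδ c
        omega
    subst h1
    have h2 : f ∈ fil (one σ) 1 := mem_supp_of_smul_int hr (LieS_le_fil_one h)
    exact h2 1 (by simp)
  · exact hf u hu

open Classical in
/-- The weights on the new alphabet. -/
def purity_wt {σ : Type} (w : ℕ) (δ : σ → ℕ) (x : σ) (t : ℕ × σ) : ℕ :=
  t.1 * w + if t.2 = x then w + 1 else δ t.2

open Classical in
/-- The values of the new letters. -/
def purity_kap {σ : Type} (x : σ) (t : ℕ × σ) : FA ℤ σ :=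
  if t.2 = x then 0 else (adm (k := ℤ) (gen x : FA ℤ σ) ^ t.1) (gen t.2)

theorem purity_kap_succ {σ : Type} (x : σ) (t : ℕ × σ) :
    purity_kap x (t.1 + 1, t.2) = ⁅(gen x : FA ℤ σ), purity_kap x t⁆ := by
  unfold purity_kap
  split_ifs with h
  · simp [Ring.lie_def]
  · rw [pow_succ', Module.End.mul_apply, adm_apply]

theorem purity_kap_mem {σ : Type} (x : σ) (t : ℕ × σ) : purity_kap x t ∈ LieS ℤ σ := by
  obtain ⟨j, c⟩ := t
  induction j with
  | zero =>
    unfold purity_kap
    split_ifs with h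
    · exact zero_mem _
    · simpa using gen_mem_LieS (k := ℤ) c
  | succ j ih =>
    rw [purity_kap_succ x (j, c)]
    exact lie_mem_LieS (gen_mem_LieS x) ih

theorem purity_wt_le {σ : Type} {w : ℕ} {δ : σ → ℕ} (hδ : ∀ c, w ≤ δ c) (x : σ) (t : ℕ × σ) :
    w ≤ purity_wt w δ x t := by
  unfold purity_wt
  have := hδ t.2
  split_ifs <;> omega

theorem purity_wt_finite {σ : Type} {w : ℕ} (hw : 1 ≤ w) {δ : σ → ℕ}
    (hfin : ∀ j, {c | δ c = j}.Finite) (x : σ) (j : ℕ) : {t | purity_wt w δ x t = j}.Finite := by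
  have h1 : (insert x (⋃ i ∈ Set.Iic j, {c | δ c = i})).Finite :=
    ((Set.finite_Iic j).biUnion fun i _ => hfin i).insert x
  refine ((Set.finite_Iic j).prod h1).subset fun t ht => ?_
  have ht' : purity_wt w δ x t = j := ht
  unfold purity_wt at ht'
  have h2 : t.1 ≤ t.1 * w := Nat.le_mul_of_pos_right _ hw
  refine ⟨show t.1 ≤ j by omega, ?_⟩
  split_ifs at ht' with h
  · exact Or.inl h
  · refine Or.inr ?_
    simp only [Set.mem_iUnion]
    exact ⟨δ t.2, show δ t.2 ≤ j by omega, rfl⟩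

theorem purity_wt_ncard {σ : Type} {w : ℕ} (hw : 1 ≤ w) {δ : σ → ℕ} (hδ : ∀ c, w ≤ δ c)
    {x : σ} (hx : δ x = w) {m : ℕ}
    (hm : {c | δ c = w}.ncard = m + 1) : {t | purity_wt w δ x t = w}.ncard = m := by
  have h1 : {t | purity_wt w δ x t = w} = (fun c => ((0 : ℕ), c)) '' ({c | δ c = w} \ {x}) := by
    ext ⟨j, c⟩
    simp only [Set.mem_ofPred_eq, Set.mem_image, Set.mem_sdiff, Set.mem_singleton_iff, Prod.mk.injEq,
      purity_wt]
    have := hδ c
    constructor
    · intro h
      split_ifs at h with hc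
      · omega
      · have hj : j = 0 := by
          by_contra hj
          have : w ≤ j * w := Nat.le_mul_of_pos_left _ (Nat.pos_of_ne_zero hj)
          omega
        subst hj
        exact ⟨c, ⟨by omega, hc⟩, rfl, rfl⟩
    · rintro ⟨c', ⟨h1, h2⟩, rfl, rfl⟩
      rw [if_neg h2]
      omega
  rw [h1, Set.ncard_image_of_injective _ (fun a b h => (Prod.mk.inj h).2),
    Set.ncard_sdiff_singleton_of_mem (show x ∈ {c | δ c = w} from hx), hm]
  rfl

theorem purity_step {n : ℕ} {r : ℤ} (hr : r ≠ 0) {w : ℕ} {σ : Type} {δ : σ → ℕ} {x : σ}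
    (hx : δ x = w)
    (ih : ∀ g : FA ℤ (ℕ × σ), g ∈ hom (purity_wt w δ x) n → r • g ∈ LieS ℤ (ℕ × σ) →
      g ∈ LieS ℤ (ℕ × σ))
    {f : FA ℤ σ} (hf : f ∈ hom δ n) (h : r • f ∈ LieS ℤ σ) : f ∈ LieS ℤ σ := by
  classical
  obtain ⟨a, g, hg, h1, h2⟩ := lazard (k := ℤ) x (fun t : ℕ × σ => (t.1 + 1, t.2))
    (fun c => (0, c)) (purity_kap x) (purity_kap_succ x)
    (fun c hc => by simp [purity_kap, hc]) h
  set O : σ → Module.End ℤ (FA ℤ (ℕ × σ)) := fun c =>
    if c = x then der (fun t : ℕ × σ => (gen (t.1 + 1, t.2) : FA ℤ (ℕ × σ)))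
    else Lm (gen ((0 : ℕ), c)) with hO
  have h1' : ev O (r • f) = a • der (fun t : ℕ × σ => (gen (t.1 + 1, t.2) : FA ℤ (ℕ × σ))) +
      Lm g := by
    convert h1
  have h3 : r • (ev O f 1) = g := by
    have := congrArg (fun T : Module.End ℤ (FA ℤ (ℕ × σ)) => T 1) h1'
    simpa using this
  have h4 : ev O f 1 ∈ hom (purity_wt w δ x) (0 + n) := by
    refine ev_op_mem_graded (fun j => hom (purity_wt w δ x) j) δ O (fun c j y hy => ?_) hf
      (one_mem_hom _)
    by_cases hc : c = x
    · subst hc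
      simp only [hO, if_true]
      refine (isDer_der _).mem_hom (fun t => ?_) hy
      rw [der_gen]
      have : purity_wt w δ c t + δ c = purity_wt w δ c (t.1 + 1, t.2) := by
        simp only [purity_wt, hx]
        ring
      rw [this]
      exact gen_mem_hom _ _
    · simp only [hO, if_neg hc, LinearMap.mulLeft_apply]
      have : j + δ c = purity_wt w δ x (0, c) + j := by
        simp only [purity_wt, if_neg hc]
        ring
      rw [this]
      exact mul_mem_hom (gen_mem_hom _ _) hy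
  rw [zero_add] at h4
  have h5 : ev O f 1 ∈ LieS ℤ (ℕ × σ) := ih _ h4 (h3 ▸ hg)
  have h6 : ev (purity_kap x) (ev O f 1) ∈ LieS ℤ σ := ev_mem_LieS (purity_kap_mem x) h5
  have h7 : r • (f - ev (purity_kap x) (ev O f 1)) = a • gen x := by
    rw [smul_sub, ← map_smul, h3, h2, add_sub_cancel_right]
  set F := f - ev (purity_kap x) (ev O f 1) with hF
  have h8 : F = cf (FreeMonoid.of x) F • gen x := by
    refine ext_cf fun u => ?_
    by_cases hu : FreeMonoid.of x = u
    · subst hu
      rw [map_smul, gen, cf_wd_self, smul_eq_mul, mul_one]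
    · have h9 := congrArg (cf u) h7
      rw [map_smul, map_smul, gen, cf_wd_ne hu, smul_zero, smul_eq_mul, mul_eq_zero] at h9
      rw [map_smul, gen, cf_wd_ne hu, smul_zero]
      exact h9.resolve_left hr
  have h10 : F ∈ LieS ℤ σ := h8 ▸ Submodule.smul_mem _ _ (gen_mem_LieS x)
  have h11 : f = F + ev (purity_kap x) (ev O f 1) := by rw [hF, sub_add_cancel]
  rw [h11]
  exact add_mem h10 h6

theorem purity_key (n : ℕ) {r : ℤ} (hr : r ≠ 0) (d : ℕ) : ∀ (w : ℕ), 1 ≤ w → n + 1 ≤ w + d →
    ∀ (m : ℕ) (σ : Type) (δ : σ → ℕ), (∀ c, w ≤ δ c) → (∀ j, {c | δ c = j}.Finite) →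
      {c | δ c = w}.ncard = m → ∀ f : FA ℤ σ, f ∈ hom δ n → r • f ∈ LieS ℤ σ → f ∈ LieS ℤ σ := by
  induction d with
  | zero =>
    intro w _ hd m σ δ hδ _ _ f hf h
    rw [purity_base hr (by omega) hδ hf h]
    exact zero_mem _
  | succ d ihd =>
    intro w hw hd m
    induction m with
    | zero =>
      intro σ δ hδ hfin hm f hf h
      have he : {c | δ c = w} = ∅ := (Set.ncard_eq_zero (hfin w)).1 hm
      refine ihd (w + 1) (by omega) (by omega) _ σ δ (fun c => ?_) hfin rfl f hf h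
      have h1 : δ c ≠ w := fun hc => by
        have : c ∈ {c | δ c = w} := hc
        rw [he] at this
        exact this
      have := hδ c
      omega
    | succ m ihm =>
      intro σ δ hδ hfin hm f hf h
      obtain ⟨x, hx⟩ : {c | δ c = w}.Nonempty := Set.nonempty_of_ncard_ne_zero (by omega)
      refine purity_step hr hx (fun g hg hg' => ?_) hf h
      exact ihm (ℕ × σ) (purity_wt w δ x) (purity_wt_le hδ x) (purity_wt_finite hw hfin x)
        (purity_wt_ncard hw hδ hx hm) g hg hg'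

/-- Induction on `n + 1 - w` (outer) and on the number `m` of letters of weight exactly `w`
(inner), for all alphabets at once.
* If `w > n`, the only word of weight `n` is possibly the empty word, whose coefficient vanishes
  (`LieS_le_fil_one`), so `f = 0`.
* If no letter has weight `w`, pass to `w + 1`.
* Otherwise eliminate a letter `x` of weight `w` with `lazard`:
  `τ = ℕ × σ`, `sh (j,c) = (j+1,c)`, `b c = (0,c)`, `κ (j,c) = ad(x)^j c` for `c ≠ x` and
  `κ (j,x) = 0` (dummy column), weight `j w + (if c = x then w + 1 else δ c)`.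
  The new alphabet has weights `≥ w`, finitely many
  letters of each weight and one letter less of weight `w`.  With `ρ` the action of `lazard`,
  `g = ρ(r f) 1 = r • ρ(f) 1`, and `f̂ = ρ(f) 1` is homogeneous of weight `n`
  (`ev_op_mem_graded`), so `f̂` is Lie by induction; `r • (f - κ f̂) = a • x` forces
  `f - κ f̂ = c • x` (compare coefficients). -/
theorem purity_aux (n : ℕ) {r : ℤ} (hr : r ≠ 0) (w : ℕ) (hw : 1 ≤ w) (σ : Type) (δ : σ → ℕ)
    (hδ : ∀ c, w ≤ δ c) (hfin : ∀ j, {c | δ c = j}.Finite) {f : FA ℤ σ} (hf : f ∈ hom δ n)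
    (h : r • f ∈ LieS ℤ σ) : f ∈ LieS ℤ σ := by
  exact purity_key n hr (n + 1) w hw (by omega) _ σ δ hδ hfin rfl f hf h

theorem purity {σ : Type} [Finite σ] {r : ℤ} (hr : r ≠ 0) {f : FA ℤ σ} (h : r • f ∈ LieS ℤ σ) :
    f ∈ LieS ℤ σ := by
  obtain ⟨N, hN⟩ := exists_sum_proj (one σ) f
  rw [hN N le_rfl]
  refine Submodule.sum_mem _ fun n _ => ?_
  refine purity_aux n hr 1 le_rfl σ (one σ) (fun _ => le_rfl) (fun _ => Set.toFinite _)
    (proj_mem_hom _ n f) ?_
  rw [← map_smul]
  exact proj_mem_LieS _ n h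

end Crest.Agent.R010
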