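import Crest.Agent.R010.ThmA
import Crest.Agent.R010.Purity
import Crest.Agent.R010.Deform
import Crest.Agent.R010.Exist

/-! # Row 10: integral solutions, descent, generators -/

set_option autoImplicit false

noncomputable section

namespace Crest.Agent.R010

/-- Extension of scalars to `ℚ`. -/
abbrev toQ {σ : Type} : FA ℤ σ →+* FA ℚ σ := mapC (Int.castRingHom ℚ)
/-- Reduction modulo two. -/
abbrev toF {σ : Type} : FA ℤ σ →+* FA F2 σ := mapC (Int.castRingHom F2)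

theorem toQ_injective {σ : Type} : Function.Injective (toQ : FA ℤ σ → FA ℚ σ) :=
  mapC_injective (Int.castRingHom ℚ).injective_int

theorem toQ_smul {σ : Type} (r : ℤ) (g : FA ℤ σ) : toQ (r • g) = (r : ℚ) • toQ g :=
  mapC_smul _ r g

/-- Integral solutions. -/
def GG (n : ℕ) : Submodule ℤ (FA ℤ (Fin 2)) where
  carrier := {g | g ∈ LieW ℤ (one (Fin 2)) n ∧ toQ g ∈ Sol ℚ n}
  add_mem' := by
    rintro a b ⟨ha, ha'⟩ ⟨hb, hb'⟩
    exact ⟨add_mem ha hb, by rw [map_add]; exact add_mem ha' hb'⟩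
  zero_mem' := ⟨zero_mem _, by rw [map_zero]; exact zero_mem _⟩
  smul_mem' := by
    rintro c a ⟨ha, ha'⟩
    exact ⟨Submodule.smul_mem _ c ha, by rw [toQ_smul]; exact Submodule.smul_mem _ _ ha'⟩

theorem toF_mem_Sol2 {n : ℕ} (hn : 3 ≤ n) {g : FA ℤ (Fin 2)} (hg : g ∈ GG n) :
    toF g ∈ Sol2 n := by
  have hD : toQ g ∈ LieD ℚ (Fin 2) := mem_LieD_of_LieW hg.2.1 (by omega)
  refine ⟨mapC_mem_LieW _ hg.1, ?_, ?_⟩
  · rw [← mapC_Pmod]
    have : Pmod g = 0 := by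
      apply toQ_injective
      rw [map_zero]
      exact (mapC_Pmod _ g).trans (Pmod_eq_zero_of_APent hD hg.2.2)
    rw [this, map_zero]
  · rw [← mapC_antiD]
    have : antiD g = 0 := by
      apply toQ_injective
      rw [map_zero]
      exact (mapC_antiD _ g).trans (antiD_eq_zero_of_APent hD hg.2.2)
    rw [this, map_zero]

theorem mem_GG_of_smul {n : ℕ} {r : ℤ} (hr : r ≠ 0) {g : FA ℤ (Fin 2)} (h : r • g ∈ GG n) :
    g ∈ GG n := by
  refine ⟨⟨purity hr h.1.1, mem_supp_of_smul_int hr h.1.2⟩, ?_⟩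
  have h2 := h.2
  rw [toQ_smul] at h2
  have hr' : (r : ℚ) ≠ 0 := by exact_mod_cast hr
  have := Submodule.smul_mem _ (r : ℚ)⁻¹ h2
  rwa [smul_smul, inv_mul_cancel₀ hr', one_smul] at this

theorem ihara_mem_GG {m n : ℕ} (hm : 3 ≤ m) (hn : 3 ≤ n) {f g : FA ℤ (Fin 2)} (hf : f ∈ GG m)
    (hg : g ∈ GG n) : ihara f g ∈ GG (m + n) :=
  ⟨ihara_mem_LieW hf.1 hg.1, by
    rw [mapC_ihara]; exact ihara_mem_Sol hm hn hf.2 hg.2⟩

theorem three_le_mdeg (m : FreeMagma ℕ) : 3 ≤ mdeg wt m := by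
  induction m using FreeMagma.recOnMul with
  | ih1 c => simp [wt]
  | ih2 a b ha _ => rw [mdeg_mul]; omega

theorem PhiS_br_mem {k : Type} [CommRing k] (G : ℕ → Submodule k (FA k (Fin 2)))
    (hG : ∀ m n, 3 ≤ m → 3 ≤ n → ∀ f ∈ G m, ∀ g ∈ G n, ihara f g ∈ G (m + n))
    {s : ℕ → FA k (Fin 2)} (hs : ∀ j, s j ∈ G (wt j)) (m : FreeMagma ℕ) :
    PhiS s (br m) ∈ G (mdeg wt m) := by
  induction m using FreeMagma.recOnMul with
  | ih1 c => simpa using hs c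
  | ih2 a b ha hb =>
    rw [br_mul, PhiS_lie s (br_mem_LieS a) (br_mem_LieS b), mdeg_mul]
    exact hG _ _ (three_le_mdeg a) (three_le_mdeg b) _ ha _ hb

theorem PhiS_mem_of_closed {k : Type} [CommRing k] (G : ℕ → Submodule k (FA k (Fin 2)))
    (hG : ∀ m n, 3 ≤ m → 3 ≤ n → ∀ f ∈ G m, ∀ g ∈ G n, ihara f g ∈ G (m + n))
    {s : ℕ → FA k (Fin 2)} (hs : ∀ j, s j ∈ G (wt j)) {n : ℕ} {f : FA k ℕ}
    (hf : f ∈ LieW k wt n) : PhiS s f ∈ G n := by
  rw [LieW_eq_span] at hf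
  induction hf using Submodule.span_induction with
  | mem x hx =>
    obtain ⟨m, rfl, rfl⟩ := hx
    exact PhiS_br_mem G hG hs m
  | zero => simp
  | add a b _ _ ha hb => rw [map_add]; exact add_mem ha hb
  | smul c a _ ha => rw [map_smul]; exact Submodule.smul_mem _ c ha

theorem PhiS_mem_GG {s : ℕ → FA ℤ (Fin 2)} (hs : ∀ j, s j ∈ GG (wt j)) {n : ℕ} {f : FA ℤ ℕ}
    (hf : f ∈ LieW ℤ wt n) : PhiS s f ∈ GG n :=
  PhiS_mem_of_closed GG (fun _ _ hm hn _ hf _ hg => ihara_mem_GG hm hn hf hg) hs hf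

theorem three_le_wt (j : ℕ) : 3 ≤ wt j := by simp [wt]

theorem toF_good {s : ℕ → FA ℤ (Fin 2)} (hs : ∀ j, s j ∈ GG (wt j)) (j : ℕ) :
    toF (s j) ∈ LieS F2 (Fin 2) ∧ toF (s j) ∈ fil (one (Fin 2)) 3 :=
  ⟨mapC_mem_LieS _ (hs j).1.1,
    mem_fil_of_hom (mapC_mem_supp _ (hs j).1.2) (three_le_wt j)⟩

/-- The image of the Lie polynomials of weight `n` and length `≥ d₀`. -/
def Img (s : ℕ → FA ℤ (Fin 2)) (n d₀ : ℕ) : Submodule ℤ (FA ℤ (Fin 2)) :=
  (LieW ℤ wt n ⊓ fil (one ℕ) d₀).map (PhiS s)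

/-- **Descent.** -/
theorem descent {s : ℕ → FA ℤ (Fin 2)} (hs : ∀ j, s j ∈ GG (wt j)) {c : ℕ → F2}
    (hc : ∀ j, proj dep 1 (Qmap (toF (s j))) = c j • eOdd j) {n d₀ : ℕ} (hn : 3 ≤ n)
    (hgood : ∀ w : FreeMonoid ℕ, wdeg wt w = n → d₀ ≤ wdeg (one ℕ) w → ∀ j ∈ w.toList, c j = 1)
    (i : ℕ) : ∀ d, n ≤ 2 * d + i → d₀ ≤ d → ∀ ψ ∈ GG n, Qmap (toF ψ) ∈ fil dep d →
      ψ ∈ Img s n d₀ ⊔ (Ideal.span {(2 : ℤ)}) • GG n := by
  have zero_case : ∀ d, n ≤ 2 * d → ∀ ψ ∈ GG n, Qmap (toF ψ) ∈ fil dep d →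
      ψ ∈ Img s n d₀ ⊔ (Ideal.span {(2 : ℤ)}) • GG n := by
    intro d hd ψ hψ hQ
    have h0 := thmA_zero hn (toF_mem_Sol2 hn hψ) hQ hd
    obtain ⟨g, rfl⟩ := exists_two_smul_of_mapC h0
    refine Submodule.mem_sup_right ?_
    exact Submodule.smul_mem_smul (Ideal.mem_span_singleton_self 2)
      (mem_GG_of_smul (by norm_num) hψ)
  induction i with
  | zero => intro d hd _ ψ hψ hQ; exact zero_case d (by omega) ψ hψ hQ
  | succ i ih =>
    intro d hd hd₀ ψ hψ hQ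
    by_cases h2 : n ≤ 2 * d
    · exact zero_case d h2 ψ hψ hQ
    obtain ⟨f, hf, hfd, hfe⟩ := thmA_lead hn (toF_mem_Sol2 hn hψ) hQ (by omega)
    obtain ⟨g, hg, hgd, rfl⟩ :=
      exists_lift_LieW (φ := Int.castRingHom F2) (ZMod.intCast_surjective) hf hfd
    have hgI : PhiS s g ∈ Img s n d₀ := ⟨g, ⟨hg, mem_fil_of_hom hgd hd₀⟩, rfl⟩
    have hψ' : ψ - PhiS s g ∈ GG n := sub_mem hψ (PhiS_mem_GG hs hg)
    have hlead := Qmap_PhiS (fun j => toF (s j)) c (toF_good hs) hc (mem_fil_of_hom hfd le_rfl)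
    rw [proj_of_hom hfd, ← mapC_PhiS] at hlead
    have hk : (ev (fun j => c j • eOdd j) (toF g) : FA F2 (Fin 2)) = kapOdd (toF g) := by
      refine ev_congr_supp (U := fun j => c j = 1) (fun j hj => by rw [hj, one_smul]) ?_
      have : toF g ∈ (hom wt n ⊓ hom (one ℕ) d : Submodule F2 (FA F2 ℕ)) := ⟨hf.2, hfd⟩
      rw [hom, hom, supp_inf] at this
      exact supp_mono (fun w hw => hgood w hw.1 (by omega)) this
    have hQ' : Qmap (toF (ψ - PhiS s g)) ∈ fil dep (d + 1) := by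
      rw [map_sub, map_sub]
      have h1 := sub_proj_mem_fil hQ
      rw [hfe, ← hk] at h1
      have := sub_mem h1 hlead
      convert this using 1
      abel
    have := ih (d + 1) (by omega) (by omega) _ hψ' hQ'
    have h3 : ψ = PhiS s g + (ψ - PhiS s g) := by abel
    rw [h3]
    exact add_mem (Submodule.mem_sup_left hgI) this

theorem GG_fg (n : ℕ) : (GG n).FG :=
  Submodule.FG.of_le (hom_fg (k := ℤ) (σ := Fin 2) n) (fun _ hg => hg.1.2)

theorem nakayama {s : ℕ → FA ℤ (Fin 2)} {n d₀ : ℕ}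
    (h : GG n ≤ Img s n d₀ ⊔ (Ideal.span {(2 : ℤ)}) • GG n) :
    ∃ r : ℤ, r ≠ 0 ∧ ∀ ψ ∈ GG n, r • ψ ∈ Img s n d₀ := by
  obtain ⟨r, hr, hle⟩ :=
    Submodule.exists_sub_one_mem_and_smul_le_of_fg_of_le_sup (GG_fg n) le_rfl h
  refine ⟨r, ?_, fun ψ hψ => hle (Submodule.smul_mem_pointwise_smul _ _ _ hψ)⟩
  rintro rfl
  rw [Ideal.mem_span_singleton] at hr
  omega

open Classical in
/-- The generators. -/
def sig (j : ℕ) : FA ℤ (Fin 2) :=
  if h : ∃ ψ ∈ GG (wt j), proj dep 1 (Qmap (toF ψ)) = eOdd j then h.choose else 0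

theorem sig_mem (j : ℕ) : sig j ∈ GG (wt j) := by
  unfold sig
  split_ifs with h
  · exact h.choose_spec.1
  · exact zero_mem _

open Classical in
theorem sig_lead (j : ℕ) : proj dep 1 (Qmap (toF (sig j))) =
    (if ∃ ψ ∈ GG (wt j), proj dep 1 (Qmap (toF ψ)) = eOdd j then (1 : F2) else 0) • eOdd j := by
  unfold sig
  split_ifs with h
  · rw [one_smul]; exact h.choose_spec.2
  · simp

theorem wt_le_wdeg {w : FreeMonoid ℕ} {j : ℕ} (hj : j ∈ w.toList) :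
    wt j + 3 * (wdeg (one ℕ) w - 1) ≤ wdeg wt w := by
  rw [wdeg_one_eq_length]
  unfold wdeg
  generalize w.toList = l at hj
  induction l with
  | nil => simp at hj
  | cons a l ih =>
    have hl : 3 * l.length ≤ (l.map wt).sum := by
      clear ih hj
      induction l with
      | nil => simp
      | cons b l ih => have := three_le_wt b; simp only [List.length_cons, List.map_cons,
          List.sum_cons]; omega
    simp only [List.length_cons, List.map_cons, List.sum_cons, List.mem_cons] at hj ⊢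
    rcases hj with rfl | hj
    · omega
    · have := ih hj
      have := three_le_wt a
      have : l.length ≠ 0 := by rintro h; rw [List.length_eq_zero_iff] at h; simp [h] at hj
      omega

theorem wdeg_dep_wXY (n : ℕ) : wdeg dep (wXY n) = 1 := by
  simp [wXY, wdeg_pow, dep]

theorem exists_good (j : ℕ) : ∃ ψ ∈ GG (wt j), proj dep 1 (Qmap (toF ψ)) = eOdd j := by
  induction j using Nat.strong_induction_on with
  | _ j ih =>
  by_contra hno
  have hn := three_le_wt j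
  have hle : GG (wt j) ≤ Img sig (wt j) 2 ⊔ (Ideal.span {(2 : ℤ)}) • GG (wt j) := by
    intro ψ hψ
    refine descent sig_mem sig_lead hn ?_ (wt j) 2 (by omega) le_rfl ψ hψ ?_
    · intro w hw h2 i hi
      have := wt_le_wdeg hi
      rw [if_pos (ih i (by unfold wt at *; omega))]
    · have hL := mapC_mem_LieW (Int.castRingHom F2) hψ.1
      obtain ⟨c, hc⟩ := exists_lead hL
      have hc0 : c = 0 := by
        by_contra h
        have : c = 1 := by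
          revert h; generalize c = c; revert c; decide
        exact hno ⟨ψ, hψ, by rw [hc, this, one_smul]⟩
      refine mem_fil_succ (Qmap_mem_fil_one hL.1 (mem_fil_of_hom hL.2 hn)) ?_
      rw [hc, hc0, zero_smul]
  obtain ⟨r, hr, hI⟩ := nakayama hle
  obtain ⟨ψ, hψ, hcf⟩ := exists_Sol_rat hn ⟨j + 1, by unfold wt; ring⟩
  obtain ⟨r', g, hr', hg, he⟩ := exists_int_LieW hψ.1
  have hgG : g ∈ GG (wt j) := ⟨hg, by
    change mapC _ g ∈ _
    rw [he]; exact Submodule.smul_mem _ _ hψ⟩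
  obtain ⟨f, ⟨-, hf⟩, hfe⟩ := hI g hgG
  have h2 : PhiS sig f ∈ fil dep 2 :=
    PhiS_mem_fil_dep (fun i => mem_fil_dep_one
      (mem_LieD_of_LieW (sig_mem i).1 (by have := three_le_wt i; omega))) hf
  have h3 : cf (wXY (wt j)) (r • g) = 0 := by
    rw [← hfe]; exact h2 _ (by simp only [wdeg_dep_wXY]; omega)
  rw [map_smul, smul_eq_mul, mul_eq_zero] at h3
  have h4 := congrArg (cf (wXY (wt j))) he
  rw [cf_mapC, h3.resolve_left hr, map_zero, map_smul, smul_eq_mul] at h4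
  have : (r' : ℚ) ≠ 0 := by exact_mod_cast hr'
  exact mul_ne_zero this hcf h4.symm

theorem sig_lead' (j : ℕ) : proj dep 1 (Qmap (toF (sig j))) = (1 : F2) • eOdd j := by
  rw [sig_lead, if_pos (exists_good j)]

theorem exists_smul_eq_PhiS {n : ℕ} (hn : 3 ≤ n) {ψ : FA ℤ (Fin 2)} (hψ : ψ ∈ GG n) :
    ∃ (r : ℤ) (f : FA ℤ ℕ), r ≠ 0 ∧ f ∈ LieS ℤ ℕ ∧ PhiS sig f = r • ψ := by
  have hle : GG n ≤ Img sig n 0 ⊔ (Ideal.span {(2 : ℤ)}) • GG n := fun ψ hψ =>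
    descent sig_mem sig_lead' hn (fun _ _ _ _ _ => rfl) n 0 (by omega) le_rfl ψ hψ
      (mem_fil_zero _ _)
  obtain ⟨r, hr, hI⟩ := nakayama hle
  obtain ⟨f, ⟨hf, -⟩, hfe⟩ := hI ψ hψ
  exact ⟨r, f, hr, hf.1, hfe⟩

theorem toF_eq_zero_of_PhiS {f : FA ℤ ℕ} (h : PhiS sig f = 0) : toF f = 0 := by
  by_contra hne
  obtain ⟨d, hd, hp⟩ := exists_lowest (one ℕ) hne
  have hlead := Qmap_PhiS (fun j => toF (sig j)) (fun _ => 1) (toF_good sig_mem) sig_lead' hd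
  rw [← mapC_PhiS, h, map_zero, map_zero, zero_sub, neg_mem_iff] at hlead
  simp only [one_smul] at hlead
  have hh : (ev eOdd (proj (one ℕ) d (toF f)) : FA F2 (Fin 2)) ∈ hom dep d :=
    ev_mem_hom (δ := one ℕ) eOdd_mem_hom_dep (proj_mem_hom _ _ _)
  have h0 := eq_zero_of_hom_of_fil hh hlead (by omega)
  exact hp (kapOdd_injective (by rw [map_zero]; exact h0))

theorem eq_zero_of_PhiS_int {f : FA ℤ ℕ} (h : PhiS sig f = 0) : f = 0 := by
  apply eq_zero_of_two_pow_dvd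
  intro j
  induction j generalizing f with
  | zero => exact ⟨f, by simp⟩
  | succ j ih =>
    obtain ⟨g, rfl⟩ := exists_two_smul_of_mapC (toF_eq_zero_of_PhiS h)
    rw [map_smul] at h
    obtain ⟨g', rfl⟩ := ih (eq_zero_of_smul_eq_zero_int (by norm_num) h)
    exact ⟨g', by rw [smul_smul, pow_succ']⟩

/-- The rational generators. -/
def sigQ (j : ℕ) : FA ℚ (Fin 2) := toQ (sig j)

theorem sigQ_mem (j : ℕ) : sigQ j ∈ Sol ℚ (wt j) := (sig_mem j).2

theorem eq_zero_of_PhiS_rat {f : FA ℚ ℕ} (h : PhiS sigQ f = 0) : f = 0 := by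
  obtain ⟨r, g, hr, he⟩ := exists_int f
  have h1 : toQ (PhiS sig g) = 0 := by
    rw [mapC_PhiS, he, map_smul]
    change _ • PhiS sigQ f = 0
    rw [h, smul_zero]
  have h2 : g = 0 := eq_zero_of_PhiS_int (toQ_injective (by rw [h1, map_zero]))
  rw [h2, map_zero] at he
  have : (r : ℚ) ≠ 0 := by exact_mod_cast hr
  exact (smul_eq_zero.mp he.symm).resolve_left this

theorem PhiS_mem_Sol {n : ℕ} {f : FA ℚ ℕ} (hf : f ∈ LieW ℚ wt n) : PhiS sigQ f ∈ Sol ℚ n :=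
  PhiS_mem_of_closed (Sol ℚ) (fun _ _ hm hn _ hf _ hg => ihara_mem_Sol hm hn hf hg) sigQ_mem hf

theorem exists_PhiS_eq {n : ℕ} (hn : 3 ≤ n) {ψ : FA ℚ (Fin 2)} (hψ : ψ ∈ Sol ℚ n) :
    ∃ f ∈ LieS ℚ ℕ, PhiS sigQ f = ψ := by
  obtain ⟨r', g, hr', hg, he⟩ := exists_int_LieW hψ.1
  have hgG : g ∈ GG n := ⟨hg, by
    change mapC _ g ∈ _
    rw [he]; exact Submodule.smul_mem _ _ hψ⟩
  obtain ⟨r, f, hr, hf, hfe⟩ := exists_smul_eq_PhiS hn hgG
  have h1 : (r : ℚ) ≠ 0 := by exact_mod_cast hr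
  have h2 : (r' : ℚ) ≠ 0 := by exact_mod_cast hr'
  refine ⟨((r : ℚ) * r')⁻¹ • toQ f, Submodule.smul_mem _ _ (mapC_mem_LieS _ hf), ?_⟩
  have h3 : PhiS sigQ (toQ f) = toQ (PhiS sig f) := (mapC_PhiS _ sig f).symm
  rw [map_smul, h3, hfe, toQ_smul]
  change _ • _ • mapC _ g = _
  rw [he, smul_smul, smul_smul]
  have : ((r : ℚ) * r')⁻¹ * r * r' = 1 := by field_simp
  rw [this, one_smul]

end Crest.Agent.R010
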