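import Crest.Agent.R010.Main1
import Crest.Agent.R010.Bridge

/-! # Row 10: the final assembly -/

set_option autoImplicit false

noncomputable section

namespace Crest.Agent.R010

open Crest.NumberTheoryR.GT

theorem PhiS_mem_LieS {f : FA ℚ ℕ} (hf : f ∈ LieS ℚ ℕ) : PhiS sigQ f ∈ LieS ℚ (Fin 2) := by
  obtain ⟨N, hN⟩ := exists_sum_proj wt f
  rw [hN N le_rfl, map_sum]
  exact sum_mem fun n _ => (PhiS_mem_Sol ⟨proj_mem_LieS _ _ hf, proj_mem_hom _ _ _⟩).1.1

/-- The linear map of the theorem. -/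
def PhiFin : FreeLieAlgebra ℚ ℕ →ₗ[ℚ] GTLie :=
  (LinearEquiv.ofInjective (iota (Fin 2)) iota_injective).symm.toLinearMap ∘ₗ
    LinearMap.codRestrict (LinearMap.range (iota (Fin 2))) (PhiS sigQ ∘ₗ iota ℕ)
      (fun u => by rw [range_iota]; exact PhiS_mem_LieS (iota_mem_LieS u))

theorem iota_PhiFin (u : FreeLieAlgebra ℚ ℕ) : iota (Fin 2) (PhiFin u) = PhiS sigQ (iota ℕ u) := by
  have := (LinearEquiv.ofInjective (iota (Fin 2)) iota_injective).apply_symm_apply
    (LinearMap.codRestrict (LinearMap.range (iota (Fin 2))) (PhiS sigQ ∘ₗ iota ℕ)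
      (fun u => by rw [range_iota]; exact PhiS_mem_LieS (iota_mem_LieS u)) u)
  exact congrArg Subtype.val this

theorem eq_zero_of_LieW_lt {n : ℕ} (hn : n < 3) {f : FA ℚ ℕ} (hf : f ∈ LieW ℚ wt n) : f = 0 := by
  rw [LieW_eq_span] at hf
  have : {f : FA ℚ ℕ | ∃ m, mdeg wt m = n ∧ f = br m} = ∅ := by
    ext f
    simp only [Set.mem_setOf_eq, Set.mem_empty_iff_false, iff_false]
    rintro ⟨m, hm, -⟩
    have := three_le_mdeg m
    omega
  rwa [this, Submodule.span_empty, Submodule.mem_bot] at hf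

theorem main :
    ∃ Φ : FreeLieAlgebra ℚ ℕ →ₗ[ℚ] GTLie,
      Function.Injective Φ ∧ LinearMap.range Φ = grtSpace ∧
      (∀ a b : FreeLieAlgebra ℚ ℕ, Φ ⁅a, b⁆ = iharaBracket (Φ a) (Φ b)) ∧
      (∀ k : ℕ, Φ (FreeLieAlgebra.of ℚ k) ∈ weightSubspace (fun _ : Fin 2 => 1) (2 * k + 3)) := by
  refine ⟨PhiFin, ?_, ?_, ?_, ?_⟩
  · rw [injective_iff_map_eq_zero]
    intro u hu
    have h := iota_PhiFin u
    rw [hu, map_zero] at h
    exact iota_injective (by rw [eq_zero_of_PhiS_rat h.symm, map_zero])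
  · apply le_antisymm
    · rintro _ ⟨u, rfl⟩
      obtain ⟨N, c, hc, rfl⟩ := exists_sum_weight wt u
      rw [map_sum]
      refine sum_mem fun n _ => ?_
      have hL : iota ℕ (c n) ∈ LieW ℚ wt n := ⟨iota_mem_LieS _, iota_mem_hom (hc n)⟩
      by_cases hn : 3 ≤ n
      · exact mem_grtSpace_of_Sol hn (by rw [iota_PhiFin]; exact PhiS_mem_Sol hL)
      · have : c n = 0 := iota_injective (by rw [eq_zero_of_LieW_lt (by omega) hL, map_zero])
        rw [this, map_zero]; exact zero_mem _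
    · intro ψ hψ
      have key : ∀ n, ∃ u, iota (Fin 2) (PhiFin u) = proj (one (Fin 2)) n (iota (Fin 2) ψ) := by
        intro n
        by_cases hn : 3 ≤ n
        · obtain ⟨f, hf, hfe⟩ := exists_PhiS_eq hn (proj_mem_Sol hψ n).1
          rw [← range_iota] at hf
          obtain ⟨u, rfl⟩ := hf
          exact ⟨u, by rw [iota_PhiFin, hfe]⟩
        · exact ⟨0, by rw [(proj_mem_Sol hψ n).2 (by omega)]; simp⟩
      choose u hu using key
      obtain ⟨N, hN⟩ := exists_sum_proj (one (Fin 2)) (iota (Fin 2) ψ)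
      refine ⟨∑ n ∈ Finset.range N, u n, iota_injective ?_⟩
      rw [map_sum, map_sum, hN N le_rfl]
      exact Finset.sum_congr rfl fun n _ => hu n
  · intro a b
    apply iota_injective
    rw [iota_iharaBracket, iota_PhiFin, iota_PhiFin, iota_PhiFin, iota_lie,
      PhiS_lie _ (iota_mem_LieS a) (iota_mem_LieS b)]
  · intro k
    rw [mem_weightSubspace_iff, iota_PhiFin, iota_of, PhiS_gen]
    exact (sigQ_mem k).1.2

end Crest.Agent.R010
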