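import Crest.Agent.R010.A3
import Crest.Agent.R010.A5

/-! # Row 10, Theorem A and the leading term of iterated Ihara brackets -/

set_option autoImplicit false

noncomputable section

namespace Crest.Agent.R010

/-- For `d = 0` take `f = 0` (`Qmap_mem_fil_one`).  Otherwise `exists_S`, `pull`, `Pull.mem_fil`,
`Pull.lead_eq`, `exists_kapOdd`, and project `f` to weight `n` and length `d` (`proj_ev` with
`eOdd_mem_hom_wt2`, `eOdd_mem_hom_dep`). -/
theorem thmA_lead {n d : ℕ} (hn : 3 ≤ n) {ψ : FA F2 (Fin 2)} (hψ : ψ ∈ Sol2 n)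
    (hQ : Qmap ψ ∈ fil dep d) (hd : 2 * d < n) :
    ∃ f ∈ LieW F2 wt n, f ∈ hom (one ℕ) d ∧ proj dep d (Qmap ψ) = kapOdd f := by
  obtain ⟨hW, hP, hA⟩ := hψ
  have h3 : ψ ∈ fil (one (Fin 2)) 3 := mem_fil_of_hom hW.2 hn
  rcases Nat.eq_zero_or_pos d with rfl | h1
  · refine ⟨0, zero_mem _, zero_mem _, ?_⟩
    rw [map_zero]
    exact proj_of_fil_lt (Qmap_mem_fil_one hW.1 h3) (by omega)
  obtain ⟨S, hS, rfl⟩ := exists_S hW.1 h3
  rw [Qmap_kap0] at hQ ⊢
  have hPull : Pull n S := pull hn hW hP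
  have hw : S ∈ hom wt3 n := mem_hom_of_kap0 hW.2
  have hfil : S ∈ fil dep3 d := hPull.mem_fil hS hQ (by omega)
  obtain ⟨c, hc⟩ := hPull.lead_eq hw (tau3_of_antiD hA) hfil h1 hd
  have hq : proj dep d (killZ S) ∈ LieS F2 (Fin 2) := proj_mem_LieS _ _ (killZ_mem_LieD hS).1
  have hqd : proj dep d (killZ S) ∈ hom dep d := proj_mem_hom _ _ _
  have hqw : proj dep d (killZ S) ∈ hom wt2 n := proj_mem_hom_of _ (killZ_mem_hom hw)
  obtain ⟨f, hf, hfq⟩ := exists_kapOdd hq (mem_fil_of_hom hqd h1) hc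
  refine ⟨proj wt n (proj (one ℕ) d f),
    ⟨proj_mem_LieS _ _ (proj_mem_LieS _ _ hf), proj_mem_hom _ _ _⟩,
    proj_mem_hom_of _ (proj_mem_hom _ _ _), ?_⟩
  have e1 : ∀ g : FA F2 ℕ, kapOdd (proj wt n g) = proj wt2 n (kapOdd g) := fun g =>
    (proj_ev (δ := wt) (δ' := wt2) eOdd_mem_hom_wt2 n g).symm
  have e2 : ∀ g : FA F2 ℕ, kapOdd (proj (one ℕ) d g) = proj dep d (kapOdd g) := fun g =>
    (proj_ev (δ := one ℕ) (δ' := dep) eOdd_mem_hom_dep d g).symm
  rw [e1, e2, hfq, proj_of_hom hqd, proj_of_hom hqw]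

theorem thmA_wdeg_wt3 (w : FreeMonoid (Fin 3)) :
    wdeg wt3 w = wdeg ![1, 0, 0] w + 2 * wdeg dep3 w := by
  induction w using FreeMonoid.inductionOn' with
  | one => simp
  | of_mul c w ih =>
    rw [wdeg_mul, wdeg_mul, wdeg_mul, ih, wdeg_of, wdeg_of, wdeg_of]
    have : wt3 c = (![1, 0, 0] : Fin 3 → ℕ) c + 2 * dep3 c := by
      fin_cases c <;> rfl
    omega

/-- Take `d' = (n+1)/2 ≤ d`; `Pull.mem_fil` gives depth `≥ d'`; a word of weight `n` and depth
`≥ d'` has no `X`; `Pull.eq_zero`. -/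
theorem thmA_zero {n d : ℕ} (hn : 3 ≤ n) {ψ : FA F2 (Fin 2)} (hψ : ψ ∈ Sol2 n)
    (hQ : Qmap ψ ∈ fil dep d) (hd : n ≤ 2 * d) : ψ = 0 := by
  obtain ⟨hW, hP, -⟩ := hψ
  have h3 : ψ ∈ fil (one (Fin 2)) 3 := mem_fil_of_hom hW.2 hn
  obtain ⟨S, hS, rfl⟩ := exists_S hW.1 h3
  rw [Qmap_kap0] at hQ
  have hPull : Pull n S := pull hn hW hP
  have hw : S ∈ hom wt3 n := mem_hom_of_kap0 hW.2
  have hfil : S ∈ fil dep3 ((n + 1) / 2) :=
    hPull.mem_fil hS (fil_anti _ (by omega) hQ) (by omega)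
  have hX : S ∈ hom ![1, 0, 0] 0 := by
    intro w hw0
    by_contra hne
    have h1 : wdeg wt3 w = n := by
      by_contra h; exact hne (hw w h)
    have h2 : (n + 1) / 2 ≤ wdeg dep3 w := by
      by_contra h; exact hne (hfil w h)
    have h4 := thmA_wdeg_wt3 w
    apply hw0
    omega
  rw [hPull.eq_zero hS hX, map_zero]

/-- `delB` modulo `Z`. -/
def del2 : Module.End F2 (FA F2 (Fin 2)) := der ![gX * gX + gY, ⁅(gX : FA F2 (Fin 2)), gY⁆]

theorem killZ_delB (g : FA F2 (Fin 3)) : killZ (delB g) = del2 (killZ g) := by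
  refine IsDer.intertwine (isDer_der _) (isDer_der _) killZ (fun c => ?_) g
  fin_cases c <;> simp [killZ, map_lie']

theorem thmA_isDer_del2 : IsDer del2 := isDer_der _

theorem thmA_del2_mem_fil {d : ℕ} {g : FA F2 (Fin 2)} (hg : g ∈ fil dep d) :
    del2 g ∈ fil dep d := by
  refine thmA_isDer_del2.mem_fil (e := 0) (fun c => ?_) hg
  fin_cases c
  · exact mem_fil_zero _ _
  · have h : ⁅(gX : FA F2 (Fin 2)), gY⁆ ∈ fil dep (0 + 1) :=
      lie_mem_fil (mem_fil_zero _ _) (mem_fil_of_hom (gen_mem_hom dep 1) le_rfl)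
    simpa [del2, dep] using h

theorem thmA_sL_mem_fil (m : ℕ) : sL F2 m ∈ fil dep 1 :=
  mem_fil_of_hom (sL_mem_hom dep m) (by simp [dep])

theorem thmA_del2_sL (m : ℕ) :
    del2 (sL F2 m) - ((m + 1 : ℕ) : F2) • sL F2 (m + 1) ∈ fil dep 2 := by
  induction m with
  | zero =>
    have : del2 (sL F2 0) - ((0 + 1 : ℕ) : F2) • sL F2 (0 + 1) = 0 := by
      rw [elim_sL_succ, elim_sL_zero]; simp [del2]
    rw [this]; exact zero_mem _
  | succ m ih =>
    have hX : del2 gX = gX * gX + gY := by simp [del2]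
    have h2 : ∀ s : FA F2 (Fin 2), ⁅(gX * gX : FA F2 (Fin 2)), s⁆ =
        ⁅(gX : FA F2 (Fin 2)), ⁅(gX : FA F2 (Fin 2)), s⁆⁆ := by
      intro s
      have h0 := add_self_F2 (gX * s * gX - s * gX * gX)
      simp only [lie_def']
      rw [← sub_eq_zero, ← h0]
      noncomm_ring
    have key : del2 (sL F2 (m + 1)) - ((m + 1 + 1 : ℕ) : F2) • sL F2 (m + 1 + 1) =
        ⁅(gY : FA F2 (Fin 2)), sL F2 m⁆ +
          ⁅(gX : FA F2 (Fin 2)), del2 (sL F2 m) - ((m + 1 : ℕ) : F2) • sL F2 (m + 1)⁆ := by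
      rw [elim_sL_succ (m + 1)]
      conv_lhs => rw [elim_sL_succ m]
      rw [thmA_isDer_del2.map_lie, hX, elim_sL_succ m, ← h2, Nat.cast_succ (m + 1), add_smul,
        one_smul, h2]
      simp only [lie_def', mul_sub, sub_mul, mul_add, add_mul, smul_sub, mul_smul_comm,
        smul_mul_assoc]
      have h0 := add_self_F2 (gX * sL F2 m * gX - sL F2 m * gX * gX)
      rw [← sub_eq_zero, ← h0]
      noncomm_ring
    rw [key]
    refine add_mem ?_ ?_
    · exact lie_mem_fil (m := 1) (n := 1) (mem_fil_of_hom (gen_mem_hom dep 1) le_rfl)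
        (thmA_sL_mem_fil m)
    · exact lie_mem_fil (m := 0) (n := 2) (mem_fil_zero _ _) ih

/-- `del2 = δ⁰ + δ¹`, `δ⁰ : X ↦ X², Y ↦ ⁅X,Y⁆` preserves depth and
`δ⁰ (ad_X^m Y) = (m+1) ad_X^(m+1) Y`; `δ¹ : X ↦ Y, Y ↦ 0` raises depth. -/
theorem del2_eOdd (j : ℕ) : del2 (eOdd j) ∈ fil dep 2 := by
  have h := thmA_del2_sL (2 * j + 1)
  have h0 : ((2 * j + 1 + 1 : ℕ) : F2) = 0 := by
    rw [ZMod.natCast_eq_zero_iff]; omega
  rwa [h0, zero_smul, sub_zero, ← eOdd_eq] at h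

/-- `∇_{κ₀ S}` on the image of `κ₀`: `D(a+b) = ⁅b,σ⁆`, `D(a²) = 0`, `D(b²) = ⁅b²,σ⁆`. -/
theorem nabla_kap0 (S g : FA F2 (Fin 3)) :
    nabla (kap0 S) (kap0 g) =
      kap0 (der ![delB S, 0, ⁅(gen 2 : FA F2 (Fin 3)), S⁆] g + S * g) := by
  rw [nabla_apply, map_add, map_mul]
  congr 1
  refine (IsDer.intertwine (isDer_der _) (isDer_Dih (kap0 S)) kap0 (fun c => ?_) g).symm
  have hx : kap0 (gen 0) = gX + gY := by simp [kap0]
  have hy : kap0 (gen 1) = gX * gX := by simp [kap0]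
  have hz : kap0 (gen 2) = gY * gY := by simp [kap0]
  fin_cases c
  · change kap0 (der _ (gen 0)) = Dih _ (kap0 (gen 0))
    rw [der_gen, hx, map_add, Dih_gX, Dih_gY, zero_add, ← kap0_delB]
    rfl
  · change kap0 (der _ (gen 1)) = Dih _ (kap0 (gen 1))
    rw [der_gen, hy, isDer_Dih, Dih_gX]
    simp
  · change kap0 (der _ (gen 2)) = Dih _ (kap0 (gen 2))
    rw [der_gen, hz, isDer_Dih, Dih_gY]
    change kap0 ⁅(gen 2 : FA F2 (Fin 3)), S⁆ = _
    rw [map_lie', hz]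
    simp only [lie_def']
    noncomm_ring

theorem thmA_killZ_der (S g : FA F2 (Fin 3)) :
    killZ (der ![delB S, 0, ⁅(gen 2 : FA F2 (Fin 3)), S⁆] g) =
      der ![del2 (killZ S), 0] (killZ g) := by
  refine IsDer.intertwine (isDer_der _) (isDer_der _) killZ (fun c => ?_) g
  have hx : killZ (gen 0) = gX := by simp [killZ]
  have hy : killZ (gen 1) = gY := by simp [killZ]
  have hz : killZ (gen 2) = 0 := by simp [killZ]
  fin_cases c
  · change killZ (der _ (gen 0)) = der _ (killZ (gen 0))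
    rw [der_gen, hx, der_gen, ← killZ_delB]
    rfl
  · change killZ (der _ (gen 1)) = der _ (killZ (gen 1))
    rw [der_gen, hy, der_gen]
    simp
  · change killZ (der _ (gen 2)) = der _ (killZ (gen 2))
    rw [der_gen, hz, map_zero]
    change killZ ⁅(gen 2 : FA F2 (Fin 3)), S⁆ = _
    rw [map_lie', hz, lie_def']
    simp

/-- `Q (Φ f) = f(O_0, O_1, …) 1` with `O_j = der ![del2 q_j, 0] + L q_j`, `q_j = Q (s j)`
(two uses of `ev_intertwine`, along `κ₀` and along `killZ`). -/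
theorem Qmap_PhiS_eq (s : ℕ → FA F2 (Fin 2))
    (hs : ∀ j, s j ∈ LieS F2 (Fin 2) ∧ s j ∈ fil (one (Fin 2)) 3) (f : FA F2 ℕ) :
    Qmap (PhiS s f) =
      (ev (fun j => der ![del2 (Qmap (s j)), 0] + Lm (Qmap (s j))) f :
        Module.End F2 (FA F2 (Fin 2))) 1 := by
  choose S hS hS' using fun j => exists_S (hs j).1 (hs j).2
  let O : ℕ → Module.End F2 (FA F2 (Fin 3)) := fun j =>
    der ![delB (S j), 0, ⁅(gen 2 : FA F2 (Fin 3)), S j⁆] + Lm (S j)
  have h1 : PhiS s f = kap0 (ev O f 1) := by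
    have := ev_intertwine kap0.toLinearMap O (fun j => nabla (s j)) (fun j x => by
      rw [← hS' j, AlgHom.toLinearMap_apply, AlgHom.toLinearMap_apply, nabla_kap0]
      rfl) f 1
    rw [AlgHom.toLinearMap_apply, AlgHom.toLinearMap_apply, map_one kap0] at this
    rw [PhiS_apply, this]
  have h2 := ev_intertwine killZ.toLinearMap O
    (fun j => der ![del2 (Qmap (s j)), 0] + Lm (Qmap (s j))) (fun j x => by
      rw [← hS' j, Qmap_kap0, AlgHom.toLinearMap_apply, AlgHom.toLinearMap_apply,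
        LinearMap.add_apply, LinearMap.add_apply, map_add, thmA_killZ_der,
        LinearMap.mulLeft_apply, LinearMap.mulLeft_apply, map_mul]) f 1
  rw [AlgHom.toLinearMap_apply, AlgHom.toLinearMap_apply, map_one killZ] at h2
  rw [h1, Qmap_kap0, h2]

/-- **Freeness.** `ev_op_lead` with leading operators `L (c j • eOdd j)`. -/
theorem Qmap_PhiS (s : ℕ → FA F2 (Fin 2)) (c : ℕ → F2)
    (hs : ∀ j, s j ∈ LieS F2 (Fin 2) ∧ s j ∈ fil (one (Fin 2)) 3)
    (hc : ∀ j, proj dep 1 (Qmap (s j)) = c j • eOdd j) {d : ℕ} {f : FA F2 ℕ}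
    (hf : f ∈ fil (one ℕ) d) :
    Qmap (PhiS s f) - ev (fun j => c j • eOdd j) (proj (one ℕ) d f) ∈ fil dep (d + 1) := by
  have hq : ∀ j, Qmap (s j) - c j • eOdd j ∈ fil dep 2 := fun j => by
    rw [← hc j]
    exact sub_proj_mem_fil (Qmap_mem_fil_one (hs j).1 (hs j).2)
  have hdel : ∀ j, del2 (Qmap (s j)) ∈ fil dep 2 := fun j => by
    have e : del2 (Qmap (s j)) = del2 (Qmap (s j) - c j • eOdd j) + c j • del2 (eOdd j) := by
      rw [map_sub, map_smul, sub_add_cancel]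
    rw [e]
    exact add_mem (thmA_del2_mem_fil (hq j)) (Submodule.smul_mem _ _ (del2_eOdd j))
  have h := ev_op_lead (fil dep) (fun _ _ h => fil_anti dep h) (one ℕ)
    (fun j => der ![del2 (Qmap (s j)), 0] + Lm (Qmap (s j)))
    (fun j => (Lm (c j • eOdd j) : Module.End F2 (FA F2 (Fin 2))))
    (fun j i x hx => by
      rw [LinearMap.mulLeft_apply, add_comm]
      exact mul_mem_fil (Submodule.smul_mem _ _ (mem_fil_of_hom (eOdd_mem_hom_dep j) le_rfl)) hx)
    (fun j i x hx => by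
      rw [LinearMap.add_apply, LinearMap.mulLeft_apply, LinearMap.mulLeft_apply, add_sub_assoc,
        ← sub_mul]
      refine add_mem ?_ ?_
      · refine (isDer_der _).mem_fil (e := 2) (fun a => ?_) hx
        rw [der_gen]
        fin_cases a
        · exact hdel j
        · exact zero_mem _
      · have := mul_mem_fil (hq j) hx
        rwa [add_comm] at this)
    hf (mem_fil_zero dep 1)
  rw [ev_Lm, LinearMap.mulLeft_apply, mul_one, zero_add, ← Qmap_PhiS_eq s hs] at h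
  exact h

end Crest.Agent.R010
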